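import Mathlib

/-!
# Abstract Hilbert space lemmas behind the gate inequality
-/

set_option linter.unusedSectionVars false
set_option linter.unusedVariables false
set_option linter.deprecated false

namespace Vale.Agent.Lib.P368

open scoped BigOperators InnerProductSpace ComplexConjugate

variable {E : Type*} [NormedAddCommGroup E] [InnerProductSpace ℂ E] [CompleteSpace E]

theorem inner_star_left' (A : E →L[ℂ] E) (x y : E) : ⟪star A x, y⟫_ℂ = ⟪x, A y⟫_ℂ := by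
  rw [ContinuousLinearMap.star_eq_adjoint, ContinuousLinearMap.adjoint_inner_left]

theorem inner_star_right' (A : E →L[ℂ] E) (x y : E) : ⟪x, star A y⟫_ℂ = ⟪A x, y⟫_ℂ := by
  rw [ContinuousLinearMap.star_eq_adjoint, ContinuousLinearMap.adjoint_inner_right]

theorem norm_sq_eq_re_inner' (x : E) : ‖x‖ ^ 2 = (⟪x, x⟫_ℂ).re := by
  rw [inner_self_eq_norm_sq_to_K]; norm_cast

theorem inner_self_cx (x : E) : ⟪x, x⟫_ℂ = ((‖x‖ ^ 2 : ℝ) : ℂ) := by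
  rw [inner_self_eq_norm_sq_to_K]; norm_cast

/-- Projector: norm squared of the image is the expectation. -/
theorem proj_norm_sq {K : E →L[ℂ] E} (hK : K * K = K) (hKs : star K = K) (v : E) :
    ⟪v, K v⟫_ℂ = ((‖K v‖ ^ 2 : ℝ) : ℂ) := by
  rw [← inner_self_cx]
  have : ⟪K v, K v⟫_ℂ = ⟪v, star K (K v)⟫_ℂ := (inner_star_right' K v (K v)).symm
  rw [this, hKs]
  have h2 : K (K v) = K v := by
    have := congrArg (fun A : E →L[ℂ] E => A v) hK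
    simpa using this
  rw [h2]

theorem proj_norm_le {K : E →L[ℂ] E} (hK : K * K = K) (hKs : star K = K) (v : E) :
    ‖K v‖ ≤ ‖v‖ := by
  by_cases h : ‖K v‖ = 0
  · rw [h]; exact norm_nonneg _
  have h1 := proj_norm_sq hK hKs v
  have h2 : ‖K v‖ ^ 2 ≤ ‖v‖ * ‖K v‖ := by
    have h3 : ‖⟪v, K v⟫_ℂ‖ ≤ ‖v‖ * ‖K v‖ := norm_inner_le_norm v (K v)
    rw [h1] at h3
    simpa using h3
  have hpos : 0 < ‖K v‖ := lt_of_le_of_ne (norm_nonneg _) (Ne.symm h)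
  nlinarith

theorem proj_norm_sq_le {K : E →L[ℂ] E} (hK : K * K = K) (hKs : star K = K) (v : E) :
    ‖K v‖ ^ 2 ≤ ‖v‖ ^ 2 := by
  have := proj_norm_le hK hKs v
  have h0 := norm_nonneg (K v)
  nlinarith

/-- From a bound on the adjoint to a bound on the operator. -/
theorem norm_sq_le_of_adjoint {T : E →L[ℂ] E} {c : ℝ} (hc : 0 ≤ c)
    (h : ∀ v, ‖star T v‖ ^ 2 ≤ c * ‖v‖ ^ 2) (ζ : E) : ‖T ζ‖ ^ 2 ≤ c * ‖ζ‖ ^ 2 := by
  have h1 : ‖T ζ‖ ^ 2 ≤ ‖star T (T ζ)‖ * ‖ζ‖ := by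
    rw [norm_sq_eq_re_inner' (T ζ)]
    have : ⟪T ζ, T ζ⟫_ℂ = ⟪star T (T ζ), ζ⟫_ℂ := (inner_star_left' T (T ζ) ζ).symm
    rw [this]
    exact (Complex.re_le_norm _).trans (norm_inner_le_norm _ _)
  have h2 := h (T ζ)
  by_cases h0 : ‖T ζ‖ = 0
  · have h00 : 0 ≤ c * ‖ζ‖ ^ 2 := by positivity
    simpa [h0] using h00
  have hpos : 0 < ‖T ζ‖ ^ 2 := by positivity
  have h3 : (‖T ζ‖ ^ 2) ^ 2 ≤ (‖star T (T ζ)‖ * ‖ζ‖) ^ 2 :=
    pow_le_pow_left₀ hpos.le h1 2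
  have h4 : (‖star T (T ζ)‖ * ‖ζ‖) ^ 2 ≤ c * ‖T ζ‖ ^ 2 * ‖ζ‖ ^ 2 := by
    rw [mul_pow]
    exact mul_le_mul_of_nonneg_right h2 (by positivity)
  have h5 : ‖T ζ‖ ^ 2 * ‖T ζ‖ ^ 2 ≤ (c * ‖ζ‖ ^ 2) * ‖T ζ‖ ^ 2 := by nlinarith
  exact le_of_mul_le_mul_right h5 hpos

/-- The branch lemma for a rank-one-type projector `K`. -/
theorem branch_lemma {ι κ : Type*} [DecidableEq κ] (sL : Finset ι) (sR : Finset κ)
    (K PL PR : E →L[ℂ] E) (U : ι → E →L[ℂ] E) (V : κ → E →L[ℂ] E) (w : E) (j0 : ι) (i0 : κ)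
    (hi0 : i0 ∈ sR) (hK : K * K = K) (hKs : star K = K) (hw : ‖w‖ = 1)
    (hPL : star PL = PL) (hPLid : PL * PL = PL) (hPR : star PR = PR) (hPRid : PR * PR = PR)
    (hcomm : PL * PR = PR * PL) (hUj0 : U j0 = PL) (hVi0 : V i0 = PR)
    (hU : ∀ v, ∑ s ∈ sL, ‖star (U s) v‖ ^ 2 ≤ ‖v‖ ^ 2)
    (hV : ∀ v, ∑ s ∈ sR, ‖star (V s) v‖ ^ 2 ≤ ‖v‖ ^ 2)
    (hPLV : ∀ s ∈ sR, PL * V s = V s * PL)
    (hRO1 : K * PR * K = ⟪w, PR w⟫_ℂ • K)
    (hRO2 : ∀ s ∈ sR, K * (PL * V s * star (V s) * PL) * K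
        = ⟪w, (PL * V s * star (V s) * PL) w⟫_ℂ • K)
    (ζ : E) :
    (∑ s ∈ sL, ∑ s' ∈ sR, ‖(star (U s) * PR * K * PL * V s') ζ‖ ^ 2 ≤ ‖ζ‖ ^ 2) ∧
    (2 * (∑ s ∈ sL, ∑ s' ∈ sR, ‖(star (U s) * PR * K * PL * V s') ζ‖ ^ 2) - ‖ζ‖ ^ 2
      ≤ (⟪ζ, (star (U j0) * PR * K * PL * V i0) ζ⟫_ℂ).re) := by
  set A : ℝ := ‖PR w‖ ^ 2 with hA
  have hA0 : 0 ≤ A := by positivity
  have hKv : ∀ v, ‖K v‖ ^ 2 ≤ ‖v‖ ^ 2 := proj_norm_sq_le hK hKs
  have hPLv : ∀ v, ‖PL v‖ ^ 2 ≤ ‖v‖ ^ 2 := proj_norm_sq_le hPLid hPL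
  -- expectation of PR
  have hPRw : ⟪w, PR w⟫_ℂ = (A : ℂ) := proj_norm_sq hPRid hPR w
  -- step 2
  have hstep2 : ∀ z, ‖PR (K z)‖ ^ 2 = A * ‖K z‖ ^ 2 := by
    intro z
    have h1 := proj_norm_sq hPRid hPR (K z)
    have h2 : ⟪K z, PR (K z)⟫_ℂ = ⟪z, (K * PR * K) z⟫_ℂ := by
      rw [← inner_star_right' K z (PR (K z)), hKs]; rfl
    rw [hRO1, hPRw, smul_apply, inner_smul_right, proj_norm_sq hK hKs z, h1] at h2
    exact_mod_cast h2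
  -- n_s
  set n : κ → ℝ := fun s => ‖star (V s) (PL w)‖ ^ 2 with hn
  have hn0 : ∀ s, 0 ≤ n s := fun s => by positivity
  have hnle : ∀ s ∈ sR, n s ≤ ‖star (V s) w‖ ^ 2 := by
    intro s hs
    have hc : star (V s) * PL = PL * star (V s) := by
      have := congrArg star (hPLV s hs)
      simpa [star_mul, hPL] using this
    have h1 : star (V s) (PL w) = PL (star (V s) w) := by
      have := congrArg (fun T : E →L[ℂ] E => T w) hc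
      simpa using this
    simp only [hn]
    rw [h1]
    exact hPLv _
  -- step 3
  have hstep3 : ∀ s ∈ sR, ‖K (PL (V s ζ))‖ ^ 2 ≤ n s * ‖ζ‖ ^ 2 := by
    intro s hs
    have h := norm_sq_le_of_adjoint (T := K * PL * V s) (c := n s) (hn0 s) ?_ ζ
    · simpa using h
    intro v
    have hst : star (K * PL * V s) = star (V s) * PL * K := by
      simp [star_mul, hKs, hPL, mul_assoc]
    have h1 : ⟪v, (K * (PL * V s * star (V s) * PL) * K) v⟫_ℂ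
        = ((‖star (K * PL * V s) v‖ ^ 2 : ℝ) : ℂ) := by
      rw [← inner_self_cx, hst]
      have e1 : (K * (PL * V s * star (V s) * PL) * K) v
          = star (star (V s) * PL * K) ((star (V s) * PL * K) v) := by
        simp [star_mul, hKs, hPL, mul_assoc]
      rw [e1, inner_star_right']
    have h2 : ⟪w, (PL * V s * star (V s) * PL) w⟫_ℂ = ((n s : ℝ) : ℂ) := by
      simp only [hn]
      rw [← inner_self_cx]
      have e1 : (PL * V s * star (V s) * PL) w = star (star (V s) * PL) ((star (V s) * PL) w) := by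
        simp [star_mul, hPL, mul_assoc]
      rw [e1, inner_star_right']
      rfl
    rw [hRO2 s hs, h2, smul_apply, inner_smul_right,
      proj_norm_sq hK hKs v] at h1
    have h3 : ‖star (K * PL * V s) v‖ ^ 2 = n s * ‖K v‖ ^ 2 := by
      exact_mod_cast h1.symm
    rw [h3]
    exact mul_le_mul_of_nonneg_left (hKv v) (hn0 s)
  -- Bessel for w
  have hw2 : ‖w‖ ^ 2 = 1 := by rw [hw]; norm_num
  have hVw := hV w
  rw [hw2] at hVw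
  have hsplit : ‖star (V i0) w‖ ^ 2 + ∑ s ∈ sR.erase i0, ‖star (V s) w‖ ^ 2
      = ∑ s ∈ sR, ‖star (V s) w‖ ^ 2 :=
    Finset.add_sum_erase sR (fun s => ‖star (V s) w‖ ^ 2) hi0
  have hVi0w : ‖star (V i0) w‖ ^ 2 = A := by rw [hVi0, hPR]
  have hrest : ∑ s ∈ sR.erase i0, n s ≤ 1 - A := by
    have h1 : ∑ s ∈ sR.erase i0, n s ≤ ∑ s ∈ sR.erase i0, ‖star (V s) w‖ ^ 2 :=
      Finset.sum_le_sum fun s hs => hnle s (Finset.mem_of_mem_erase hs)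
    linarith
  have hA1 : A ≤ 1 := by
    have : 0 ≤ ∑ s ∈ sR.erase i0, n s := Finset.sum_nonneg fun s _ => hn0 s
    linarith
  have hni0 : n i0 ≤ A := by
    have := hnle i0 hi0
    rwa [hVi0w] at this
  set y : κ → E := fun s => K (PL (V s ζ)) with hy
  set B : ℝ := ∑ s ∈ sR, ‖y s‖ ^ 2 with hB
  set c : ℝ := ‖ζ‖ ^ 2 with hc
  have hc0 : 0 ≤ c := by positivity
  have hBrest : ∑ s ∈ sR.erase i0, ‖y s‖ ^ 2 ≤ (1 - A) * c := by
    calc ∑ s ∈ sR.erase i0, ‖y s‖ ^ 2 ≤ ∑ s ∈ sR.erase i0, n s * c :=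
          Finset.sum_le_sum fun s hs => hstep3 s (Finset.mem_of_mem_erase hs)
      _ = (∑ s ∈ sR.erase i0, n s) * c := by rw [Finset.sum_mul]
      _ ≤ (1 - A) * c := mul_le_mul_of_nonneg_right hrest hc0
  have hBsplit : ‖y i0‖ ^ 2 + ∑ s ∈ sR.erase i0, ‖y s‖ ^ 2 = B :=
    Finset.add_sum_erase sR (fun s => ‖y s‖ ^ 2) hi0
  have hyi0 : ‖y i0‖ ^ 2 ≤ A * c := by
    have h1 := hstep3 i0 hi0
    exact h1.trans (mul_le_mul_of_nonneg_right hni0 hc0)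
  have hBc : B ≤ c := by nlinarith
  have hB0 : 0 ≤ B := Finset.sum_nonneg fun s _ => by positivity
  -- the double sum
  have hS : ∑ s ∈ sL, ∑ s' ∈ sR, ‖(star (U s) * PR * K * PL * V s') ζ‖ ^ 2 ≤ A * B := by
    rw [Finset.sum_comm]
    calc ∑ s' ∈ sR, ∑ s ∈ sL, ‖(star (U s) * PR * K * PL * V s') ζ‖ ^ 2
        ≤ ∑ s' ∈ sR, ‖PR (y s')‖ ^ 2 := by
          refine Finset.sum_le_sum fun s' _ => ?_
          exact hU (PR (y s'))
      _ = A * B := by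
          rw [hB, Finset.mul_sum]
          exact Finset.sum_congr rfl fun s' _ => hstep2 _
  have hS0 : 0 ≤ ∑ s ∈ sL, ∑ s' ∈ sR, ‖(star (U s) * PR * K * PL * V s') ζ‖ ^ 2 :=
    Finset.sum_nonneg fun _ _ => Finset.sum_nonneg fun _ _ => by positivity
  have hr : (⟪ζ, (star (U j0) * PR * K * PL * V i0) ζ⟫_ℂ).re = ‖y i0‖ ^ 2 := by
    rw [hUj0, hVi0, hPL]
    have e1 : (PL * PR * K * PL * PR) ζ = star (PR * PL) (K ((PR * PL) ζ)) := by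
      rw [← hcomm]
      simp [star_mul, hPL, hPR, hcomm, mul_assoc]
    rw [e1, inner_star_right']
    have e2 : (PR * PL) ζ = PL (PR ζ) := by
      rw [← hcomm]; rfl
    rw [e2, proj_norm_sq hK hKs (PL (PR ζ)), Complex.ofReal_re]
    simp [hy, hVi0]
  constructor
  · exact hS.trans (by nlinarith)
  · rw [hr]
    nlinarith

/-- The variance identity. -/
theorem variance_identity (Y0 Y1 : E) (p : ℝ) :
    ‖((1 - p : ℝ) : ℂ) • Y0 + (p : ℂ) • Y1‖ ^ 2 + p * (1 - p) * ‖Y1 - Y0‖ ^ 2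
      = (1 - p) * ‖Y0‖ ^ 2 + p * ‖Y1‖ ^ 2 := by
  have h1 : ‖((1 - p : ℝ) : ℂ) • Y0 + (p : ℂ) • Y1‖ ^ 2
      = (1 - p) ^ 2 * ‖Y0‖ ^ 2 + p ^ 2 * ‖Y1‖ ^ 2 + 2 * (1 - p) * p * (⟪Y0, Y1⟫_ℂ).re := by
    rw [norm_add_sq (𝕜 := ℂ)]
    rw [inner_smul_left, inner_smul_right, norm_smul, norm_smul]
    simp only [Complex.conj_ofReal, Complex.norm_real, Real.norm_eq_abs, mul_pow, sq_abs]
    have : ((((1 - p : ℝ) : ℂ)) * ((p : ℂ) * ⟪Y0, Y1⟫_ℂ)).re = (1 - p) * p * (⟪Y0, Y1⟫_ℂ).re := by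
      rw [← mul_assoc, ← Complex.ofReal_mul, Complex.re_ofReal_mul]
    simp only [RCLike.re_to_complex]
    rw [this]
    ring
  have h2 : ‖Y1 - Y0‖ ^ 2 = ‖Y1‖ ^ 2 - 2 * (⟪Y0, Y1⟫_ℂ).re + ‖Y0‖ ^ 2 := by
    rw [norm_sub_sq (𝕜 := ℂ)]
    have : (⟪Y1, Y0⟫_ℂ).re = (⟪Y0, Y1⟫_ℂ).re := by
      simpa using inner_re_symm (𝕜 := ℂ) Y1 Y0
    simp only [RCLike.re_to_complex]
    rw [this]
  rw [h1, h2]
  ring

/-- Orthogonality of the two eigenspaces of a projector. -/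
theorem proj_orth {P : E →L[ℂ] E} (hPs : star P = P) {x y : E} (hx : P x = 0) (hy : P y = y) :
    ⟪x, y⟫_ℂ = 0 := by
  have : ⟪x, y⟫_ℂ = ⟪x, P y⟫_ℂ := by rw [hy]
  rw [this, ← inner_star_left' P x y, hPs, hx, inner_zero_left]

theorem proj_orth' {P : E →L[ℂ] E} (hPs : star P = P) {x y : E} (hx : P x = x) (hy : P y = 0) :
    ⟪x, y⟫_ℂ = 0 := by
  have : ⟪x, y⟫_ℂ = ⟪P x, y⟫_ℂ := by rw [hx]
  rw [this, ← inner_star_right' P x y, hPs, hy, inner_zero_right]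

theorem proj_norm_add {P : E →L[ℂ] E} (hPs : star P = P) {x y : E} (hx : P x = 0) (hy : P y = y) :
    ‖x + y‖ ^ 2 = ‖x‖ ^ 2 + ‖y‖ ^ 2 := by
  rw [norm_add_sq (𝕜 := ℂ), proj_orth hPs hx hy]
  simp

theorem gain_numeric {G z st : ℝ} (hG0 : 0 ≤ G) (hz0 : 0 ≤ z) (hst0 : 0 ≤ st)
    (hstle : st ≤ G ^ 2) (hkey : 2 * st - G ^ 2 ≤ G * z) :
    4 / 3 * st - 1 / 3 * z ^ 2 ≤ G ^ 2 := by
  by_cases hcase : 2 * st ≤ G ^ 2
  · nlinarith [sq_nonneg z]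
  · have hcase' : G ^ 2 < 2 * st := not_le.mp hcase
    have hGpos : 0 < G := by
      by_contra h
      have h0 : G = 0 := le_antisymm (not_lt.mp h) hG0
      rw [h0] at hstle hcase'
      nlinarith
    have h1 : (2 * st - G ^ 2) ^ 2 ≤ (G * z) ^ 2 :=
      pow_le_pow_left₀ (by linarith) hkey 2
    have h3 : G ^ 2 * (4 / 3 * st - 1 / 3 * z ^ 2) = 4 / 3 * G ^ 2 * st - 1 / 3 * (G * z) ^ 2 := by
      ring
    have h4 : 4 / 3 * G ^ 2 * st - 1 / 3 * (2 * st - G ^ 2) ^ 2 ≤ G ^ 2 * G ^ 2 := by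
      nlinarith [sq_nonneg (G ^ 2 - st)]
    have h2 : G ^ 2 * (4 / 3 * st - 1 / 3 * z ^ 2) ≤ G ^ 2 * G ^ 2 := by
      rw [h3]; linarith
    exact le_of_mul_le_mul_left h2 (by positivity)

/-- The gain at a gate: the mixture of two branches. -/
theorem mixture_lemma {σ υ : Type*} [DecidableEq σ] [DecidableEq υ] (S : Finset σ) (T : Finset υ)
    (s0 : σ) (u0 : υ) (hs0 : s0 ∈ S) (hu0 : u0 ∈ T)
    (m l : σ → E →L[ℂ] E) (P PG : E →L[ℂ] E) (b : υ → ℂ) (p : ℝ)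
    (hP : P * P = P) (hPs : star P = P) (hG : PG * PG = PG) (hGs : star PG = PG)
    (hGP : Commute PG P)
    (hPm : ∀ s ∈ S, Commute P (m s)) (hPl : ∀ s ∈ S, Commute P (l s))
    (hGm : ∀ s ∈ S, Commute PG (m s)) (hGl : ∀ s ∈ S, Commute PG (l s))
    (hp0 : 0 ≤ p) (hp1 : p ≤ 1) (hb : ∑ u ∈ T.erase u0, ‖b u‖ ^ 2 ≤ p - p ^ 2)
    (hm1 : ∀ ζ, ∑ s ∈ S, ‖m s ζ‖ ^ 2 ≤ ‖ζ‖ ^ 2)
    (hm2 : ∀ ζ, 2 * (∑ s ∈ S, ‖m s ζ‖ ^ 2) - ‖ζ‖ ^ 2 ≤ (⟪ζ, m s0 ζ⟫_ℂ).re)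
    (hl1 : ∀ ζ, ∑ s ∈ S, ‖l s ζ‖ ^ 2 ≤ ‖ζ‖ ^ 2)
    (hl2 : ∀ ζ, 2 * (∑ s ∈ S, ‖l s ζ‖ ^ 2) - ‖ζ‖ ^ 2 ≤ (⟪ζ, l s0 ζ⟫_ℂ).re)
    (M : σ → υ → E →L[ℂ] E)
    (hM0 : ∀ s ∈ S, M s u0 = PG * (m s + (p : ℂ) • (P * (l s - m s))))
    (hM : ∀ s ∈ S, ∀ u ∈ T, u ≠ u0 → M s u = b u • (PG * (P * (l s - m s))))
    (η : E) :
    ∑ s ∈ S, ∑ u ∈ T, (if s = s0 ∧ u = u0 then (1 : ℝ) else 4 / 3) * ‖M s u η‖ ^ 2 ≤ ‖η‖ ^ 2 := by
  set g := PG η with hg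
  set B := P g with hB
  set A := g - B with hA
  have hPB : P B = B := by
    have := congrArg (fun T : E →L[ℂ] E => T g) hP
    simpa using this
  have hPA : P A = 0 := by
    have e : P g = B := rfl
    rw [hA, map_sub, hPB, e, sub_self]
  have hgA : g = A + B := by simp [hA]
  have hnorm : ‖g‖ ^ 2 = ‖A‖ ^ 2 + ‖B‖ ^ 2 := by
    rw [hgA]; exact proj_norm_add hPs hPA hPB
  have hgle : ‖g‖ ^ 2 ≤ ‖η‖ ^ 2 := proj_norm_sq_le hG hGs η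
  -- action of the commuting projectors on vectors
  have comm_app : ∀ (X : E →L[ℂ] E) (v : E), Commute P X → P v = 0 → P (X v) = 0 := by
    intro X v hX hv
    have := congrArg (fun T : E →L[ℂ] E => T v) hX.eq
    simp only [ContinuousLinearMap.mul_apply, hv, map_zero] at this
    exact this
  have comm_app' : ∀ (X : E →L[ℂ] E) (v : E), Commute P X → P v = v → P (X v) = X v := by
    intro X v hX hv
    have := congrArg (fun T : E →L[ℂ] E => T v) hX.eq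
    simp only [ContinuousLinearMap.mul_apply, hv] at this
    exact this
  set Y : σ → E →L[ℂ] E := fun s => P * (l s - m s) with hY
  have hGY : ∀ s ∈ S, Commute PG (Y s) := fun s hs =>
    hGP.mul_right ((hGl s hs).sub_right (hGm s hs))
  set X : σ → E →L[ℂ] E := fun s => m s + (p : ℂ) • Y s with hX
  have hGX : ∀ s ∈ S, Commute PG (X s) := fun s hs =>
    (hGm s hs).add_right ((hGY s hs).smul_right _)
  have hMX : ∀ s ∈ S, M s u0 η = X s g := by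
    intro s hs
    rw [hM0 s hs]
    have := congrArg (fun T : E →L[ℂ] E => T η) (hGX s hs).eq
    simpa [hX, hY] using this
  have hMY : ∀ s ∈ S, ∀ u ∈ T, u ≠ u0 → M s u η = b u • Y s g := by
    intro s hs u hu hu'
    rw [hM s hs u hu hu']
    have := congrArg (fun T : E →L[ℂ] E => T η) (hGY s hs).eq
    simp only [ContinuousLinearMap.mul_apply] at this
    simp only [smul_apply, ContinuousLinearMap.mul_apply]
    have e : PG (P ((l s - m s) η)) = (Y s) (PG η) := by simpa [hY] using this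
    rw [e]
  have hYg : ∀ s ∈ S, Y s g = l s B - m s B := by
    intro s hs
    have h2 := congrArg (fun T : E →L[ℂ] E => T g) ((hPl s hs).sub_right (hPm s hs)).eq
    simp only [ContinuousLinearMap.mul_apply] at h2
    simp only [hY, ContinuousLinearMap.mul_apply]
    rw [h2]
    simp [hB]
  have hXg : ∀ s ∈ S, X s g = m s A + (((1 - p : ℝ) : ℂ) • m s B + (p : ℂ) • l s B) := by
    intro s hs
    simp only [hX, add_apply, smul_apply]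
    rw [hYg s hs]
    conv_lhs => rw [hgA]
    rw [map_add]
    simp only [Complex.ofReal_sub, Complex.ofReal_one, sub_smul, one_smul, smul_sub]
    abel
  -- per s
  have hper : ∀ s ∈ S, ∑ u ∈ T, ‖M s u η‖ ^ 2
      ≤ ‖m s A‖ ^ 2 + (1 - p) * ‖m s B‖ ^ 2 + p * ‖l s B‖ ^ 2 := by
    intro s hs
    have h1 : ‖M s u0 η‖ ^ 2 + ∑ u ∈ T.erase u0, ‖M s u η‖ ^ 2 = ∑ u ∈ T, ‖M s u η‖ ^ 2 :=
      Finset.add_sum_erase T (fun u => ‖M s u η‖ ^ 2) hu0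
    have h2 : ‖M s u0 η‖ ^ 2 = ‖m s A‖ ^ 2
        + ‖((1 - p : ℝ) : ℂ) • m s B + (p : ℂ) • l s B‖ ^ 2 := by
      rw [hMX s hs, hXg s hs]
      refine proj_norm_add hPs (comm_app _ _ (hPm s hs) hPA) ?_
      rw [map_add, map_smul, map_smul, comm_app' _ _ (hPm s hs) hPB, comm_app' _ _ (hPl s hs) hPB]
    have h3 : ∑ u ∈ T.erase u0, ‖M s u η‖ ^ 2 ≤ (p - p ^ 2) * ‖l s B - m s B‖ ^ 2 := by
      calc ∑ u ∈ T.erase u0, ‖M s u η‖ ^ 2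
          = ∑ u ∈ T.erase u0, ‖b u‖ ^ 2 * ‖l s B - m s B‖ ^ 2 := by
            refine Finset.sum_congr rfl fun u hu => ?_
            rw [hMY s hs u (Finset.mem_of_mem_erase hu) (Finset.ne_of_mem_erase hu), hYg s hs,
              norm_smul, mul_pow]
        _ = (∑ u ∈ T.erase u0, ‖b u‖ ^ 2) * ‖l s B - m s B‖ ^ 2 := by rw [Finset.sum_mul]
        _ ≤ _ := mul_le_mul_of_nonneg_right hb (by positivity)
    have h4 := variance_identity (m s B) (l s B) p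
    rw [← h1, h2]
    nlinarith
  -- totals
  set σ0 := ∑ s ∈ S, ‖m s A‖ ^ 2 with hσ0
  set σ1 := ∑ s ∈ S, ‖m s B‖ ^ 2 with hσ1
  set σ2 := ∑ s ∈ S, ‖l s B‖ ^ 2 with hσ2
  set st := σ0 + (1 - p) * σ1 + p * σ2 with hst
  have htot : ∑ s ∈ S, ∑ u ∈ T, ‖M s u η‖ ^ 2 ≤ st := by
    calc ∑ s ∈ S, ∑ u ∈ T, ‖M s u η‖ ^ 2
        ≤ ∑ s ∈ S, (‖m s A‖ ^ 2 + (1 - p) * ‖m s B‖ ^ 2 + p * ‖l s B‖ ^ 2) :=
          Finset.sum_le_sum fun s hs => hper s hs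
      _ = st := by
          rw [hst, hσ0, hσ1, hσ2, Finset.mul_sum, Finset.mul_sum, ← Finset.sum_add_distrib,
            ← Finset.sum_add_distrib]
  -- weights
  set Z := M s0 u0 η with hZ
  have hweight : ∑ s ∈ S, ∑ u ∈ T, (if s = s0 ∧ u = u0 then (1 : ℝ) else 4 / 3) * ‖M s u η‖ ^ 2
      = 4 / 3 * (∑ s ∈ S, ∑ u ∈ T, ‖M s u η‖ ^ 2) - 1 / 3 * ‖Z‖ ^ 2 := by
    have e : ∀ s u, (if s = s0 ∧ u = u0 then (1 : ℝ) else 4 / 3) * ‖M s u η‖ ^ 2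
        = 4 / 3 * ‖M s u η‖ ^ 2
          - (if s = s0 then (if u = u0 then 1 / 3 * ‖M s u η‖ ^ 2 else 0) else 0) := by
      intro s u
      by_cases h1 : s = s0 <;> by_cases h2 : u = u0 <;> simp [h1, h2] <;> ring
    simp only [e, Finset.sum_sub_distrib, ← Finset.mul_sum]
    congr 1
    rw [Finset.sum_eq_single s0]
    · simp only [↓reduceIte]
      rw [Finset.sum_eq_single u0]
      · simp [hZ]
      · intro u _ hu; simp [hu]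
      · intro h; exact absurd hu0 h
    · intro s _ hs; simp [hs]
    · intro h; exact absurd hs0 h
  -- lower bound on Z
  have hZg : Z = m s0 A + (((1 - p : ℝ) : ℂ) • m s0 B + (p : ℂ) • l s0 B) := by
    rw [hZ, hMX s0 hs0, hXg s0 hs0]
  have hPW : P (((1 - p : ℝ) : ℂ) • m s0 B + (p : ℂ) • l s0 B)
      = ((1 - p : ℝ) : ℂ) • m s0 B + (p : ℂ) • l s0 B := by
    rw [map_add, map_smul, map_smul, comm_app' _ _ (hPm s0 hs0) hPB, comm_app' _ _ (hPl s0 hs0) hPB]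
  have hinner : (⟪g, Z⟫_ℂ).re = (⟪A, m s0 A⟫_ℂ).re + (1 - p) * (⟪B, m s0 B⟫_ℂ).re
      + p * (⟪B, l s0 B⟫_ℂ).re := by
    have e0 : ⟪g, Z⟫_ℂ = ⟪A + B, m s0 A + (((1 - p : ℝ) : ℂ) • m s0 B + (p : ℂ) • l s0 B)⟫_ℂ := by
      rw [hZg, ← hgA]
    have e1 : ⟪A + B, m s0 A + (((1 - p : ℝ) : ℂ) • m s0 B + (p : ℂ) • l s0 B)⟫_ℂ
        = ⟪A, m s0 A⟫_ℂ + ⟪A, ((1 - p : ℝ) : ℂ) • m s0 B + (p : ℂ) • l s0 B⟫_ℂ
          + ⟪B, m s0 A⟫_ℂ + ⟪B, ((1 - p : ℝ) : ℂ) • m s0 B + (p : ℂ) • l s0 B⟫_ℂ := by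
      simp only [inner_add_left, inner_add_right]
      ring
    rw [e0, e1, proj_orth hPs hPA hPW, proj_orth' hPs hPB (comm_app _ _ (hPm s0 hs0) hPA),
      inner_add_right, inner_smul_right, inner_smul_right]
    simp only [add_zero, Complex.add_re, Complex.re_ofReal_mul]
    ring
  have hlow : 2 * st - ‖g‖ ^ 2 ≤ (⟪g, Z⟫_ℂ).re := by
    rw [hinner, hnorm, hst]
    have h1 := hm2 A
    have h2 := hm2 B
    have h3 := hl2 B
    have h4 := mul_le_mul_of_nonneg_left h2 (sub_nonneg.mpr hp1)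
    have h5 := mul_le_mul_of_nonneg_left h3 hp0
    nlinarith
  have hZle : (⟪g, Z⟫_ℂ).re ≤ ‖g‖ * ‖Z‖ :=
    (Complex.re_le_norm _).trans (norm_inner_le_norm _ _)
  have hstle : st ≤ ‖g‖ ^ 2 := by
    rw [hnorm, hst]
    have h1 := hm1 A
    have h2 := hm1 B
    have h3 := hl1 B
    have h4 := mul_le_mul_of_nonneg_left h2 (sub_nonneg.mpr hp1)
    have h5 := mul_le_mul_of_nonneg_left h3 hp0
    nlinarith
  have hfinal : 4 / 3 * st - 1 / 3 * ‖Z‖ ^ 2 ≤ ‖g‖ ^ 2 := by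
    have hst0 : 0 ≤ st := by
      have h1 : 0 ≤ σ0 := Finset.sum_nonneg fun _ _ => by positivity
      have h2 : 0 ≤ σ1 := Finset.sum_nonneg fun _ _ => by positivity
      have h3 : 0 ≤ σ2 := Finset.sum_nonneg fun _ _ => by positivity
      have h4 := mul_nonneg (sub_nonneg.mpr hp1) h2
      have h5 := mul_nonneg hp0 h3
      linarith
    exact gain_numeric (norm_nonneg _) (norm_nonneg _) hst0 hstle (hlow.trans hZle)
  rw [hweight]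
  have h4 : 4 / 3 * (∑ s ∈ S, ∑ u ∈ T, ‖M s u η‖ ^ 2) ≤ 4 / 3 * st :=
    mul_le_mul_of_nonneg_left htot (by norm_num)
  linarith

end Vale.Agent.Lib.P368
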