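import Mathlib
import Vale.Agent.Lib.P368.Abs

/-!
# Product operators and product vectors on a register of qubits
-/

set_option linter.unusedSectionVars false
set_option linter.unusedVariables false
set_option linter.unusedSimpArgs false
set_option linter.deprecated false

namespace Vale.Agent.Lib.P368

open scoped BigOperators InnerProductSpace ComplexConjugate

variable {Q : Type} [Fintype Q] [DecidableEq Q]

/-- One-qubit operators. -/
abbrev QM := Matrix Bool Bool ℂ
/-- One-qubit vectors. -/
abbrev QV := Bool → ℂ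

/-- The Hilbert space of the register. -/
def HS (Q : Type) := EuclideanSpace ℂ (Q → Bool)

noncomputable instance : NormedAddCommGroup (HS Q) :=
  inferInstanceAs (NormedAddCommGroup (EuclideanSpace ℂ (Q → Bool)))
noncomputable instance : InnerProductSpace ℂ (HS Q) :=
  inferInstanceAs (InnerProductSpace ℂ (EuclideanSpace ℂ (Q → Bool)))
instance : CompleteSpace (HS Q) :=
  inferInstanceAs (CompleteSpace (EuclideanSpace ℂ (Q → Bool)))

/-- Operators on the register. -/
abbrev Op (Q : Type) [Fintype Q] [DecidableEq Q] := HS Q →L[ℂ] HS Q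

/-- The matrix of a tensor product of one-qubit operators. -/
def poM (a : Q → QM) : Matrix (Q → Bool) (Q → Bool) ℂ :=
  Matrix.of fun x y => ∏ q, a q (x q) (y q)

/-- A tensor product of one-qubit operators. -/
noncomputable def po (a : Q → QM) : Op Q := Matrix.toEuclideanCLM (n := Q → Bool) (𝕜 := ℂ) (poM a)

/-- A tensor product of one-qubit vectors. -/
noncomputable def pv (a : Q → QV) : HS Q := WithLp.toLp 2 (fun x => ∏ q, a q (x q))

/-- The inner product of one-qubit vectors (conjugate linear in the first slot). -/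
def qdot (v u : QV) : ℂ := ∑ b, conj (v b) * u b

/-- The one-qubit operator `|u⟩⟨v|`. -/
def ket (u v : QV) : QM := Matrix.of fun i j => u i * conj (v j)

/-- Action of a one-qubit operator on a one-qubit vector. -/
def qapp (A : QM) (v : QV) : QV := fun i => ∑ j, A i j * v j

theorem poM_apply (a : Q → QM) (x y : Q → Bool) : poM a x y = ∏ q, a q (x q) (y q) := rfl

theorem poM_mul (a b : Q → QM) : poM a * poM b = poM (fun q => a q * b q) := by
  ext x z
  simp only [Matrix.mul_apply, poM_apply]
  have := Finset.prod_univ_sum (fun _ : Q => (Finset.univ : Finset Bool))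
    (fun q c => a q (x q) c * b q c (z q))
  simp only [Fintype.piFinset_univ] at this
  simp only [← Finset.prod_mul_distrib]
  rw [← this]

theorem poM_one : poM (fun _ : Q => (1 : QM)) = 1 := by
  ext x y
  simp only [poM_apply, Matrix.one_apply]
  split_ifs with h
  · subst h; simp
  · obtain ⟨q, hq⟩ := Function.ne_iff.mp h
    exact Finset.prod_eq_zero (Finset.mem_univ q) (by simp [Matrix.one_apply, hq])

theorem poM_conjTranspose (a : Q → QM) : (poM a).conjTranspose = poM (fun q => (a q).conjTranspose) := by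
  ext x y
  simp [poM_apply, Matrix.conjTranspose_apply, map_prod]

theorem po_mul (a b : Q → QM) : po a * po b = po (fun q => a q * b q) := by
  have h : Matrix.toEuclideanCLM (n := Q → Bool) (𝕜 := ℂ) (poM a)
      * Matrix.toEuclideanCLM (n := Q → Bool) (𝕜 := ℂ) (poM b)
      = Matrix.toEuclideanCLM (n := Q → Bool) (𝕜 := ℂ) (poM fun q => a q * b q) := by
    rw [← map_mul, poM_mul]
  exact h

theorem po_one : po (fun _ : Q => (1 : QM)) = 1 := by
  have h : Matrix.toEuclideanCLM (n := Q → Bool) (𝕜 := ℂ) (poM (fun _ : Q => (1 : QM))) = 1 := by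
    rw [poM_one, map_one]
  exact h

theorem star_po (a : Q → QM) : star (po a) = po (fun q => (a q).conjTranspose) := by
  have h : star (Matrix.toEuclideanCLM (n := Q → Bool) (𝕜 := ℂ) (poM a))
      = Matrix.toEuclideanCLM (n := Q → Bool) (𝕜 := ℂ) (poM fun q => (a q).conjTranspose) := by
    rw [← map_star, Matrix.star_eq_conjTranspose, poM_conjTranspose]
  exact h

theorem po_apply_pv (b : Q → QM) (a : Q → QV) : po b (pv a) = pv (fun q => qapp (b q) (a q)) := by
  show Matrix.toEuclideanCLM (n := Q → Bool) (𝕜 := ℂ) (poM b) (WithLp.toLp 2 _) = WithLp.toLp 2 _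
  rw [Matrix.toEuclideanCLM_toLp]
  congr 1
  funext x
  simp only [Matrix.mulVec, dotProduct, poM_apply, qapp]
  have := Finset.prod_univ_sum (fun _ : Q => (Finset.univ : Finset Bool))
    (fun q c => b q (x q) c * a q c)
  simp only [Fintype.piFinset_univ] at this
  rw [this]
  exact Finset.sum_congr rfl fun y _ => (Finset.prod_mul_distrib).symm

theorem inner_pv (a b : Q → QV) : ⟪pv a, pv b⟫_ℂ = ∏ q, qdot (a q) (b q) := by
  unfold qdot
  show @inner ℂ (EuclideanSpace ℂ (Q → Bool)) _ (WithLp.toLp 2 _) (WithLp.toLp 2 _) = _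
  rw [PiLp.inner_apply]
  have := Finset.prod_univ_sum (fun _ : Q => (Finset.univ : Finset Bool))
    (fun q c => conj (a q c) * b q c)
  simp only [Fintype.piFinset_univ] at this
  rw [this]
  refine Finset.sum_congr rfl fun y _ => ?_
  simp [RCLike.inner_apply, map_prod, ← Finset.prod_mul_distrib, mul_comm]

/-! ### One-qubit calculus -/

/-- Basis vector zero. -/
def e0 : QV := fun b => if b then 0 else 1
/-- Basis vector one. -/
def e1 : QV := fun b => if b then 1 else 0

@[simp] theorem qdot_e1_e1 : qdot e1 e1 = 1 := by simp [qdot, e1]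
@[simp] theorem qdot_e0_e0 : qdot e0 e0 = 1 := by simp [qdot, e0]
@[simp] theorem qdot_e0_e1 : qdot e0 e1 = 0 := by simp [qdot, e0, e1]
@[simp] theorem qdot_e1_e0 : qdot e1 e0 = 0 := by simp [qdot, e0, e1]

theorem qdot_e1_left (v : QV) : qdot e1 v = v true := by simp [qdot, e1]
theorem qdot_e0_left (v : QV) : qdot e0 v = v false := by simp [qdot, e0]
theorem qdot_e1_right (v : QV) : qdot v e1 = conj (v true) := by simp [qdot, e1]
theorem qdot_e0_right (v : QV) : qdot v e0 = conj (v false) := by simp [qdot, e0]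

theorem qdot_conj (v u : QV) : conj (qdot v u) = qdot u v := by
  simp [qdot, map_sum, mul_comm]

theorem ket_mul_ket (u v f g : QV) : ket u v * ket f g = qdot v f • ket u g := by
  ext i j
  simp only [Matrix.mul_apply, ket, Matrix.of_apply, Matrix.smul_apply, smul_eq_mul, qdot,
    Finset.sum_mul, Fintype.sum_bool]
  ring

theorem ket_conjTranspose (u v : QV) : (ket u v).conjTranspose = ket v u := by
  ext i j
  simp [ket, Matrix.conjTranspose_apply, mul_comm]

theorem qapp_ket (u v f : QV) : qapp (ket u v) f = fun b => qdot v f * u b := by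
  funext i
  simp only [qapp, ket, Matrix.of_apply, qdot, Fintype.sum_bool]
  ring

theorem qapp_one (v : QV) : qapp (1 : QM) v = v := by
  funext i
  cases i <;> simp [qapp, Matrix.one_apply]

theorem qapp_mul (A B : QM) (v : QV) : qapp (A * B) v = qapp A (qapp B v) := by
  funext i
  simp only [qapp, Matrix.mul_apply, Finset.sum_mul, Finset.mul_sum]
  rw [Finset.sum_comm]
  exact Finset.sum_congr rfl fun _ _ => Finset.sum_congr rfl fun _ _ => by ring

/-- `A v` tested against `u`: the one-qubit expectation. -/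
def qexp (u : QV) (A : QM) (v : QV) : ℂ := qdot u (qapp A v)

/-- Unit vector. -/
def QUnit (v : QV) : Prop := qdot v v = 1

theorem qunit_e1 : QUnit e1 := qdot_e1_e1
theorem qunit_e0 : QUnit e0 := qdot_e0_e0

theorem qdot_self_re_nonneg (v : QV) : 0 ≤ (qdot v v).re := by
  simp only [qdot, Fintype.sum_bool, Complex.add_re]
  have h : ∀ z : ℂ, 0 ≤ (conj z * z).re := by
    intro z; rw [Complex.conj_mul']; norm_cast; positivity
  exact add_nonneg (h _) (h _)

theorem qdot_self_eq (v : QV) : qdot v v = ((‖v false‖ ^ 2 + ‖v true‖ ^ 2 : ℝ) : ℂ) := by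
  simp only [qdot, Fintype.sum_bool, Complex.conj_mul', Complex.ofReal_add, Complex.ofReal_pow]
  ring

theorem qunit_iff (v : QV) : QUnit v ↔ ‖v false‖ ^ 2 + ‖v true‖ ^ 2 = 1 := by
  unfold QUnit
  rw [qdot_self_eq]
  norm_cast

/-! ### Scalars, product vectors -/

theorem po_smul (s : Q → ℂ) (A : Q → QM) : po (fun q => s q • A q) = (∏ q, s q) • po A := by
  have h : Matrix.toEuclideanCLM (n := Q → Bool) (𝕜 := ℂ) (poM fun q => s q • A q)
      = (∏ q, s q) • Matrix.toEuclideanCLM (n := Q → Bool) (𝕜 := ℂ) (poM A) := by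
    rw [← map_smul]
    congr 1
    ext x y
    simp [poM_apply, Finset.prod_mul_distrib]
  exact h

theorem pv_unit_inner {a : Q → QV} (h : ∀ q, QUnit (a q)) : ⟪pv a, pv a⟫_ℂ = 1 := by
  rw [inner_pv]
  exact Finset.prod_eq_one fun q _ => h q

theorem pv_norm {a : Q → QV} (h : ∀ q, QUnit (a q)) : ‖pv a‖ = 1 := by
  have h1 := pv_unit_inner h
  rw [inner_self_cx] at h1
  have h2 : ‖pv a‖ ^ 2 = 1 := by exact_mod_cast h1
  have h3 := norm_nonneg (pv a)
  nlinarith

/-- `|f⟩⟨g|` on the qubits of `E`, identity elsewhere. -/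
noncomputable def bk (E : Finset Q) (f g : Q → QV) : Op Q :=
  po (fun q => if q ∈ E then ket (f q) (g q) else 1)

theorem bk_mul_bk (E : Finset Q) (f g f' g' : Q → QV) :
    bk E f g * bk E f' g' = (∏ q ∈ E, qdot (g q) (f' q)) • bk E f g' := by
  unfold bk
  rw [po_mul]
  have : (fun q => (if q ∈ E then ket (f q) (g q) else (1 : QM))
        * (if q ∈ E then ket (f' q) (g' q) else 1))
      = fun q => (if q ∈ E then qdot (g q) (f' q) else 1) •
        (if q ∈ E then ket (f q) (g' q) else (1 : QM)) := by
    funext q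
    by_cases h : q ∈ E <;> simp [h, ket_mul_ket]
  rw [this, po_smul]
  congr 1
  rw [Finset.prod_ite_mem]
  simp

theorem star_bk (E : Finset Q) (f g : Q → QV) : star (bk E f g) = bk E g f := by
  unfold bk
  rw [star_po]
  congr 1
  funext q
  by_cases h : q ∈ E <;> simp [h, ket_conjTranspose]

theorem bk_apply_pv (E : Finset Q) (f g a : Q → QV) :
    bk E f g (pv a) = (∏ q ∈ E, qdot (g q) (a q)) • pv (fun q => if q ∈ E then f q else a q) := by
  unfold bk
  rw [po_apply_pv]
  have h1 : (fun q => qapp (if q ∈ E then ket (f q) (g q) else (1 : QM)) (a q))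
      = fun q b => (if q ∈ E then qdot (g q) (a q) else 1) * (if q ∈ E then f q else a q) b := by
    funext q b
    by_cases h : q ∈ E
    · simp [h, qapp_ket]
    · simp [h, qapp_one]
  rw [h1]
  unfold pv
  have h2 : (∏ q ∈ E, qdot (g q) (a q)) = ∏ q, (if q ∈ E then qdot (g q) (a q) else 1) := by
    rw [Finset.prod_ite_mem]; simp
  rw [h2]
  show WithLp.toLp 2 _ = (∏ q, (if q ∈ E then qdot (g q) (a q) else 1)) • (WithLp.toLp 2 _ : EuclideanSpace ℂ (Q → Bool))
  rw [← WithLp.toLp_smul]
  congr 1
  funext x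
  rw [Pi.smul_apply, smul_eq_mul, ← Finset.prod_mul_distrib]

/-- The projector on the all-ones state of the qubits in `E`. -/
noncomputable def nn (E : Finset Q) : Op Q := bk E (fun _ => e1) (fun _ => e1)

theorem bk_idem {E : Finset Q} {f : Q → QV} (h : ∀ q ∈ E, QUnit (f q)) :
    bk E f f * bk E f f = bk E f f := by
  rw [bk_mul_bk, Finset.prod_eq_one (fun q hq => h q hq), one_smul]

theorem nn_idem (E : Finset Q) : nn E * nn E = nn E :=
  bk_idem (fun _ _ => qunit_e1)

theorem star_nn (E : Finset Q) : star (nn E) = nn E := star_bk _ _ _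

/-- A reflection-type gate: `1 - 2 c |φ⟩⟨φ|` on the qubits of `E`, for `c = 0` or `c = 1`. -/
noncomputable def gz (c : ℂ) (E : Finset Q) (φ : Q → QV) : Op Q :=
  1 - (2 * c) • bk E φ φ

theorem star_gz {c : ℂ} (hc : c = 0 ∨ c = 1) (E : Finset Q) (φ : Q → QV) :
    star (gz c E φ) = gz c E φ := by
  unfold gz
  rcases hc with rfl | rfl <;> simp [star_sub, star_smul, star_bk]

theorem gz_mul_self {c : ℂ} (hc : c = 0 ∨ c = 1) {E : Finset Q} {φ : Q → QV}
    (h : ∀ q ∈ E, QUnit (φ q)) : gz c E φ * gz c E φ = 1 := by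
  unfold gz
  rcases hc with rfl | rfl
  · simp
  · have hi := bk_idem h
    simp only [mul_one, sub_mul, mul_sub, one_mul, smul_mul_assoc, mul_smul_comm, hi]
    simp only [smul_smul, two_smul]
    norm_num
    abel_nf

/-! ### Local algebras -/

/-- `a` acts trivially off `E`. -/
def TrivOff (E : Finset Q) (a : Q → QM) : Prop := ∀ q, q ∉ E → a q = 1

/-- Operators acting only on the qubits in `E`. -/
noncomputable def Loc (E : Finset Q) : Submodule ℂ (Op Q) :=
  Submodule.span ℂ {A | ∃ a, TrivOff E a ∧ A = po a}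

theorem po_mem_Loc {E : Finset Q} {a : Q → QM} (h : TrivOff E a) : po a ∈ Loc E :=
  Submodule.subset_span ⟨a, h, rfl⟩

theorem one_mem_Loc (E : Finset Q) : (1 : Op Q) ∈ Loc E := by
  rw [← po_one]
  exact po_mem_Loc fun _ _ => rfl

theorem Loc_mono {E F : Finset Q} (h : E ⊆ F) : Loc E ≤ Loc F := by
  apply Submodule.span_mono
  rintro A ⟨a, ha, rfl⟩
  exact ⟨a, fun q hq => ha q (fun h' => hq (h h')), rfl⟩

theorem mul_mem_Loc {E : Finset Q} {A B : Op Q} (hA : A ∈ Loc E) (hB : B ∈ Loc E) :
    A * B ∈ Loc E := by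
  induction hA using Submodule.span_induction with
  | mem x hx =>
    obtain ⟨a, ha, rfl⟩ := hx
    induction hB using Submodule.span_induction with
    | mem y hy =>
      obtain ⟨b, hb, rfl⟩ := hy
      rw [po_mul]
      exact po_mem_Loc fun q hq => by simp [ha q hq, hb q hq]
    | zero => simp
    | add y z _ _ hy hz => rw [mul_add]; exact add_mem hy hz
    | smul c y _ hy => rw [mul_smul_comm]; exact Submodule.smul_mem _ _ hy
  | zero => simp
  | add y z _ _ hy hz => rw [add_mul]; exact add_mem hy hz
  | smul c y _ hy => rw [smul_mul_assoc]; exact Submodule.smul_mem _ _ hy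

theorem star_mem_Loc {E : Finset Q} {A : Op Q} (hA : A ∈ Loc E) : star A ∈ Loc E := by
  induction hA using Submodule.span_induction with
  | mem x hx =>
    obtain ⟨a, ha, rfl⟩ := hx
    rw [star_po]
    exact po_mem_Loc fun q hq => by simp [ha q hq]
  | zero => simp
  | add y z _ _ hy hz => rw [star_add]; exact add_mem hy hz
  | smul c y _ hy => rw [star_smul]; exact Submodule.smul_mem _ _ hy

theorem bk_mem_Loc {E F : Finset Q} (h : E ⊆ F) (f g : Q → QV) : bk E f g ∈ Loc F := by
  refine po_mem_Loc fun q hq => ?_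
  have : q ∉ E := fun h' => hq (h h')
  simp [this]

theorem nn_mem_Loc {E F : Finset Q} (h : E ⊆ F) : nn E ∈ Loc F := bk_mem_Loc h _ _

theorem gz_mem_Loc {E F : Finset Q} (h : E ⊆ F) (c : ℂ) (φ : Q → QV) : gz c E φ ∈ Loc F :=
  sub_mem (one_mem_Loc F) (Submodule.smul_mem _ _ (bk_mem_Loc h _ _))

theorem po_commute {E F : Finset Q} (hd : Disjoint E F) {a b : Q → QM} (ha : TrivOff E a)
    (hb : TrivOff F b) : Commute (po a) (po b) := by
  unfold Commute SemiconjBy
  rw [po_mul, po_mul]
  congr 1
  funext q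
  by_cases h : q ∈ E
  · have : q ∉ F := Finset.disjoint_left.mp hd h
    simp [hb q this]
  · simp [ha q h]

theorem Loc_commute {E F : Finset Q} (hd : Disjoint E F) {A B : Op Q} (hA : A ∈ Loc E)
    (hB : B ∈ Loc F) : Commute A B := by
  induction hA using Submodule.span_induction with
  | mem x hx =>
    obtain ⟨a, ha, rfl⟩ := hx
    induction hB using Submodule.span_induction with
    | mem y hy =>
      obtain ⟨b, hb, rfl⟩ := hy
      exact po_commute hd ha hb
    | zero => exact Commute.zero_right _
    | add y z _ _ hy hz => exact hy.add_right hz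
    | smul c y _ hy => exact hy.smul_right c
  | zero => exact Commute.zero_left _
  | add y z _ _ hy hz => exact hy.add_left hz
  | smul c y _ hy => exact hy.smul_left c

end Vale.Agent.Lib.P368
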