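import Mathlib
import Vale.Agent.Lib.P368.PO

/-!
# Excitation operators
-/

set_option linter.unusedSectionVars false
set_option linter.unusedVariables false
set_option linter.unusedSimpArgs false
set_option linter.deprecated false

namespace Vale.Agent.Lib.P368

open scoped BigOperators InnerProductSpace ComplexConjugate

variable {Q : Type} [Fintype Q] [DecidableEq Q]

/-- `|1⟩⟨1|`. -/
def P1 : QM := ket e1 e1
/-- `|0⟩⟨1|`. -/
def Sg : QM := ket e0 e1
/-- `|1⟩⟨0|`. -/
def Sd : QM := ket e1 e0
/-- `|0⟩⟨0|`. -/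
def P0 : QM := ket e0 e0

@[simp] theorem P1_conj : P1.conjTranspose = P1 := ket_conjTranspose _ _
@[simp] theorem Sg_conj : Sg.conjTranspose = Sd := ket_conjTranspose _ _
@[simp] theorem Sd_conj : Sd.conjTranspose = Sg := ket_conjTranspose _ _
@[simp] theorem P1_mul_P1 : P1 * P1 = P1 := by simp [P1, ket_mul_ket]
@[simp] theorem P1_mul_Sg : P1 * Sg = 0 := by simp [P1, Sg, ket_mul_ket]
@[simp] theorem Sd_mul_P1 : Sd * P1 = 0 := by simp [Sd, P1, ket_mul_ket]
@[simp] theorem Sg_mul_P1 : Sg * P1 = Sg := by simp [Sg, P1, ket_mul_ket]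
@[simp] theorem P1_mul_Sd : P1 * Sd = Sd := by simp [Sd, P1, ket_mul_ket]
theorem Sg_mul_Sd : Sg * Sd = P0 := by simp [Sg, Sd, P0, ket_mul_ket]
theorem Sd_mul_Sg : Sd * Sg = P1 := by simp [Sg, Sd, P1, ket_mul_ket]
theorem P0_add_P1 : P0 + P1 = 1 := by
  ext i j
  cases i <;> cases j <;> simp [P0, P1, ket, e0, e1]

/-- The one-qubit factors of the excitation operator: `|0⟩⟨1|` on `S`, `|1⟩⟨1|` on the rest of
`E`, identity elsewhere. -/
def vf (E S : Finset Q) (q : Q) : QM := if q ∈ S then Sg else if q ∈ E then P1 else 1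

/-- The excitation operator. -/
noncomputable def vp (E S : Finset Q) : Op Q := po (vf E S)

theorem vf_triv {E S : Finset Q} (h : S ⊆ E) : TrivOff E (vf E S : Q → QM) := by
  intro q hq
  have : q ∉ S := fun h' => hq (h h')
  simp [vf, this, hq]

theorem vp_mem_Loc {E S F : Finset Q} (h : S ⊆ E) (hE : E ⊆ F) : vp E S ∈ Loc F :=
  Loc_mono hE (po_mem_Loc (vf_triv h))

theorem star_vp_mem_Loc {E S F : Finset Q} (h : S ⊆ E) (hE : E ⊆ F) : star (vp E S) ∈ Loc F :=
  star_mem_Loc (vp_mem_Loc h hE)

theorem vp_empty (E : Finset Q) : vp E ∅ = nn E := by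
  unfold vp nn bk
  congr 1

/-- Splitting an excitation operator over two disjoint sets of qubits. -/
theorem vp_union {E F S T : Finset Q} (hd : Disjoint E F) (hS : S ⊆ E) (hT : T ⊆ F) :
    vp (E ∪ F) (S ∪ T) = vp E S * vp F T := by
  unfold vp
  rw [po_mul]
  congr 1
  funext q
  by_cases hE : q ∈ E
  · have hF : q ∉ F := Finset.disjoint_left.mp hd hE
    have hT' : q ∉ T := fun h => hF (hT h)
    by_cases hS' : q ∈ S <;> simp [vf, hE, hF, hS', hT']
  · have hS' : q ∉ S := fun h => hE (hS h)
    by_cases hF : q ∈ F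
    · by_cases hT' : q ∈ T <;> simp [vf, hE, hF, hS', hT']
    · have hT' : q ∉ T := fun h => hF (hT h)
      simp [vf, hE, hF, hS', hT']

/-- A tensor product with a zero factor vanishes. -/
theorem po_zero_of {a : Q → QM} {q : Q} (h : a q = 0) : po a = 0 := by
  have h0 : poM a = 0 := by
    ext x y
    exact Finset.prod_eq_zero (Finset.mem_univ q) (by simp [h])
  have h1 : Matrix.toEuclideanCLM (n := Q → Bool) (𝕜 := ℂ) (poM a) = 0 := by rw [h0, map_zero]
  exact h1

/-- One-qubit operator acting at a single site. -/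
noncomputable def s1 (r : Q) (A : QM) : Op Q := po (fun q => if q = r then A else 1)

theorem s1_mul (r : Q) (A B : QM) : s1 r A * s1 r B = s1 r (A * B) := by
  unfold s1
  rw [po_mul]
  congr 1
  funext q
  by_cases h : q = r <;> simp [h]

theorem s1_add (r : Q) (A B : QM) : s1 r (A + B) = s1 r A + s1 r B := by
  have h : Matrix.toEuclideanCLM (n := Q → Bool) (𝕜 := ℂ) (poM fun q => if q = r then A + B else 1)
      = Matrix.toEuclideanCLM (n := Q → Bool) (𝕜 := ℂ) (poM fun q => if q = r then A else 1)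
      + Matrix.toEuclideanCLM (n := Q → Bool) (𝕜 := ℂ) (poM fun q => if q = r then B else 1) := by
    rw [← map_add]
    congr 1
    ext x y
    simp only [poM_apply, Matrix.add_apply]
    rw [← Finset.mul_prod_erase _ _ (Finset.mem_univ r), ← Finset.mul_prod_erase _ _ (Finset.mem_univ r),
      ← Finset.mul_prod_erase _ _ (Finset.mem_univ r)]
    have e : ∀ (C : QM), ∏ q ∈ Finset.univ.erase r, (if q = r then C else 1) (x q) (y q)
        = ∏ q ∈ Finset.univ.erase r, (1 : QM) (x q) (y q) := by
      intro C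
      refine Finset.prod_congr rfl fun q hq => ?_
      rw [if_neg (Finset.ne_of_mem_erase hq)]
    rw [e, e, e]
    simp [add_mul]
  exact h

theorem s1_one (r : Q) : s1 r 1 = (1 : Op Q) := by
  unfold s1
  rw [← po_one]
  congr 1
  funext q
  by_cases h : q = r <;> simp [h]

theorem star_s1 (r : Q) (A : QM) : star (s1 r A) = s1 r A.conjTranspose := by
  unfold s1
  rw [star_po]
  congr 1
  funext q
  by_cases h : q = r <;> simp [h]

/-- Peeling a site off a tensor product. -/
theorem po_update_eq (a : Q → QM) (r : Q) (A : QM) :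
    po (Function.update a r A) = s1 r A * po (Function.update a r 1) := by
  unfold s1
  rw [po_mul]
  congr 1
  funext q
  by_cases h : q = r
  · subst h; simp
  · simp [h]

/-- One-site Bessel identity. -/
theorem one_site_bessel (r : Q) (x : HS Q) :
    ‖s1 r P1 x‖ ^ 2 + ‖s1 r Sd x‖ ^ 2 = ‖x‖ ^ 2 := by
  have h1 : ⟪s1 r P1 x, s1 r P1 x⟫_ℂ = ⟪x, s1 r P1 x⟫_ℂ := by
    rw [← inner_star_right', star_s1, P1_conj]
    congr 1
    have : (s1 r P1 * s1 r P1) x = s1 r P1 x := by rw [s1_mul, P1_mul_P1]
    exact this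
  have h2 : ⟪s1 r Sd x, s1 r Sd x⟫_ℂ = ⟪x, s1 r P0 x⟫_ℂ := by
    rw [← inner_star_right', star_s1, Sd_conj]
    congr 1
    have : (s1 r Sg * s1 r Sd) x = s1 r P0 x := by rw [s1_mul, Sg_mul_Sd]
    exact this
  have h3 : s1 r P0 x + s1 r P1 x = x := by
    have : (s1 r P0 + s1 r P1) x = x := by
      rw [← s1_add, P0_add_P1, s1_one]; rfl
    exact this
  have h4 : ⟪s1 r P1 x, s1 r P1 x⟫_ℂ + ⟪s1 r Sd x, s1 r Sd x⟫_ℂ = ⟪x, x⟫_ℂ := by
    have h5 : ⟪x, x⟫_ℂ = ⟪x, s1 r P0 x⟫_ℂ + ⟪x, s1 r P1 x⟫_ℂ := by
      rw [← inner_add_right, h3]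
    rw [h1, h2, h5]
    ring
  rw [inner_self_cx, inner_self_cx, inner_self_cx] at h4
  exact_mod_cast h4

/-- Splitting sums over the powerset of a disjoint union. -/
theorem sum_powerset_union {α M : Type*} [DecidableEq α] [AddCommMonoid M] {A B : Finset α}
    (hd : Disjoint A B) (f : Finset α → M) :
    ∑ S ∈ (A ∪ B).powerset, f S = ∑ S1 ∈ A.powerset, ∑ S2 ∈ B.powerset, f (S1 ∪ S2) := by
  induction A using Finset.induction_on generalizing f with
  | empty => simp
  | insert a A ha ih =>
    have hd' : Disjoint A B := (Finset.disjoint_insert_left.mp hd).2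
    have haB : a ∉ B := (Finset.disjoint_insert_left.mp hd).1
    have ha' : a ∉ A ∪ B := by simp [ha, haB]
    rw [Finset.insert_union, Finset.sum_powerset_insert ha', Finset.sum_powerset_insert ha,
      ih hd', ih hd' (fun S => f (insert a S))]
    congr 1
    refine Finset.sum_congr rfl fun S1 _ => Finset.sum_congr rfl fun S2 _ => ?_
    rw [Finset.insert_union]

/-- Bessel inequality for the adjoint excitation operators. -/
theorem bessel_vp (E : Finset Q) (x : HS Q) :
    ∑ S ∈ E.powerset, ‖star (vp E S) x‖ ^ 2 = ‖x‖ ^ 2 := by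
  induction E using Finset.induction_on generalizing x with
  | empty =>
    simp only [Finset.powerset_empty, Finset.sum_singleton]
    have : vp (∅ : Finset Q) ∅ = 1 := by
      rw [vp_empty]; unfold nn bk; rw [← po_one]; congr 1
    rw [this]; simp
  | insert r E hr ih =>
    rw [Finset.sum_powerset_insert hr]
    have e1 : ∀ S ∈ E.powerset, star (vp (insert r E) S) = s1 r P1 * star (vp E S) := by
      intro S hS
      have hS' : S ⊆ E := Finset.mem_powerset.mp hS
      have hrS : r ∉ S := fun h => hr (hS' h)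
      unfold vp
      rw [star_po, star_po]
      unfold s1
      rw [po_mul]
      congr 1
      funext q
      by_cases h : q = r
      · subst h; simp [vf, hrS, hr]
      · by_cases h2 : q ∈ S <;> by_cases h3 : q ∈ E <;> simp [vf, h, h2, h3]
    have e2 : ∀ S ∈ E.powerset, star (vp (insert r E) (insert r S)) = s1 r Sd * star (vp E S) := by
      intro S hS
      have hS' : S ⊆ E := Finset.mem_powerset.mp hS
      have hrS : r ∉ S := fun h => hr (hS' h)
      unfold vp
      rw [star_po, star_po]
      unfold s1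
      rw [po_mul]
      congr 1
      funext q
      by_cases h : q = r
      · subst h; simp [vf, hrS, hr]
      · by_cases h2 : q ∈ S <;> by_cases h3 : q ∈ E <;> simp [vf, h, h2, h3]
    have e3 : ∑ S ∈ E.powerset, ‖star (vp (insert r E) S) x‖ ^ 2
        = ∑ S ∈ E.powerset, ‖s1 r P1 (star (vp E S) x)‖ ^ 2 :=
      Finset.sum_congr rfl fun S hS => by rw [e1 S hS]; rfl
    have e4 : ∑ S ∈ E.powerset, ‖star (vp (insert r E) (insert r S)) x‖ ^ 2
        = ∑ S ∈ E.powerset, ‖s1 r Sd (star (vp E S) x)‖ ^ 2 :=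
      Finset.sum_congr rfl fun S hS => by rw [e2 S hS]; rfl
    rw [e3, e4, ← Finset.sum_add_distrib, ← ih x]
    exact Finset.sum_congr rfl fun S _ => one_site_bessel r _

/-- The rank-one-type property of a product projector relative to local operators. -/
theorem RO_Loc {T : Finset Q} {t : Q → QV} (ht : ∀ q, QUnit (t q)) {Y : Op Q} (hY : Y ∈ Loc T) :
    bk T t t * Y * bk T t t = ⟪pv t, Y (pv t)⟫_ℂ • bk T t t := by
  induction hY using Submodule.span_induction with
  | mem x hx =>
    obtain ⟨a, ha, rfl⟩ := hx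
    unfold bk
    rw [po_mul, po_mul, po_apply_pv, inner_pv]
    have h1 : (fun q => (if q ∈ T then ket (t q) (t q) else (1 : QM)) * a q
          * (if q ∈ T then ket (t q) (t q) else 1))
        = fun q => (if q ∈ T then qdot (t q) (qapp (a q) (t q)) else 1) •
          (if q ∈ T then ket (t q) (t q) else (1 : QM)) := by
      funext q
      by_cases h : q ∈ T
      · simp only [h, if_true]
        ext i j
        simp only [Matrix.mul_apply, ket, Matrix.of_apply, Matrix.smul_apply, smul_eq_mul, qdot, qapp,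
          Fintype.sum_bool, Finset.sum_mul, Finset.mul_sum]
        ring
      · simp [h, ha q h]
    rw [h1, po_smul]
    congr 1
    refine Finset.prod_congr rfl fun q _ => ?_
    by_cases h : q ∈ T
    · simp [h]
    · simp [h, ha q h, qapp_one]
      exact (ht q).symm
  | zero => simp
  | add y z _ _ hy hz =>
    rw [mul_add, add_mul, hy, hz, add_apply, inner_add_right, add_smul]
  | smul c y _ hy =>
    rw [mul_smul_comm, smul_mul_assoc, hy, smul_apply, inner_smul_right, smul_smul]

end Vale.Agent.Lib.P368
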