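import Mathlib
import Vale.Agent.Lib.P368.VP

/-!
# The gate inequality
-/

set_option linter.unusedSectionVars false
set_option linter.unusedVariables false
set_option linter.unusedSimpArgs false
set_option linter.deprecated false
set_option linter.unusedTactic false
set_option linter.unreachableTactic false

namespace Vale.Agent.Lib.P368

open scoped BigOperators InnerProductSpace ComplexConjugate

variable {Q : Type} [Fintype Q] [DecidableEq Q]

/-- The conjugated projector of a gate of the second layer. -/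
noncomputable def gateK (T R : Finset Q) (c : ℂ) (φ t : Q → QV) : Op Q :=
  gz c (T ∪ R) φ * bk T t t * gz c (T ∪ R) φ

theorem bk_union {E F : Finset Q} (hd : Disjoint E F) (f g : Q → QV) :
    bk (E ∪ F) f g = bk E f g * bk F f g := by
  unfold bk
  rw [po_mul]
  congr 1
  funext q
  by_cases h : q ∈ E
  · have h' : q ∉ F := Finset.disjoint_left.mp hd h
    simp [h, h']
  · by_cases h' : q ∈ F <;> simp [h, h']

theorem gate_algebra {R : Type*} [Ring R] [Algebra ℂ R] (A B K : R) (s : ℂ) (hAB : Commute A B)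
    (hBK : Commute B K) (hB : B * B = B) :
    (1 - s • (A * B)) * K * (1 - s • (A * B))
      = K + B * ((1 - s • A) * K * (1 - s • A) - K) := by
  have e1 : A * B * K = B * (A * K) := by
    rw [hAB.eq, mul_assoc]
  have e2 : K * (A * B) = B * (K * A) := by
    rw [hAB.eq, ← mul_assoc, ← hBK.eq, mul_assoc]
  have e3 : B * (A * K) * (A * B) = B * (A * K * A) := by
    calc B * (A * K) * (A * B) = B * (A * (K * (A * B))) := by simp only [mul_assoc]
      _ = B * (A * (B * (K * A))) := by rw [e2]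
      _ = B * ((A * B) * (K * A)) := by simp only [mul_assoc]
      _ = B * ((B * A) * (K * A)) := by rw [hAB.eq]
      _ = (B * B) * (A * (K * A)) := by simp only [mul_assoc]
      _ = B * (A * K * A) := by rw [hB]; simp only [mul_assoc]
  simp only [sub_mul, mul_sub, one_mul, mul_one, smul_mul_assoc, mul_smul_comm, smul_sub, smul_smul,
    e1, e2, e3]
  abel

theorem gateK_eq {T R : Finset Q} (hd : Disjoint T R) (c : ℂ) (φ t : Q → QV)
    (hφ : ∀ q, QUnit (φ q)) :
    gateK T R c φ t = bk T t t + bk R φ φ * (gz c T φ * bk T t t * gz c T φ - bk T t t) := by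
  unfold gateK gz
  rw [bk_union hd]
  refine gate_algebra _ _ _ _ ?_ ?_ (bk_idem fun q _ => hφ q)
  · exact Loc_commute hd (bk_mem_Loc subset_rfl _ _) (bk_mem_Loc subset_rfl _ _)
  · exact Loc_commute hd.symm (bk_mem_Loc subset_rfl _ _) (bk_mem_Loc subset_rfl _ _)

theorem bk_star_self (E : Finset Q) (f : Q → QV) : star (bk E f f) = bk E f f := star_bk _ _ _

/-- The expectation of a projector in a product vector: all is positive. -/
theorem gate_branch_inst {T TL TR : Finset Q} (hd : Disjoint TL TR) (hTL : TL ⊆ T) (hTR : TR ⊆ T)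
    {K : Op Q} {w : HS Q} (hK : K * K = K) (hKs : star K = K) (hw : ‖w‖ = 1)
    (hRO : ∀ Y ∈ Loc T, K * Y * K = ⟪w, Y w⟫_ℂ • K) (ζ : HS Q) :
    (∑ s ∈ TL.powerset ×ˢ TR.powerset, ‖(star (vp (TL ∪ TR) s.1) * K * vp (TL ∪ TR) s.2) ζ‖ ^ 2
        ≤ ‖ζ‖ ^ 2) ∧
    (2 * (∑ s ∈ TL.powerset ×ˢ TR.powerset,
        ‖(star (vp (TL ∪ TR) s.1) * K * vp (TL ∪ TR) s.2) ζ‖ ^ 2) - ‖ζ‖ ^ 2
      ≤ (⟪ζ, (star (vp (TL ∪ TR) ∅) * K * vp (TL ∪ TR) ∅) ζ⟫_ℂ).re) := by
  have hform : ∀ S1 S2 : Finset Q, S1 ⊆ TL → S2 ⊆ TR →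
      star (vp (TL ∪ TR) S1) * K * vp (TL ∪ TR) S2
        = star (vp TL S1) * nn TR * K * nn TL * vp TR S2 := by
    intro S1 S2 h1 h2
    have e1 : vp (TL ∪ TR) S1 = vp TL S1 * nn TR := by
      have := vp_union (E := TL) (F := TR) (S := S1) (T := ∅) hd h1 (Finset.empty_subset _)
      rwa [Finset.union_empty, vp_empty] at this
    have e2 : vp (TL ∪ TR) S2 = nn TL * vp TR S2 := by
      have := vp_union (E := TL) (F := TR) (S := ∅) (T := S2) hd (Finset.empty_subset _) h2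
      rwa [Finset.empty_union, vp_empty] at this
    have hc : Commute (star (vp TL S1)) (nn TR) :=
      Loc_commute hd (star_vp_mem_Loc h1 subset_rfl) (nn_mem_Loc subset_rfl)
    rw [e1, e2, star_mul, star_nn, ← hc.eq]
    simp only [mul_assoc]
  have hnnTL : (nn TL : Op Q) ∈ Loc T := nn_mem_Loc hTL
  have hnnTR : (nn TR : Op Q) ∈ Loc T := nn_mem_Loc hTR
  have hV : ∀ s ∈ TR.powerset, vp TR s ∈ Loc T := fun s hs =>
    vp_mem_Loc (Finset.mem_powerset.mp hs) hTR
  have hmain := branch_lemma TL.powerset TR.powerset K (nn TL) (nn TR) (vp TL) (vp TR) w ∅ ∅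
    (Finset.empty_mem_powerset _) hK hKs hw (star_nn _) (nn_idem _) (star_nn _) (nn_idem _)
    (Loc_commute hd (nn_mem_Loc subset_rfl) (nn_mem_Loc subset_rfl)).eq (vp_empty _) (vp_empty _)
    (fun v => (bessel_vp TL v).le) (fun v => (bessel_vp TR v).le)
    (fun s hs => (Loc_commute hd (nn_mem_Loc subset_rfl)
      (vp_mem_Loc (Finset.mem_powerset.mp hs) subset_rfl)).eq)
    (hRO _ hnnTR)
    (fun s hs => hRO _ (mul_mem_Loc (mul_mem_Loc (mul_mem_Loc hnnTL (hV s hs))
      (star_mem_Loc (hV s hs))) hnnTL)) ζ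
  have hsum : ∑ s ∈ TL.powerset ×ˢ TR.powerset,
        ‖(star (vp (TL ∪ TR) s.1) * K * vp (TL ∪ TR) s.2) ζ‖ ^ 2
      = ∑ s ∈ TL.powerset, ∑ s' ∈ TR.powerset,
        ‖(star (vp TL s) * nn TR * K * nn TL * vp TR s') ζ‖ ^ 2 := by
    rw [Finset.sum_product]
    refine Finset.sum_congr rfl fun s hs => Finset.sum_congr rfl fun s' hs' => ?_
    rw [hform s s' (Finset.mem_powerset.mp hs) (Finset.mem_powerset.mp hs')]
  rw [hsum, hform ∅ ∅ (Finset.empty_subset _) (Finset.empty_subset _)]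
  exact hmain

/-- One-qubit computation for the mixture coefficient. -/
theorem Sd_ket_P1 (v : QV) : Sd * ket v v * P1 = (v false * conj (v true)) • P1 := by
  simp only [Sd, P1, ket_mul_ket, smul_mul_assoc, smul_smul, qdot_e0_left, qdot_e1_right]

theorem P1_ket_Sg (v : QV) : P1 * ket v v * Sg = (v true * conj (v false)) • P1 := by
  simp only [Sg, P1, ket_mul_ket, smul_mul_assoc, smul_smul, qdot_e1_left, qdot_e0_right]

theorem P1_ket_P1 (v : QV) : P1 * ket v v * P1 = (v true * conj (v true)) • P1 := by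
  simp only [P1, ket_mul_ket, smul_mul_assoc, smul_smul, qdot_e1_left, qdot_e1_right]

/-- The mixture coefficients attached to the excitations in the `R`-part of a gate. -/
noncomputable def mixCoef (φ : Q → QV) (RL RR : Finset Q) (u : Finset Q × Finset Q) : ℂ :=
  (∏ q ∈ RL, if q ∈ u.1 then φ q false * conj (φ q true) else φ q true * conj (φ q true)) *
  (∏ q ∈ RR, if q ∈ u.2 then φ q true * conj (φ q false) else φ q true * conj (φ q true))

theorem mix_formula {R RL RR : Finset Q} (hd : Disjoint RL RR) (hL : RL ⊆ R) (hR : RR ⊆ R)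
    (φ : Q → QV) (u : Finset Q × Finset Q) (h1 : u.1 ⊆ RL) (h2 : u.2 ⊆ RR) :
    star (vp (RL ∪ RR) u.1) * bk R φ φ * vp (RL ∪ RR) u.2
      = mixCoef φ RL RR u • (nn (RL ∪ RR) * bk (R \ (RL ∪ RR)) φ φ) := by
  unfold vp bk nn bk
  rw [star_po, po_mul, po_mul, po_mul]
  have key : ∀ q, (vf (RL ∪ RR) u.1 q).conjTranspose * (if q ∈ R then ket (φ q) (φ q) else 1)
        * vf (RL ∪ RR) u.2 q
      = (if q ∈ RL then (if q ∈ u.1 then φ q false * conj (φ q true) else φ q true * conj (φ q true))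
          else if q ∈ RR then (if q ∈ u.2 then φ q true * conj (φ q false) else φ q true * conj (φ q true))
          else 1) •
        ((if q ∈ RL ∪ RR then ket e1 e1 else 1)
          * (if q ∈ R \ (RL ∪ RR) then ket (φ q) (φ q) else 1)) := by
    intro q
    by_cases hqL : q ∈ RL
    · have hqR : q ∉ RR := Finset.disjoint_left.mp hd hqL
      have hq2 : q ∉ u.2 := fun h => hqR (h2 h)
      have hqq : q ∈ R := hL hqL
      by_cases hq1 : q ∈ u.1
      · simp only [vf, hq1, hq2, hqL, hqR, hqq, Finset.mem_union, true_or, if_true, if_false,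
          Finset.mem_sdiff, not_true, and_false, Sg_conj, mul_one]
        exact (Sd_ket_P1 _)
      · simp only [vf, hq1, hq2, hqL, hqR, hqq, Finset.mem_union, true_or, if_true, if_false,
          Finset.mem_sdiff, not_true, and_false, P1_conj, mul_one]
        exact (P1_ket_P1 _)
    · have hq1 : q ∉ u.1 := fun h => hqL (h1 h)
      by_cases hqR : q ∈ RR
      · have hqq : q ∈ R := hR hqR
        by_cases hq2 : q ∈ u.2
        · simp only [vf, hq1, hq2, hqL, hqR, hqq, Finset.mem_union, or_true, if_true, if_false,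
            Finset.mem_sdiff, not_true, and_false, P1_conj, mul_one]
          exact (P1_ket_Sg _)
        · simp only [vf, hq1, hq2, hqL, hqR, hqq, Finset.mem_union, or_true, if_true, if_false,
            Finset.mem_sdiff, not_true, and_false, P1_conj, mul_one]
          exact (P1_ket_P1 _)
      · have hq2 : q ∉ u.2 := fun h => hqR (h2 h)
        by_cases hqq : q ∈ R
        · simp [vf, hq1, hq2, hqL, hqR, hqq, Finset.mem_union, Finset.mem_sdiff]
        · simp [vf, hq1, hq2, hqL, hqR, hqq, Finset.mem_union, Finset.mem_sdiff]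
  have e1 : (fun q => (vf (RL ∪ RR) u.1 q).conjTranspose * (if q ∈ R then ket (φ q) (φ q) else 1)
        * vf (RL ∪ RR) u.2 q) = _ := funext key
  rw [e1, po_smul]
  congr 1
  -- the scalar
  unfold mixCoef
  have e2 : ∀ q, (if q ∈ RL then (if q ∈ u.1 then φ q false * conj (φ q true) else φ q true * conj (φ q true))
          else if q ∈ RR then (if q ∈ u.2 then φ q true * conj (φ q false) else φ q true * conj (φ q true))
          else (1 : ℂ))
      = (if q ∈ RL then (if q ∈ u.1 then φ q false * conj (φ q true) else φ q true * conj (φ q true)) else 1)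
        * (if q ∈ RR then (if q ∈ u.2 then φ q true * conj (φ q false) else φ q true * conj (φ q true)) else 1) := by
    intro q
    by_cases hqL : q ∈ RL
    · have hqR : q ∉ RR := Finset.disjoint_left.mp hd hqL
      simp [hqL, hqR]
    · simp [hqL]
  rw [Finset.prod_congr rfl (fun q _ => e2 q), Finset.prod_mul_distrib, Finset.prod_ite_mem,
    Finset.prod_ite_mem]
  simp

theorem star_vp_mul_vp {L R : Finset Q} (hd : Disjoint L R) (u : Finset Q × Finset Q)
    (h1 : u.1 ⊆ L) (h2 : u.2 ⊆ R) :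
    star (vp (L ∪ R) u.1) * vp (L ∪ R) u.2 = if u = (∅, ∅) then nn (L ∪ R) else 0 := by
  split_ifs with h
  · rw [h]
    simp only [vp_empty]
    rw [star_nn, nn_idem]
  · unfold vp
    rw [star_po, po_mul]
    have : u.1.Nonempty ∨ u.2.Nonempty := by
      by_contra hcon
      rw [not_or, Finset.not_nonempty_iff_eq_empty, Finset.not_nonempty_iff_eq_empty] at hcon
      exact h (Prod.ext hcon.1 hcon.2)
    rcases this with ⟨q, hq⟩ | ⟨q, hq⟩
    · have hq2 : q ∉ u.2 := fun h' => Finset.disjoint_left.mp hd (h1 hq) (h2 h')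
      have hqq : q ∈ L ∪ R := Finset.mem_union_left _ (h1 hq)
      exact po_zero_of (q := q) (by simp [vf, hq, hq2, hqq])
    · have hq1 : q ∉ u.1 := fun h' => Finset.disjoint_left.mp hd (h1 h') (h2 hq)
      have hqq : q ∈ L ∪ R := Finset.mem_union_right _ (h2 hq)
      exact po_zero_of (q := q) (by simp [vf, hq, hq1, hqq])

/-- A product of `if`s over a set, for a subset. -/
theorem prod_ite_split {α M : Type*} [DecidableEq α] [CommMonoid M] {E S : Finset α} (h : S ⊆ E)
    (f g : α → M) :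
    ∏ q ∈ E, (if q ∈ S then f q else g q) = (∏ q ∈ S, f q) * ∏ q ∈ E \ S, g q := by
  rw [← Finset.prod_sdiff h, mul_comm]
  congr 1
  · exact Finset.prod_congr rfl fun q hq => by simp [hq]
  · exact Finset.prod_congr rfl fun q hq => by simp [(Finset.mem_sdiff.mp hq).2]

/-- Sum over subsets of a product of `if`s. -/
theorem sum_powerset_prod_ite {α R : Type*} [DecidableEq α] [CommSemiring R] (E : Finset α) (f g : α → R) :
    ∑ S ∈ E.powerset, ∏ q ∈ E, (if q ∈ S then f q else g q) = ∏ q ∈ E, (f q + g q) := by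
  rw [Finset.prod_add]
  refine Finset.sum_congr rfl fun S hS => ?_
  exact prod_ite_split (Finset.mem_powerset.mp hS) f g

theorem qunit_sq {v : QV} (h : QUnit v) : ‖v false‖ ^ 2 + ‖v true‖ ^ 2 = 1 := (qunit_iff v).mp h

theorem qunit_true_le {v : QV} (h : QUnit v) : ‖v true‖ ^ 2 ≤ 1 := by
  have := qunit_sq h
  have h2 : 0 ≤ ‖v false‖ ^ 2 := by positivity
  linarith

theorem mix_side_sum (E : Finset Q) (φ : Q → QV) (hφ : ∀ q, QUnit (φ q))
    (A : Q → ℂ) (hA : ∀ q, ‖A q‖ ^ 2 = ‖φ q false‖ ^ 2 * ‖φ q true‖ ^ 2) :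
    ∑ S ∈ E.powerset,
      ‖∏ q ∈ E, if q ∈ S then A q else φ q true * conj (φ q true)‖ ^ 2 = ∏ q ∈ E, ‖φ q true‖ ^ 2 := by
  have e1 : ∀ S ∈ E.powerset, ‖∏ q ∈ E, if q ∈ S then A q else φ q true * conj (φ q true)‖ ^ 2
      = ∏ q ∈ E, if q ∈ S then ‖φ q false‖ ^ 2 * ‖φ q true‖ ^ 2 else ‖φ q true‖ ^ 2 * ‖φ q true‖ ^ 2 := by
    intro S _
    rw [norm_prod, ← Finset.prod_pow]
    refine Finset.prod_congr rfl fun q _ => ?_
    by_cases h : q ∈ S
    · simp [h, hA]
    · simp only [h, if_false, norm_mul, RCLike.norm_conj, mul_pow]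
  rw [Finset.sum_congr rfl e1, sum_powerset_prod_ite]
  refine Finset.prod_congr rfl fun q _ => ?_
  have := qunit_sq (hφ q)
  nlinarith

theorem mix_sum {RL RR : Finset Q} (hd : Disjoint RL RR) (φ : Q → QV) (hφ : ∀ q, QUnit (φ q)) :
    ∑ u ∈ RL.powerset ×ˢ RR.powerset, ‖mixCoef φ RL RR u‖ ^ 2 = ∏ q ∈ RL ∪ RR, ‖φ q true‖ ^ 2 := by
  rw [Finset.sum_product, Finset.prod_union hd]
  simp only [mixCoef, norm_mul, mul_pow]
  rw [← mix_side_sum RL φ hφ (fun q => φ q false * conj (φ q true))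
    (fun q => by simp only [norm_mul, RCLike.norm_conj, mul_pow])]
  rw [← mix_side_sum RR φ hφ (fun q => φ q true * conj (φ q false))
    (fun q => by simp only [norm_mul, RCLike.norm_conj, mul_pow]; ring)]
  rw [Finset.sum_mul_sum]

theorem mix_zero (RL RR : Finset Q) (φ : Q → QV) :
    mixCoef φ RL RR (∅, ∅) = ((∏ q ∈ RL ∪ RR, ‖φ q true‖ ^ 2 : ℝ) : ℂ) ∨ ¬ Disjoint RL RR := by
  by_cases hd : Disjoint RL RR
  · left
    rw [Finset.prod_union hd]
    simp only [mixCoef, Finset.notMem_empty, if_false, Complex.ofReal_mul, Complex.ofReal_prod]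
    congr 1 <;>
    · refine Finset.prod_congr rfl fun q _ => ?_
      rw [Complex.mul_conj, Complex.normSq_eq_norm_sq]
  · right; exact hd

/-- Sandwich algebra. -/
theorem sandwich {R : Type*} [Ring R] (e a P f d K0 K1 : R) (hfa : Commute f a) (hfd : Commute f d)
    (hfK0 : Commute f K0) (hfK1 : Commute f K1) (hPa : Commute P a) :
    e * a * (K0 + P * (K1 - K0)) * d * f
      = (e * f) * (a * K0 * d) + (e * P * f) * (a * K1 * d - a * K0 * d) := by
  have h1 : Commute f (a * K0 * d) := (hfa.mul_right hfK0).mul_right hfd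
  have h2 : Commute f (a * K1 * d) := (hfa.mul_right hfK1).mul_right hfd
  have e1 : e * a * (K0 + P * (K1 - K0)) * d * f
      = e * (a * K0 * d) * f + e * P * ((a * K1 * d - a * K0 * d) * f) := by
    have : a * P = P * a := hPa.eq.symm
    calc e * a * (K0 + P * (K1 - K0)) * d * f
        = e * (a * K0 * d) * f + e * ((a * P) * (K1 - K0) * d) * f := by noncomm_ring
      _ = e * (a * K0 * d) * f + e * ((P * a) * (K1 - K0) * d) * f := by rw [this]
      _ = _ := by noncomm_ring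
  rw [e1, mul_assoc e, ← h1.eq, ← mul_assoc e, (h2.sub_right h1).symm.eq.symm.symm]
  simp only [mul_assoc]

theorem norm_invol {G : Op Q} (hG : G * G = 1) (hGs : star G = G) (x : HS Q) : ‖G x‖ = ‖x‖ := by
  have h1 : ⟪G x, G x⟫_ℂ = ⟪x, x⟫_ℂ := by
    rw [← inner_star_right', hGs]
    have : G (G x) = x := by
      have := congrArg (fun T : Op Q => T x) hG
      simpa using this
    rw [this]
  rw [inner_self_cx, inner_self_cx] at h1
  have h2 : ‖G x‖ ^ 2 = ‖x‖ ^ 2 := by exact_mod_cast h1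
  exact (sq_eq_sq₀ (norm_nonneg _) (norm_nonneg _)).mp h2

set_option maxRecDepth 8000 in
/-- The core of the gate inequality. -/
theorem gate_ineq_core {T R TL TR RL RR : Finset Q} (hTRd : Disjoint T R) (c : ℂ) (hc : c = 0 ∨ c = 1)
    (φ t : Q → QV) (hφ : ∀ q, QUnit (φ q)) (ht : ∀ q, QUnit (t q))
    (hT : Disjoint TL TR) (hR : Disjoint RL RR) (hTL : TL ⊆ T) (hTR : TR ⊆ T) (hRL : RL ⊆ R)
    (hRR : RR ⊆ R) (x : HS Q) :
    ∑ s ∈ TL.powerset ×ˢ TR.powerset, ∑ u ∈ RL.powerset ×ˢ RR.powerset,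
      (if s = (∅, ∅) ∧ u = (∅, ∅) then (1 : ℝ) else 4 / 3) *
      ‖(star (vp ((TL ∪ TR) ∪ (RL ∪ RR)) (s.1 ∪ u.1)) * gateK T R c φ t
          * vp ((TL ∪ TR) ∪ (RL ∪ RR)) (s.2 ∪ u.2)) x‖ ^ 2 ≤ ‖x‖ ^ 2 := by
  set FT := TL ∪ TR with hFT
  set FR := RL ∪ RR with hFR
  have hFTT : FT ⊆ T := Finset.union_subset hTL hTR
  have hFRR : FR ⊆ R := Finset.union_subset hRL hRR
  have hFd : Disjoint FT FR := Finset.disjoint_of_subset_left hFTT
    (Finset.disjoint_of_subset_right hFRR hTRd)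
  set K0 : Op Q := bk T t t with hK0
  set GT : Op Q := gz c T φ with hGT
  set K1 : Op Q := GT * K0 * GT with hK1
  have hGG : GT * GT = 1 := gz_mul_self hc (fun q _ => hφ q)
  have hGs : star GT = GT := star_gz hc _ _
  have hK0K0 : K0 * K0 = K0 := bk_idem fun q _ => ht q
  have hK0s : star K0 = K0 := star_bk _ _ _
  have hK1K1 : K1 * K1 = K1 := by
    calc K1 * K1 = GT * K0 * (GT * GT) * K0 * GT := by simp only [hK1, mul_assoc]
      _ = GT * (K0 * K0) * GT := by rw [hGG]; simp only [mul_assoc, mul_one]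
      _ = K1 := by rw [hK0K0]
  have hK1s : star K1 = K1 := by
    simp only [hK1, star_mul, hK0s, hGs, mul_assoc]
  have hw0 : ‖pv t‖ = 1 := pv_norm ht
  have hw1 : ‖GT (pv t)‖ = 1 := by rw [norm_invol hGG hGs, hw0]
  have hGL : GT ∈ Loc T := gz_mem_Loc subset_rfl _ _
  have hK0L : K0 ∈ Loc T := bk_mem_Loc subset_rfl _ _
  have hK1L : K1 ∈ Loc T := mul_mem_Loc (mul_mem_Loc hGL hK0L) hGL
  have hRO0 : ∀ Y ∈ Loc T, K0 * Y * K0 = ⟪pv t, Y (pv t)⟫_ℂ • K0 := fun Y hY => RO_Loc ht hY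
  have hRO1 : ∀ Y ∈ Loc T, K1 * Y * K1 = ⟪GT (pv t), Y (GT (pv t))⟫_ℂ • K1 := by
    intro Y hY
    have h1 := hRO0 (GT * Y * GT) (mul_mem_Loc (mul_mem_Loc hGL hY) hGL)
    have h2 : ⟪pv t, (GT * Y * GT) (pv t)⟫_ℂ = ⟪GT (pv t), Y (GT (pv t))⟫_ℂ := by
      rw [← inner_star_right', hGs]
      rfl
    rw [h2] at h1
    calc K1 * Y * K1 = GT * (K0 * (GT * Y * GT) * K0) * GT := by simp only [hK1, mul_assoc]
      _ = _ := by rw [h1, mul_smul_comm, smul_mul_assoc]
  have hbr0 := fun ζ => gate_branch_inst hT hTL hTR hK0K0 hK0s hw0 hRO0 ζ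
  have hbr1 := fun ζ => gate_branch_inst hT hTL hTR hK1K1 hK1s hw1 hRO1 ζ
  set p : ℝ := ∏ q ∈ FR, ‖φ q true‖ ^ 2 with hp
  have hp0 : 0 ≤ p := Finset.prod_nonneg fun q _ => by positivity
  have hp1 : p ≤ 1 := Finset.prod_le_one (fun q _ => by positivity) fun q _ => qunit_true_le (hφ q)
  have hmz : mixCoef φ RL RR (∅, ∅) = (p : ℂ) := by
    rcases mix_zero RL RR φ with h | h
    · exact h
    · exact absurd hR h
  have hzm : (∅, ∅) ∈ RL.powerset ×ˢ RR.powerset := by simp
  have hzs : (∅, ∅) ∈ TL.powerset ×ˢ TR.powerset := by simp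
  have hb : ∑ u ∈ (RL.powerset ×ˢ RR.powerset).erase (∅, ∅), ‖mixCoef φ RL RR u‖ ^ 2 ≤ p - p ^ 2 := by
    have h1 := Finset.add_sum_erase (RL.powerset ×ˢ RR.powerset)
      (fun u => ‖mixCoef φ RL RR u‖ ^ 2) hzm
    simp only [hmz, mix_sum hR φ hφ] at h1
    rw [Complex.norm_real, Real.norm_eq_abs, sq_abs] at h1
    linarith
  have hsLoc : ∀ s ∈ TL.powerset ×ˢ TR.powerset, star (vp FT s.1) ∈ Loc T ∧ vp FT s.2 ∈ Loc T := by
    intro s hs
    rw [Finset.mem_product, Finset.mem_powerset, Finset.mem_powerset] at hs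
    exact ⟨star_vp_mem_Loc (hs.1.trans Finset.subset_union_left) hFTT,
      vp_mem_Loc (hs.2.trans Finset.subset_union_right) hFTT⟩
  have hPL : bk (R \ FR) φ φ ∈ Loc R := bk_mem_Loc Finset.sdiff_subset _ _
  have hGL' : (nn FR : Op Q) ∈ Loc R := nn_mem_Loc hFRR
  have hform : ∀ s ∈ TL.powerset ×ˢ TR.powerset, ∀ u ∈ RL.powerset ×ˢ RR.powerset,
      star (vp (FT ∪ FR) (s.1 ∪ u.1)) * gateK T R c φ t * vp (FT ∪ FR) (s.2 ∪ u.2)
        = (star (vp FR u.1) * vp FR u.2) * (star (vp FT s.1) * K0 * vp FT s.2)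
          + (star (vp FR u.1) * bk R φ φ * vp FR u.2)
            * (star (vp FT s.1) * K1 * vp FT s.2 - star (vp FT s.1) * K0 * vp FT s.2) := by
    intro s hs u hu
    have hs' := hs
    rw [Finset.mem_product, Finset.mem_powerset, Finset.mem_powerset] at hs' hu
    have hf : vp FR u.2 ∈ Loc R := vp_mem_Loc (hu.2.trans Finset.subset_union_right) hFRR
    have e0 : gateK T R c φ t = K0 + bk R φ φ * (K1 - K0) := gateK_eq hTRd c φ t hφ
    have e1 : star (vp (FT ∪ FR) (s.1 ∪ u.1)) * gateK T R c φ t * vp (FT ∪ FR) (s.2 ∪ u.2)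
        = star (vp FR u.1) * star (vp FT s.1) * (K0 + bk R φ φ * (K1 - K0)) * vp FT s.2 * vp FR u.2 := by
      rw [vp_union hFd (hs'.1.trans Finset.subset_union_left) (hu.1.trans Finset.subset_union_left),
        vp_union hFd (hs'.2.trans Finset.subset_union_right) (hu.2.trans Finset.subset_union_right),
        star_mul, e0]
      simp only [mul_assoc]
    rw [e1]
    have c1 : Commute (vp FR u.2) (star (vp FT s.1)) := Loc_commute hTRd.symm hf (hsLoc s hs).1
    have c2 : Commute (vp FR u.2) (vp FT s.2) := Loc_commute hTRd.symm hf (hsLoc s hs).2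
    have c3 : Commute (vp FR u.2) K0 := Loc_commute hTRd.symm hf hK0L
    have c4 : Commute (vp FR u.2) K1 := Loc_commute hTRd.symm hf hK1L
    have c5 : Commute (bk R φ φ) (star (vp FT s.1)) :=
      Loc_commute hTRd.symm (bk_mem_Loc subset_rfl _ _) (hsLoc s hs).1
    exact sandwich (star (vp FR u.1)) (star (vp FT s.1)) (bk R φ φ) (vp FR u.2) (vp FT s.2) K0 K1
      c1 c2 c3 c4 c5
  have hmain := mixture_lemma (TL.powerset ×ˢ TR.powerset) (RL.powerset ×ˢ RR.powerset)
    ((∅ : Finset Q), (∅ : Finset Q)) ((∅ : Finset Q), (∅ : Finset Q)) hzs hzm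
    (fun s => star (vp FT s.1) * K0 * vp FT s.2) (fun s => star (vp FT s.1) * K1 * vp FT s.2)
    (bk (R \ FR) φ φ) (nn FR) (mixCoef φ RL RR) p
    (bk_idem fun q _ => hφ q) (star_bk _ _ _) (nn_idem _) (star_nn _)
    (by
      have hd' : Disjoint FR (R \ FR) := Finset.disjoint_sdiff
      exact Loc_commute hd' (nn_mem_Loc subset_rfl) (bk_mem_Loc subset_rfl _ _))
    (fun s hs => Loc_commute hTRd.symm hPL
      (mul_mem_Loc (mul_mem_Loc (hsLoc s hs).1 hK0L) (hsLoc s hs).2))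
    (fun s hs => Loc_commute hTRd.symm hPL
      (mul_mem_Loc (mul_mem_Loc (hsLoc s hs).1 hK1L) (hsLoc s hs).2))
    (fun s hs => Loc_commute hTRd.symm hGL'
      (mul_mem_Loc (mul_mem_Loc (hsLoc s hs).1 hK0L) (hsLoc s hs).2))
    (fun s hs => Loc_commute hTRd.symm hGL'
      (mul_mem_Loc (mul_mem_Loc (hsLoc s hs).1 hK1L) (hsLoc s hs).2))
    hp0 hp1 hb (fun ζ => (hbr0 ζ).1) (fun ζ => (hbr0 ζ).2) (fun ζ => (hbr1 ζ).1)
    (fun ζ => (hbr1 ζ).2)
    (fun s u => star (vp (FT ∪ FR) (s.1 ∪ u.1)) * gateK T R c φ t * vp (FT ∪ FR) (s.2 ∪ u.2))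
    ?_ ?_ x
  · exact hmain
  · intro s hs
    rw [hform s hs _ hzm]
    have h1 := star_vp_mul_vp hR ((∅, ∅) : Finset Q × Finset Q) (Finset.empty_subset _) (Finset.empty_subset _)
    have h2 := mix_formula hR hRL hRR φ ((∅, ∅) : Finset Q × Finset Q) (Finset.empty_subset _) (Finset.empty_subset _)
    rw [if_pos rfl] at h1
    rw [h1, h2, hmz]
    simp only [mul_add, smul_mul_assoc, mul_smul_comm, mul_assoc]
    rfl
  · intro s hs u hu hu'
    rw [hform s hs u hu]
    rw [Finset.mem_product, Finset.mem_powerset, Finset.mem_powerset] at hu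
    have h1 := star_vp_mul_vp hR u hu.1 hu.2
    have h2 := mix_formula hR hRL hRR φ u hu.1 hu.2
    rw [if_neg hu'] at h1
    rw [h1, h2]
    simp only [zero_mul, zero_add, smul_mul_assoc, mul_assoc]
    rfl

/-- The gate inequality: gain `4/3` for every excitation pattern touching the gate. -/
theorem gate_ineq {T R L1 L2 : Finset Q} (hTRd : Disjoint T R) (c : ℂ) (hc : c = 0 ∨ c = 1)
    (φ t : Q → QV) (hφ : ∀ q, QUnit (φ q)) (ht : ∀ q, QUnit (t q))
    (hL : Disjoint L1 L2) (h1 : L1 ⊆ T ∪ R) (h2 : L2 ⊆ T ∪ R) (x : HS Q) :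
    ∑ S1 ∈ L1.powerset, ∑ S2 ∈ L2.powerset,
      (if S1 = ∅ ∧ S2 = ∅ then (1 : ℝ) else 4 / 3) *
      ‖(star (vp (L1 ∪ L2) S1) * gateK T R c φ t * vp (L1 ∪ L2) S2) x‖ ^ 2 ≤ ‖x‖ ^ 2 := by
  have hL1 : L1 = (L1 ∩ T) ∪ (L1 ∩ R) := by
    rw [← Finset.inter_union_distrib_left]
    exact (Finset.inter_eq_left.mpr h1).symm
  have hL2 : L2 = (L2 ∩ T) ∪ (L2 ∩ R) := by
    rw [← Finset.inter_union_distrib_left]
    exact (Finset.inter_eq_left.mpr h2).symm
  have hd1 : Disjoint (L1 ∩ T) (L1 ∩ R) :=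
    Finset.disjoint_of_subset_left Finset.inter_subset_right
      (Finset.disjoint_of_subset_right Finset.inter_subset_right hTRd)
  have hd2 : Disjoint (L2 ∩ T) (L2 ∩ R) :=
    Finset.disjoint_of_subset_left Finset.inter_subset_right
      (Finset.disjoint_of_subset_right Finset.inter_subset_right hTRd)
  have hdT : Disjoint (L1 ∩ T) (L2 ∩ T) :=
    Finset.disjoint_of_subset_left Finset.inter_subset_left
      (Finset.disjoint_of_subset_right Finset.inter_subset_left hL)
  have hdR : Disjoint (L1 ∩ R) (L2 ∩ R) :=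
    Finset.disjoint_of_subset_left Finset.inter_subset_left
      (Finset.disjoint_of_subset_right Finset.inter_subset_left hL)
  have hcore := gate_ineq_core hTRd c hc φ t hφ ht hdT hdR Finset.inter_subset_right
    Finset.inter_subset_right Finset.inter_subset_right Finset.inter_subset_right x
  have hF : ((L1 ∩ T) ∪ (L2 ∩ T)) ∪ ((L1 ∩ R) ∪ (L2 ∩ R)) = L1 ∪ L2 := by
    conv_rhs => rw [hL1, hL2]
    ext q; simp only [Finset.mem_union, Finset.mem_inter]; tauto
  rw [hF] at hcore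
  refine le_trans (le_of_eq ?_) hcore
  have e1 : ∀ g : Finset Q → ℝ, ∑ S ∈ L1.powerset, g S
      = ∑ s1 ∈ (L1 ∩ T).powerset, ∑ u1 ∈ (L1 ∩ R).powerset, g (s1 ∪ u1) := by
    intro g
    rw [← sum_powerset_union hd1, ← hL1]
  have e2 : ∀ g : Finset Q → ℝ, ∑ S ∈ L2.powerset, g S
      = ∑ s2 ∈ (L2 ∩ T).powerset, ∑ u2 ∈ (L2 ∩ R).powerset, g (s2 ∪ u2) := by
    intro g
    rw [← sum_powerset_union hd2, ← hL2]
  rw [e1]
  simp only [e2, Finset.sum_product]
  refine Finset.sum_congr rfl fun s1 _ => ?_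
  rw [Finset.sum_comm]
  refine Finset.sum_congr rfl fun s2 _ => Finset.sum_congr rfl fun u1 _ =>
    Finset.sum_congr rfl fun u2 _ => ?_
  congr 1
  have : (s1 ∪ u1 = ∅ ∧ s2 ∪ u2 = ∅) ↔ ((s1, s2) = ((∅ : Finset Q), (∅ : Finset Q)) ∧ (u1, u2) = ((∅ : Finset Q), (∅ : Finset Q))) := by
    simp only [Finset.union_eq_empty, Prod.mk.injEq]
    tauto
  simp only [this]

end Vale.Agent.Lib.P368
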