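import Mathlib
import Vale.Agent.Lib.P368.GL

/-!
# The chain inequality over all gates of the second layer
-/

set_option linter.unusedSectionVars false
set_option linter.unusedVariables false
set_option linter.unusedSimpArgs false
set_option linter.deprecated false
set_option linter.unusedTactic false
set_option linter.unreachableTactic false

namespace Vale.Agent.Lib.P368

open scoped BigOperators InnerProductSpace ComplexConjugate

variable {Q : Type} [Fintype Q] [DecidableEq Q]

/-- Data of a gate of the second layer: the qubits `T` measured by the target projector, the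
other qubits `R` of the gate, and whether the gate is present. -/
structure GD (Q : Type) where
  T : Finset Q
  R : Finset Q
  c : ℂ

/-- The qubits of a gate. -/
def GD.supp (g : GD Q) : Finset Q := g.T ∪ g.R

/-- The conjugated projector of a gate. -/
noncomputable def GD.K (φ t : Q → QV) (g : GD Q) : Op Q := gateK g.T g.R g.c φ t

/-- All qubits of a list of gates. -/
def sup2 : List (GD Q) → Finset Q
  | [] => ∅
  | g :: l => g.supp ∪ sup2 l

/-- Product of the conjugated projectors of a list of gates. -/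
noncomputable def XX (φ t : Q → QV) : List (GD Q) → Op Q
  | [] => 1
  | g :: l => g.K φ t * XX φ t l

/-- Weight of an excitation pattern: `4/3` for each gate it touches. -/
noncomputable def wt : List (GD Q) → Finset Q → ℝ
  | [], _ => 1
  | g :: l, S => (if (S ∩ g.supp).Nonempty then 4 / 3 else 1) * wt l S

/-- Wellformed gate. -/
def GD.Good (g : GD Q) : Prop := Disjoint g.T g.R ∧ (g.c = 0 ∨ g.c = 1)

/-- Wellformed lists of gates. -/
def GoodList (l : List (GD Q)) : Prop :=
  (∀ g ∈ l, g.Good) ∧ l.Pairwise fun g h => Disjoint g.supp h.supp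

theorem K_mem_Loc (φ t : Q → QV) (g : GD Q) : g.K φ t ∈ Loc g.supp := by
  unfold GD.K gateK GD.supp
  exact mul_mem_Loc (mul_mem_Loc (gz_mem_Loc subset_rfl _ _)
    (bk_mem_Loc Finset.subset_union_left _ _)) (gz_mem_Loc subset_rfl _ _)

theorem XX_mem_Loc (φ t : Q → QV) (l : List (GD Q)) : XX φ t l ∈ Loc (sup2 l) := by
  induction l with
  | nil => exact one_mem_Loc _
  | cons g l ih =>
    exact mul_mem_Loc (Loc_mono Finset.subset_union_left (K_mem_Loc φ t g))
      (Loc_mono Finset.subset_union_right ih)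

theorem disjoint_supp_sup2 {g : GD Q} {l : List (GD Q)} (h : ∀ h' ∈ l, Disjoint g.supp h'.supp) :
    Disjoint g.supp (sup2 l) := by
  induction l with
  | nil => simp [sup2]
  | cons h' l ih =>
    simp only [sup2]
    rw [Finset.disjoint_union_right]
    exact ⟨h h' (by simp), ih fun x hx => h x (by simp [hx])⟩

theorem wt_congr (l : List (GD Q)) {S S' : Finset Q} (h : S ∩ sup2 l = S' ∩ sup2 l) :
    wt l S = wt l S' := by
  induction l with
  | nil => rfl
  | cons g l ih =>
    simp only [sup2] at h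
    have h1 : S ∩ g.supp = S' ∩ g.supp := by
      ext q
      have := Finset.ext_iff.mp h q
      simp only [Finset.mem_inter, Finset.mem_union] at this ⊢
      tauto
    have h2 : S ∩ sup2 l = S' ∩ sup2 l := by
      ext q
      have := Finset.ext_iff.mp h q
      simp only [Finset.mem_inter, Finset.mem_union] at this ⊢
      tauto
    simp only [wt, h1, ih h2]

theorem wt_one_le (l : List (GD Q)) (S : Finset Q) : 1 ≤ wt l S := by
  induction l with
  | nil => exact le_rfl
  | cons g l ih =>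
    simp only [wt]
    split_ifs <;> nlinarith

theorem wt_pos (l : List (GD Q)) (S : Finset Q) : 0 < wt l S := lt_of_lt_of_le one_pos (wt_one_le l S)

theorem sum4_swap {α : Type*} (A B C D : Finset α) (F : α → α → α → α → ℝ) :
    ∑ s1 ∈ A, ∑ u1 ∈ B, ∑ s2 ∈ C, ∑ u2 ∈ D, F s1 u1 s2 u2
      = ∑ u1 ∈ B, ∑ u2 ∈ D, ∑ s1 ∈ A, ∑ s2 ∈ C, F s1 u1 s2 u2 := by
  rw [Finset.sum_comm]
  refine Finset.sum_congr rfl fun u1 _ => ?_
  calc ∑ s1 ∈ A, ∑ s2 ∈ C, ∑ u2 ∈ D, F s1 u1 s2 u2
      = ∑ s1 ∈ A, ∑ u2 ∈ D, ∑ s2 ∈ C, F s1 u1 s2 u2 :=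
        Finset.sum_congr rfl fun s1 _ => Finset.sum_comm
    _ = _ := Finset.sum_comm

/-- The chain inequality. -/
theorem chain_ineq (φ t : Q → QV) (hφ : ∀ q, QUnit (φ q)) (ht : ∀ q, QUnit (t q))
    (l : List (GD Q)) (hl : GoodList l) (L1 L2 : Finset Q) (hL : Disjoint L1 L2)
    (h1 : L1 ⊆ sup2 l) (h2 : L2 ⊆ sup2 l) (x : HS Q) :
    ∑ S1 ∈ L1.powerset, ∑ S2 ∈ L2.powerset, wt l (S1 ∪ S2) *
      ‖(star (vp (L1 ∪ L2) S1) * XX φ t l * vp (L1 ∪ L2) S2) x‖ ^ 2 ≤ ‖x‖ ^ 2 := by
  induction l generalizing L1 L2 x with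
  | nil =>
    have e1 : L1 = ∅ := Finset.subset_empty.mp h1
    have e2 : L2 = ∅ := Finset.subset_empty.mp h2
    subst e1 e2
    have : vp (∅ : Finset Q) ∅ = 1 := by
      rw [vp_empty]; unfold nn bk; rw [← po_one]; congr 1
    simp [wt, XX, this]
  | cons g l ih =>
    have hgood : g.Good := hl.1 g (by simp)
    have hl' : GoodList l := ⟨fun h hh => hl.1 h (by simp [hh]), (List.pairwise_cons.mp hl.2).2⟩
    have hdg : Disjoint g.supp (sup2 l) :=
      disjoint_supp_sup2 fun h' hh => (List.pairwise_cons.mp hl.2).1 h' hh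
    set A1 := L1 ∩ g.supp with hA1
    set B1 := L1 ∩ sup2 l with hB1
    set A2 := L2 ∩ g.supp with hA2
    set B2 := L2 ∩ sup2 l with hB2
    have hL1 : L1 = A1 ∪ B1 := by
      rw [hA1, hB1, ← Finset.inter_union_distrib_left]
      exact (Finset.inter_eq_left.mpr h1).symm
    have hL2 : L2 = A2 ∪ B2 := by
      rw [hA2, hB2, ← Finset.inter_union_distrib_left]
      exact (Finset.inter_eq_left.mpr h2).symm
    have hdA1 : A1 ⊆ g.supp := Finset.inter_subset_right
    have hdA2 : A2 ⊆ g.supp := Finset.inter_subset_right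
    have hdB1 : B1 ⊆ sup2 l := Finset.inter_subset_right
    have hdB2 : B2 ⊆ sup2 l := Finset.inter_subset_right
    have hd1 : Disjoint A1 B1 := Finset.disjoint_of_subset_left hdA1
      (Finset.disjoint_of_subset_right hdB1 hdg)
    have hd2 : Disjoint A2 B2 := Finset.disjoint_of_subset_left hdA2
      (Finset.disjoint_of_subset_right hdB2 hdg)
    have hdAA : Disjoint A1 A2 := Finset.disjoint_of_subset_left Finset.inter_subset_left
      (Finset.disjoint_of_subset_right Finset.inter_subset_left hL)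
    have hdBB : Disjoint B1 B2 := Finset.disjoint_of_subset_left Finset.inter_subset_left
      (Finset.disjoint_of_subset_right Finset.inter_subset_left hL)
    set A := A1 ∪ A2 with hA
    set B := B1 ∪ B2 with hB
    have hAs : A ⊆ g.supp := Finset.union_subset hdA1 hdA2
    have hBs : B ⊆ sup2 l := Finset.union_subset hdB1 hdB2
    have hdAB : Disjoint A B := Finset.disjoint_of_subset_left hAs
      (Finset.disjoint_of_subset_right hBs hdg)
    have hLL : L1 ∪ L2 = A ∪ B := by
      rw [hL1, hL2, hA, hB]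
      ext q; simp only [Finset.mem_union]; tauto
    -- the gate inequality and the inductive hypothesis
    have hgate := fun y => gate_ineq (T := g.T) (R := g.R) (L1 := A1) (L2 := A2) hgood.1 g.c hgood.2
      φ t hφ ht hdAA hdA1 hdA2 y
    have hind := ih hl' B1 B2 hdBB hdB1 hdB2 x
    -- the factorisation
    have hfac : ∀ s1 ∈ A1.powerset, ∀ s2 ∈ A2.powerset, ∀ u1 ∈ B1.powerset, ∀ u2 ∈ B2.powerset,
        star (vp (L1 ∪ L2) (s1 ∪ u1)) * XX φ t (g :: l) * vp (L1 ∪ L2) (s2 ∪ u2)
          = (star (vp A s1) * g.K φ t * vp A s2) * (star (vp B u1) * XX φ t l * vp B u2) := by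
      intro s1 hs1 s2 hs2 u1 hu1 u2 hu2
      rw [Finset.mem_powerset] at hs1 hs2 hu1 hu2
      have hs1A : s1 ⊆ A := hs1.trans Finset.subset_union_left
      have hs2A : s2 ⊆ A := hs2.trans Finset.subset_union_right
      have hu1B : u1 ⊆ B := hu1.trans Finset.subset_union_left
      have hu2B : u2 ⊆ B := hu2.trans Finset.subset_union_right
      rw [hLL, vp_union hdAB hs1A hu1B, vp_union hdAB hs2A hu2B, star_mul]
      have c1 : Commute (star (vp B u1)) (star (vp A s1) * g.K φ t) :=
        Loc_commute hdg.symm (star_vp_mem_Loc hu1B hBs)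
          (mul_mem_Loc (star_vp_mem_Loc hs1A hAs) (K_mem_Loc φ t g))
      have c2 : Commute (vp A s2) (star (vp B u1) * XX φ t l) :=
        Loc_commute hdg (vp_mem_Loc hs2A hAs)
          (mul_mem_Loc (star_vp_mem_Loc hu1B hBs) (XX_mem_Loc φ t l))
      calc star (vp B u1) * star (vp A s1) * XX φ t (g :: l) * (vp A s2 * vp B u2)
          = (star (vp B u1) * (star (vp A s1) * g.K φ t)) * XX φ t l * (vp A s2 * vp B u2) := by
            simp only [XX, mul_assoc]
        _ = (star (vp A s1) * g.K φ t) * (star (vp B u1) * XX φ t l * vp A s2) * vp B u2 := by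
            rw [c1.eq]; simp only [mul_assoc]
        _ = (star (vp A s1) * g.K φ t) * (vp A s2 * (star (vp B u1) * XX φ t l)) * vp B u2 := by
            rw [c2.eq]
        _ = _ := by simp only [mul_assoc]
    have hwt : ∀ s1 ∈ A1.powerset, ∀ s2 ∈ A2.powerset, ∀ u1 ∈ B1.powerset, ∀ u2 ∈ B2.powerset,
        wt (g :: l) ((s1 ∪ u1) ∪ (s2 ∪ u2))
          = (if s1 = ∅ ∧ s2 = ∅ then (1 : ℝ) else 4 / 3) * wt l (u1 ∪ u2) := by
      intro s1 hs1 s2 hs2 u1 hu1 u2 hu2
      rw [Finset.mem_powerset] at hs1 hs2 hu1 hu2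
      simp only [wt]
      have e1 : ((s1 ∪ u1) ∪ (s2 ∪ u2)) ∩ g.supp = s1 ∪ s2 := by
        ext q
        simp only [Finset.mem_inter, Finset.mem_union]
        constructor
        · rintro ⟨h | h, hq⟩
          · rcases h with h | h
            · exact Or.inl h
            · exact absurd hq (Finset.disjoint_right.mp hdg (hdB1 (hu1 h)))
          · rcases h with h | h
            · exact Or.inr h
            · exact absurd hq (Finset.disjoint_right.mp hdg (hdB2 (hu2 h)))
        · rintro (h | h)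
          · exact ⟨Or.inl (Or.inl h), hdA1 (hs1 h)⟩
          · exact ⟨Or.inr (Or.inl h), hdA2 (hs2 h)⟩
      have e2 : ((s1 ∪ u1) ∪ (s2 ∪ u2)) ∩ sup2 l = (u1 ∪ u2) ∩ sup2 l := by
        ext q
        simp only [Finset.mem_inter, Finset.mem_union]
        constructor
        · rintro ⟨h | h, hq⟩
          · rcases h with h | h
            · exact absurd hq (Finset.disjoint_left.mp hdg (hdA1 (hs1 h)))
            · exact ⟨Or.inl h, hq⟩
          · rcases h with h | h
            · exact absurd hq (Finset.disjoint_left.mp hdg (hdA2 (hs2 h)))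
            · exact ⟨Or.inr h, hq⟩
        · rintro ⟨h | h, hq⟩
          · exact ⟨Or.inl (Or.inr h), hq⟩
          · exact ⟨Or.inr (Or.inr h), hq⟩
      rw [e1, wt_congr l e2]
      congr 1
      by_cases h : (s1 ∪ s2).Nonempty
      · have : ¬ (s1 = ∅ ∧ s2 = ∅) := by
          rintro ⟨rfl, rfl⟩
          simp at h
        rw [if_pos h, if_neg this]
      · have h' : s1 ∪ s2 = ∅ := Finset.not_nonempty_iff_eq_empty.mp h
        have : s1 = ∅ ∧ s2 = ∅ := Finset.union_eq_empty.mp h'
        rw [if_neg h, if_pos this]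
    -- reorganise the sum
    have e1 : ∀ f : Finset Q → ℝ, ∑ S ∈ L1.powerset, f S
        = ∑ s1 ∈ A1.powerset, ∑ u1 ∈ B1.powerset, f (s1 ∪ u1) := by
      intro f; rw [← sum_powerset_union hd1, ← hL1]
    have e2 : ∀ f : Finset Q → ℝ, ∑ S ∈ L2.powerset, f S
        = ∑ s2 ∈ A2.powerset, ∑ u2 ∈ B2.powerset, f (s2 ∪ u2) := by
      intro f; rw [← sum_powerset_union hd2, ← hL2]
    rw [e1]
    simp only [e2]
    calc ∑ s1 ∈ A1.powerset, ∑ u1 ∈ B1.powerset, ∑ s2 ∈ A2.powerset, ∑ u2 ∈ B2.powerset,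
          wt (g :: l) ((s1 ∪ u1) ∪ (s2 ∪ u2)) *
          ‖(star (vp (L1 ∪ L2) (s1 ∪ u1)) * XX φ t (g :: l) * vp (L1 ∪ L2) (s2 ∪ u2)) x‖ ^ 2
        = ∑ u1 ∈ B1.powerset, ∑ u2 ∈ B2.powerset, wt l (u1 ∪ u2) * ∑ s1 ∈ A1.powerset, ∑ s2 ∈ A2.powerset,
          (if s1 = ∅ ∧ s2 = ∅ then (1 : ℝ) else 4 / 3) *
          ‖(star (vp A s1) * g.K φ t * vp A s2) ((star (vp B u1) * XX φ t l * vp B u2) x)‖ ^ 2 := by
          rw [sum4_swap]
          refine Finset.sum_congr rfl fun u1 hu1 => Finset.sum_congr rfl fun u2 hu2 => ?_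
          rw [Finset.mul_sum]
          refine Finset.sum_congr rfl fun s1 hs1 => ?_
          rw [Finset.mul_sum]
          refine Finset.sum_congr rfl fun s2 hs2 => ?_
          rw [hwt s1 hs1 s2 hs2 u1 hu1 u2 hu2, hfac s1 hs1 s2 hs2 u1 hu1 u2 hu2]
          rw [ContinuousLinearMap.mul_apply]
          ring
      _ ≤ ∑ u1 ∈ B1.powerset, ∑ u2 ∈ B2.powerset, wt l (u1 ∪ u2) *
          ‖(star (vp B u1) * XX φ t l * vp B u2) x‖ ^ 2 := by
          refine Finset.sum_le_sum fun u1 _ => Finset.sum_le_sum fun u2 _ => ?_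
          exact mul_le_mul_of_nonneg_left (hgate _) (wt_pos l _).le
      _ ≤ ‖x‖ ^ 2 := hind

end Vale.Agent.Lib.P368
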