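import Mathlib

/-!
# The circuit model for parity in QAC0

Qubits are `Fin N`, basis configurations are `Fin N → Bool` (`true` is the basis state one).
Gates are arbitrary one-qubit unitaries and generalized Toffoli gates.
A layer is a list of gates with pairwise disjoint supports, a circuit a list of layers
(the head of the list acts first).  The entangling depth counts the layers that contain a
multi-qubit gate.
-/

namespace Vale.Agent.Lib.P368

open scoped BigOperators

variable {N : ℕ}

/-- Basis configurations of `N` qubits. -/
abbrev Cfg (N : ℕ) := Fin N → Bool

/-- The matrix of the one-qubit operator `U` acting on qubit `q`, tensored with the identity. -/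
def singleMatrix (q : Fin N) (U : Matrix Bool Bool ℂ) : Matrix (Cfg N) (Cfg N) ℂ :=
  Matrix.of fun x y => if ∀ p, p ≠ q → x p = y p then U (x q) (y q) else 0

/-- The classical action of the generalized Toffoli gate with controls `S` and target `b`:
the target bit is flipped exactly when all control bits are one. -/
def toffoliFlip (S : Finset (Fin N)) (b : Fin N) (y : Cfg N) : Cfg N :=
  if ∀ s ∈ S, y s = true then Function.update y b (!y b) else y

/-- The permutation matrix of the generalized Toffoli gate. -/
def toffoliMatrix (S : Finset (Fin N)) (b : Fin N) : Matrix (Cfg N) (Cfg N) ℂ :=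
  Matrix.of fun x y => if x = toffoliFlip S b y then 1 else 0

/-- A gate: an arbitrary one-qubit unitary, or a generalized Toffoli gate with a nonempty set
of controls and a target outside the controls. -/
inductive Gate (N : ℕ) where
  | single (q : Fin N) (U : Matrix Bool Bool ℂ) (hU : U ∈ Matrix.unitaryGroup Bool ℂ) : Gate N
  | toffoli (S : Finset (Fin N)) (b : Fin N) (hS : S.Nonempty) (hb : b ∉ S) : Gate N

/-- The matrix of a gate on the full `N`-qubit space. -/
def Gate.matrix : Gate N → Matrix (Cfg N) (Cfg N) ℂ
  | .single q U _ => singleMatrix q U
  | .toffoli S b _ _ => toffoliMatrix S b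

/-- The qubits a gate acts on. -/
def Gate.support : Gate N → Finset (Fin N)
  | .single q _ _ => {q}
  | .toffoli S b _ _ => insert b S

/-- A gate is entangling when it is a multi-qubit gate, that is, a generalized Toffoli gate. -/
def Gate.isEntangling : Gate N → Bool
  | .single _ _ _ => false
  | .toffoli _ _ _ _ => true

/-- A layer: a list of gates with pairwise disjoint supports. -/
structure Layer (N : ℕ) where
  gates : List (Gate N)
  disjoint : gates.Pairwise fun g h => Disjoint g.support h.support

/-- The matrix of a layer: the product of its gates. -/
def Layer.matrix (L : Layer N) : Matrix (Cfg N) (Cfg N) ℂ :=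
  (L.gates.map Gate.matrix).prod

/-- A circuit: a list of layers; the head of the list acts first on the state. -/
abbrev Circuit (N : ℕ) := List (Layer N)

/-- The matrix of a circuit (the first layer in the list is the rightmost factor). -/
def Circuit.matrix (c : Circuit N) : Matrix (Cfg N) (Cfg N) ℂ :=
  (c.map Layer.matrix).reverse.prod

/-- The entangling depth: the number of layers that contain a multi-qubit gate. -/
def Circuit.entanglingDepth (c : Circuit N) : ℕ :=
  (c.filter fun L => L.gates.any Gate.isEntangling).length

/-- The start configuration `|x⟩|0…0⟩`: the first `n` qubits carry the input `x`,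
all other qubits (the ancillas) are zero. -/
def startCfg {n : ℕ} (x : Fin n → Bool) : Cfg N :=
  fun q => if h : q.val < n then x ⟨q.val, h⟩ else false

/-- The parity of the input, as a bit. -/
def parityBit {n : ℕ} (x : Fin n → Bool) : Bool :=
  (Finset.univ.filter fun i => x i = true).card % 2 == 1

/-- The probability that, on input `x`, measuring qubit `out` at the end of `c` gives the bit `r`:
the sum of the squared moduli of the amplitudes of all final basis states with `y out = r`. -/
noncomputable def outcomeProb {n : ℕ} (c : Circuit N) (out : Fin N) (x : Fin n → Bool) (r : Bool) : ℝ :=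
  ∑ y : Cfg N, if y out = r then ‖c.matrix y (startCfg x)‖ ^ 2 else 0

/-- The parity correlation: the average over uniform `x` of `Pr[correct] - Pr[wrong]`. -/
noncomputable def parityCorrelation (n : ℕ) (c : Circuit N) (out : Fin N) : ℝ :=
  ((2 : ℝ) ^ n)⁻¹ * ∑ x : Fin n → Bool,
    (outcomeProb c out x (parityBit x) - outcomeProb c out x (!parityBit x))

/-- The circuit computes parity on `n` bits with worst-case advantage `ε`. -/
def ComputesParityWithAdvantage (n : ℕ) (c : Circuit N) (out : Fin N) (ε : ℝ) : Prop :=
  ∀ x : Fin n → Bool, 1 / 2 + ε ≤ outcomeProb c out x (parityBit x)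

end Vale.Agent.Lib.P368
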