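import Mathlib
import Vale.Agent.Lib.P368.Chain

/-!
# Expansion of product vectors in excitations of the flag qubits
-/

set_option linter.unusedSectionVars false
set_option linter.unusedVariables false
set_option linter.unusedSimpArgs false
set_option linter.deprecated false
set_option linter.unusedTactic false
set_option linter.unreachableTactic false

namespace Vale.Agent.Lib.P368

open scoped BigOperators InnerProductSpace ComplexConjugate

variable {Q : Type} [Fintype Q] [DecidableEq Q]

/-- Coefficient of an excitation pattern. -/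
def gam (a : Q → QV) (E S : Finset Q) : ℂ := ∏ q ∈ E, if q ∈ S then a q false else a q true

theorem s1_smul (r : Q) (x : ℂ) (A : QM) : s1 r (x • A) = x • s1 r A := by
  unfold s1
  have : (fun q => if q = r then x • A else (1 : QM))
      = fun q => (if q = r then x else 1) • (if q = r then A else (1 : QM)) := by
    funext q
    by_cases h : q = r <;> simp [h]
  rw [this, po_smul]
  congr 1
  simp

theorem ket_e1_expand (v : QV) : ket v e1 = v true • P1 + v false • Sg := by
  ext i j
  cases i <;> cases j <;> simp [ket, P1, Sg, e0, e1]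

theorem bk_insert {r : Q} {E : Finset Q} (hr : r ∉ E) (f g : Q → QV) :
    bk (insert r E) f g = s1 r (ket (f r) (g r)) * bk E f g := by
  unfold bk s1
  rw [po_mul]
  congr 1
  funext q
  by_cases h : q = r
  · subst h; simp [hr]
  · simp [h]

theorem vp_insert_not {r : Q} {E S : Finset Q} (hr : r ∉ E) (hS : S ⊆ E) :
    vp (insert r E) S = s1 r P1 * vp E S := by
  have hrS : r ∉ S := fun h => hr (hS h)
  unfold vp s1
  rw [po_mul]
  congr 1
  funext q
  by_cases h : q = r
  · subst h; simp [vf, hr, hrS]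
  · by_cases h2 : q ∈ S <;> by_cases h3 : q ∈ E <;> simp [vf, h, h2, h3]

theorem vp_insert_in {r : Q} {E S : Finset Q} (hr : r ∉ E) (hS : S ⊆ E) :
    vp (insert r E) (insert r S) = s1 r Sg * vp E S := by
  have hrS : r ∉ S := fun h => hr (hS h)
  unfold vp s1
  rw [po_mul]
  congr 1
  funext q
  by_cases h : q = r
  · subst h; simp [vf, hr, hrS]
  · by_cases h2 : q ∈ S <;> by_cases h3 : q ∈ E <;> simp [vf, h, h2, h3]

/-- The expansion of the lifting operator in excitations. -/
theorem bk_expand (a : Q → QV) (E : Finset Q) :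
    bk E a (fun _ => e1) = ∑ S ∈ E.powerset, gam a E S • vp E S := by
  induction E using Finset.induction_on with
  | empty =>
    simp only [Finset.powerset_empty, Finset.sum_singleton, gam, Finset.prod_empty, one_smul]
    rw [vp_empty]; rfl
  | insert r E hr ih =>
    rw [Finset.sum_powerset_insert hr, bk_insert hr, ket_e1_expand, s1_add, s1_smul, s1_smul, add_mul,
      ih, Finset.mul_sum, Finset.mul_sum]
    simp only [smul_mul_assoc, Finset.smul_sum, mul_smul_comm]
    have e1 : ∀ S ∈ E.powerset, gam a (insert r E) S = a r true * gam a E S := by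
      intro S hS
      have hrS : r ∉ S := fun h => hr (Finset.mem_powerset.mp hS h)
      unfold gam
      rw [Finset.prod_insert hr]
      simp [hrS]
    have e2 : ∀ S ∈ E.powerset, gam a (insert r E) (insert r S) = a r false * gam a E S := by
      intro S hS
      unfold gam
      rw [Finset.prod_insert hr]
      simp only [Finset.mem_insert, true_or, if_true]
      congr 1
      refine Finset.prod_congr rfl fun q hq => ?_
      have : q ≠ r := fun h => hr (h ▸ hq)
      simp [this]
    congr 1
    · refine Finset.sum_congr rfl fun S hS => ?_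
      rw [e1 S hS, vp_insert_not hr (Finset.mem_powerset.mp hS), smul_smul, mul_comm]
    · refine Finset.sum_congr rfl fun S hS => ?_
      rw [e2 S hS, vp_insert_in hr (Finset.mem_powerset.mp hS), smul_smul, mul_comm]

/-- Action of the projector on all ones on an excitation operator. -/
theorem nn_mul_vp {E F S : Finset Q} (hE : E ⊆ F) (hS : S ⊆ F) :
    nn E * vp F S = if S ∩ E = ∅ then vp F S else 0 := by
  split_ifs with h
  · unfold nn bk vp
    rw [po_mul]
    congr 1
    funext q
    by_cases hq : q ∈ E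
    · have hqS : q ∉ S := fun h' => by
        have : q ∈ S ∩ E := Finset.mem_inter.mpr ⟨h', hq⟩
        simp [h] at this
      have hqF : q ∈ F := hE hq
      simp [hq, hqS, hqF, vf]
      exact P1_mul_P1
    · simp [hq]
  · obtain ⟨q, hq⟩ := Finset.nonempty_iff_ne_empty.mpr h
    rw [Finset.mem_inter] at hq
    unfold nn bk vp
    rw [po_mul]
    refine po_zero_of (q := q) ?_
    simp only [hq.1, hq.2, if_true, vf]
    exact P1_mul_Sg

/-- A linear combination of excitations applied to a vector. -/
noncomputable def vecC (F : Finset Q) (c : Finset Q → ℂ) (y : HS Q) : HS Q :=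
  ∑ S ∈ F.powerset, c S • vp F S y

theorem nn_vecC {E F : Finset Q} (hE : E ⊆ F) (c : Finset Q → ℂ) (y : HS Q) :
    nn E (vecC F c y) = vecC F (fun S => if S ∩ E = ∅ then c S else 0) y := by
  unfold vecC
  rw [map_sum]
  refine Finset.sum_congr rfl fun S hS => ?_
  rw [map_smul]
  have h := congrArg (fun T : Op Q => T y) (nn_mul_vp hE (Finset.mem_powerset.mp hS))
  simp only [ContinuousLinearMap.mul_apply] at h
  rw [h]
  by_cases hS' : S ∩ E = ∅ <;> simp [hS']

theorem co_vecC {E F : Finset Q} (hE : E ⊆ F) (c : Finset Q → ℂ) (y : HS Q) :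
    (1 - nn E) (vecC F c y) = vecC F (fun S => if S ∩ E = ∅ then 0 else c S) y := by
  have h := nn_vecC hE c y
  have e : (1 - nn E) (vecC F c y) = vecC F c y - nn E (vecC F c y) := rfl
  rw [e, h]
  unfold vecC
  rw [← Finset.sum_sub_distrib]
  refine Finset.sum_congr rfl fun S _ => ?_
  by_cases hS' : S ∩ E = ∅ <;> simp [hS']

/-- The star operation attached to a set of flag qubits. -/
noncomputable def starOp (E : Finset Q) (Y : Op Q) : Op Q :=
  nn E * Y * (1 - nn E) + (1 - nn E) * Y * nn E

/-- Iterated star operations. -/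
noncomputable def stars (FN : Q → Finset Q) : List Q → Op Q → Op Q
  | [], Y => Y
  | i :: B, Y => starOp (FN i) (stars FN B Y)

theorem inner_starOp (E : Finset Q) (Y : Op Q) (u v : HS Q) :
    ⟪u, starOp E Y v⟫_ℂ = ⟪nn E u, Y ((1 - nn E) v)⟫_ℂ + ⟪(1 - nn E) u, Y (nn E v)⟫_ℂ := by
  unfold starOp
  rw [add_apply, inner_add_right]
  congr 1
  · have : (nn E * Y * (1 - nn E)) v = star (nn E) (Y ((1 - nn E) v)) := by
      rw [star_nn]; rfl
    rw [this, inner_star_right']
  · have h : star (1 - nn E) = (1 - nn E : Op Q) := by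
      rw [star_sub, star_one, star_nn]
    have : ((1 - nn E) * Y * nn E) v = star (1 - nn E) (Y (nn E v)) := by
      rw [h]; rfl
    rw [this, inner_star_right']

/-- Predicate of the left vector at a leaf. -/
def Pred (FN : Q → Finset Q) (B1 B2 : Finset Q) (S : Finset Q) : Prop :=
  (∀ i ∈ B1, (S ∩ FN i).Nonempty) ∧ (∀ i ∈ B2, S ∩ FN i = ∅)

open Classical in
/-- Restriction of the excitation coefficients to a leaf. -/
noncomputable def cf (a : Q → QV) (F : Finset Q) (FN : Q → Finset Q) (B1 B2 : Finset Q)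
    (S : Finset Q) : ℂ := if Pred FN B1 B2 S then gam a F S else 0

theorem pred_insert2 (FN : Q → Finset Q) (B1 B2 : Finset Q) (i : Q) (S : Finset Q) :
    Pred FN B1 (insert i B2) S ↔ S ∩ FN i = ∅ ∧ Pred FN B1 B2 S := by
  simp only [Pred, Finset.mem_insert, forall_eq_or_imp]
  tauto

theorem pred_insert1 (FN : Q → Finset Q) (B1 B2 : Finset Q) (i : Q) (S : Finset Q) :
    Pred FN (insert i B1) B2 S ↔ (S ∩ FN i).Nonempty ∧ Pred FN B1 B2 S := by
  simp only [Pred, Finset.mem_insert, forall_eq_or_imp]
  tauto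

theorem cf_pos {a : Q → QV} {F : Finset Q} {FN : Q → Finset Q} {B1 B2 S : Finset Q}
    (h : Pred FN B1 B2 S) : cf a F FN B1 B2 S = gam a F S := if_pos h

theorem cf_neg {a : Q → QV} {F : Finset Q} {FN : Q → Finset Q} {B1 B2 S : Finset Q}
    (h : ¬ Pred FN B1 B2 S) : cf a F FN B1 B2 S = 0 := if_neg h

theorem cf_restrict_avoid (a : Q → QV) (F : Finset Q) (FN : Q → Finset Q) (B1 B2 : Finset Q) (i : Q) :
    (fun S => if S ∩ FN i = ∅ then cf a F FN B1 B2 S else 0) = cf a F FN B1 (insert i B2) := by
  funext S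
  by_cases hP : Pred FN B1 (insert i B2) S
  · have h := (pred_insert2 FN B1 B2 i S).mp hP
    rw [cf_pos hP, if_pos h.1, cf_pos h.2]
  · rw [cf_neg hP]
    by_cases h : S ∩ FN i = ∅
    · have : ¬ Pred FN B1 B2 S := fun h' => hP ((pred_insert2 FN B1 B2 i S).mpr ⟨h, h'⟩)
      rw [if_pos h, cf_neg this]
    · rw [if_neg h]

theorem cf_restrict_meet (a : Q → QV) (F : Finset Q) (FN : Q → Finset Q) (B1 B2 : Finset Q) (i : Q) :
    (fun S => if S ∩ FN i = ∅ then 0 else cf a F FN B1 B2 S) = cf a F FN (insert i B1) B2 := by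
  funext S
  by_cases hP : Pred FN (insert i B1) B2 S
  · have h := (pred_insert1 FN B1 B2 i S).mp hP
    rw [cf_pos hP, if_neg (Finset.nonempty_iff_ne_empty.mp h.1), cf_pos h.2]
  · rw [cf_neg hP]
    by_cases h : S ∩ FN i = ∅
    · rw [if_pos h]
    · have : ¬ Pred FN B1 B2 S := fun h' =>
        hP ((pred_insert1 FN B1 B2 i S).mpr ⟨Finset.nonempty_iff_ne_empty.mpr h, h'⟩)
      rw [if_neg h, cf_neg this]

/-- Descent from the star operations to the leaves. -/
theorem stars_descent (a : Q → QV) (F : Finset Q) (FN : Q → Finset Q) (X : Op Q) (y1 y2 : HS Q) (E : ℝ)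
    (B0 : Finset Q) (hF : ∀ i ∈ B0, FN i ⊆ F)
    (hleaf : ∀ B1 B2 : Finset Q, Disjoint B1 B2 → B1 ∪ B2 = B0 →
      ‖⟪vecC F (cf a F FN B1 B2) y1, X (vecC F (cf a F FN B2 B1) y2)⟫_ℂ‖ ≤ E) :
    ∀ (bl : List Q) (B1 B2 : Finset Q), bl.Nodup → Disjoint B1 B2 → (∀ i ∈ bl, i ∉ B1 ∧ i ∉ B2) →
      B1 ∪ B2 ∪ bl.toFinset = B0 →
    ‖⟪vecC F (cf a F FN B1 B2) y1, stars FN bl X (vecC F (cf a F FN B2 B1) y2)⟫_ℂ‖
      ≤ 2 ^ bl.length * E := by
  intro bl
  induction bl with
  | nil =>
    intro B1 B2 _ hd _ hB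
    simpa [stars] using hleaf B1 B2 hd (by simpa using hB)
  | cons i bl ih =>
    intro B1 B2 hnd hd hout hB
    have hi : i ∉ B1 ∧ i ∉ B2 := hout i (by simp)
    have hnd' : bl.Nodup := (List.nodup_cons.mp hnd).2
    have hibl : i ∉ bl := (List.nodup_cons.mp hnd).1
    have hiB0 : i ∈ B0 := by
      rw [← hB]; simp
    have hFi : FN i ⊆ F := hF i hiB0
    have hB1 : B1 ∪ insert i B2 ∪ bl.toFinset = B0 := by
      rw [← hB]; ext q; simp only [Finset.mem_union, Finset.mem_insert, List.mem_toFinset, List.mem_cons]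
      tauto
    have hB2 : insert i B1 ∪ B2 ∪ bl.toFinset = B0 := by
      rw [← hB]; ext q; simp only [Finset.mem_union, Finset.mem_insert, List.mem_toFinset, List.mem_cons]
      tauto
    have hout' : ∀ j ∈ bl, j ∉ B1 ∧ j ∉ insert i B2 := by
      intro j hj
      have h1 := hout j (by simp [hj])
      have hne : j ≠ i := fun h => hibl (h ▸ hj)
      exact ⟨h1.1, by simp [hne, h1.2]⟩
    have hout'' : ∀ j ∈ bl, j ∉ insert i B1 ∧ j ∉ B2 := by
      intro j hj
      have h1 := hout j (by simp [hj])
      have hne : j ≠ i := fun h => hibl (h ▸ hj)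
      exact ⟨by simp [hne, h1.1], h1.2⟩
    have hd1 : Disjoint B1 (insert i B2) := by
      rw [Finset.disjoint_insert_right]; exact ⟨hi.1, hd⟩
    have hd2 : Disjoint (insert i B1) B2 := by
      rw [Finset.disjoint_insert_left]; exact ⟨hi.2, hd⟩
    have h1 := ih B1 (insert i B2) hnd' hd1 hout' hB1
    have h2 := ih (insert i B1) B2 hnd' hd2 hout'' hB2
    simp only [stars]
    rw [inner_starOp, nn_vecC hFi, co_vecC hFi, nn_vecC hFi, co_vecC hFi, cf_restrict_avoid,
      cf_restrict_meet, cf_restrict_avoid, cf_restrict_meet]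
    calc _ ≤ _ := norm_add_le _ _
      _ ≤ 2 ^ bl.length * E + 2 ^ bl.length * E := add_le_add h1 h2
      _ = 2 ^ (i :: bl).length * E := by simp [pow_succ]; ring

end Vale.Agent.Lib.P368
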