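import Mathlib
import Vale.Agent.Lib.P368.Expand

/-!
# Masses of excitation patterns
-/

set_option linter.unusedSectionVars false
set_option linter.unusedVariables false
set_option linter.unusedSimpArgs false
set_option linter.deprecated false
set_option linter.unusedTactic false
set_option linter.unreachableTactic false

namespace Vale.Agent.Lib.P368

open scoped BigOperators InnerProductSpace ComplexConjugate

variable {Q : Type} [Fintype Q] [DecidableEq Q]

/-- Probability weight of an excitation pattern. -/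
noncomputable def mu (a : Q → QV) (E S : Finset Q) : ℝ :=
  ∏ q ∈ E, if q ∈ S then ‖a q false‖ ^ 2 else ‖a q true‖ ^ 2

/-- Probability of all ones on a set of qubits. -/
noncomputable def pr (a : Q → QV) (E : Finset Q) : ℝ := ∏ q ∈ E, ‖a q true‖ ^ 2

theorem mu_nonneg (a : Q → QV) (E S : Finset Q) : 0 ≤ mu a E S :=
  Finset.prod_nonneg fun q _ => by split_ifs <;> positivity

theorem pr_nonneg (a : Q → QV) (E : Finset Q) : 0 ≤ pr a E :=
  Finset.prod_nonneg fun q _ => by positivity

theorem pr_le_one {a : Q → QV} (ha : ∀ q, QUnit (a q)) (E : Finset Q) : pr a E ≤ 1 :=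
  Finset.prod_le_one (fun q _ => by positivity) fun q _ => qunit_true_le (ha q)

theorem norm_gam_sq (a : Q → QV) (E S : Finset Q) : ‖gam a E S‖ ^ 2 = mu a E S := by
  unfold gam mu
  rw [norm_prod, ← Finset.prod_pow]
  refine Finset.prod_congr rfl fun q _ => ?_
  split_ifs <;> rfl

theorem sum_mu_avoid {a : Q → QV} (ha : ∀ q, QUnit (a q)) {E Z : Finset Q} (hZ : Z ⊆ E) :
    ∑ S ∈ E.powerset, (if S ∩ Z = ∅ then mu a E S else 0) = pr a Z := by
  have e1 : ∀ S ∈ E.powerset, (if S ∩ Z = ∅ then mu a E S else 0)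
      = ∏ q ∈ E, if q ∈ S then (if q ∈ Z then 0 else ‖a q false‖ ^ 2) else ‖a q true‖ ^ 2 := by
    intro S hS
    have hS' := Finset.mem_powerset.mp hS
    split_ifs with h
    · refine Finset.prod_congr rfl fun q _ => ?_
      by_cases hq : q ∈ S
      · have : q ∉ Z := fun h' => by
          have : q ∈ S ∩ Z := Finset.mem_inter.mpr ⟨hq, h'⟩
          simp [h] at this
        simp [hq, this]
      · simp [hq]
    · obtain ⟨q, hq⟩ := Finset.nonempty_iff_ne_empty.mpr h
      rw [Finset.mem_inter] at hq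
      refine (Finset.prod_eq_zero (hS' hq.1) ?_).symm
      simp [hq.1, hq.2]
  rw [Finset.sum_congr rfl e1, sum_powerset_prod_ite]
  unfold pr
  have e2 : ∀ q ∈ E, (if q ∈ Z then 0 else ‖a q false‖ ^ 2) + ‖a q true‖ ^ 2
      = if q ∈ Z then ‖a q true‖ ^ 2 else 1 := by
    intro q _
    have := qunit_sq (ha q)
    split_ifs <;> simp [this]
  rw [Finset.prod_congr rfl e2, Finset.prod_ite_mem, Finset.inter_eq_right.mpr hZ]

theorem sum_mu_all {a : Q → QV} (ha : ∀ q, QUnit (a q)) (E : Finset Q) :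
    ∑ S ∈ E.powerset, mu a E S = 1 := by
  have := sum_mu_avoid ha (Finset.empty_subset E)
  simpa [pr] using this

theorem pr_union {a : Q → QV} {C D : Finset Q} (hd : Disjoint C D) : pr a (C ∪ D) = pr a C * pr a D :=
  Finset.prod_union hd

/-- The probability that a pattern meets both of two disjoint sets. -/
theorem sum_mu_meet_meet {a : Q → QV} (ha : ∀ q, QUnit (a q)) {E C D : Finset Q} (hC : C ⊆ E)
    (hD : D ⊆ E) (hd : Disjoint C D) :
    ∑ S ∈ E.powerset, (if (S ∩ C).Nonempty ∧ (S ∩ D).Nonempty then mu a E S else 0)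
      = (1 - pr a C) * (1 - pr a D) := by
  have e : ∀ S : Finset Q, (if (S ∩ C).Nonempty ∧ (S ∩ D).Nonempty then mu a E S else 0)
      = mu a E S - (if S ∩ C = ∅ then mu a E S else 0) - (if S ∩ D = ∅ then mu a E S else 0)
        + (if S ∩ (C ∪ D) = ∅ then mu a E S else 0) := by
    intro S
    have h : S ∩ (C ∪ D) = ∅ ↔ S ∩ C = ∅ ∧ S ∩ D = ∅ := by
      rw [Finset.inter_union_distrib_left, Finset.union_eq_empty]
    by_cases h1 : S ∩ C = ∅ <;> by_cases h2 : S ∩ D = ∅
    · simp [h1, h2, h]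
    · simp [h1, h2, h]
    · simp [h1, h2, h]
    · have h1' := Finset.nonempty_iff_ne_empty.mpr h1
      have h2' := Finset.nonempty_iff_ne_empty.mpr h2
      simp [h1, h2, h, h1', h2']
  simp only [e]
  rw [Finset.sum_add_distrib, Finset.sum_sub_distrib, Finset.sum_sub_distrib, sum_mu_all ha,
    sum_mu_avoid ha hC, sum_mu_avoid ha hD, sum_mu_avoid ha (Finset.union_subset hC hD), pr_union hd]
  ring

/-- The mass of the patterns meeting each of a family of pairwise disjoint sets. -/
theorem sum_mu_cover {a : Q → QV} (ha : ∀ q, QUnit (a q)) {E : Finset Q} (FN : Q → Finset Q)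
    (B1 : Finset Q) : ∀ (B2 : Finset Q), (∀ i ∈ B1 ∪ B2, FN i ⊆ E) →
      (∀ i ∈ B1 ∪ B2, ∀ k ∈ B1 ∪ B2, i ≠ k → Disjoint (FN i) (FN k)) → Disjoint B1 B2 →
      ∑ S ∈ E.powerset, (if (∀ i ∈ B1, (S ∩ FN i).Nonempty) ∧ (∀ i ∈ B2, S ∩ FN i = ∅)
          then mu a E S else 0)
        = (∏ i ∈ B1, (1 - pr a (FN i))) * ∏ i ∈ B2, pr a (FN i) := by
  induction B1 using Finset.induction_on with
  | empty =>
    intro B2 hE hdis _
    have hZ : B2.biUnion FN ⊆ E := Finset.biUnion_subset.mpr fun i hi => hE i (by simp [hi])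
    have e : ∀ S : Finset Q, (∀ i ∈ B2, S ∩ FN i = ∅) ↔ S ∩ B2.biUnion FN = ∅ := by
      intro S
      constructor
      · intro h
        apply Finset.eq_empty_of_forall_notMem
        intro q hq
        rw [Finset.mem_inter, Finset.mem_biUnion] at hq
        obtain ⟨hqS, i, hi, hqi⟩ := hq
        have : q ∈ S ∩ FN i := Finset.mem_inter.mpr ⟨hqS, hqi⟩
        rw [h i hi] at this
        simp at this
      · intro h i hi
        apply Finset.eq_empty_of_forall_notMem
        intro q hq
        rw [Finset.mem_inter] at hq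
        have : q ∈ S ∩ B2.biUnion FN := Finset.mem_inter.mpr ⟨hq.1, Finset.mem_biUnion.mpr ⟨i, hi, hq.2⟩⟩
        rw [h] at this
        simp at this
    simp only [Finset.notMem_empty, false_imp_iff, implies_true, true_and, e, Finset.prod_empty, one_mul]
    rw [sum_mu_avoid ha hZ]
    unfold pr
    rw [Finset.prod_biUnion]
    intro i hi k hk hik
    exact hdis i (by simp at hi ⊢; exact hi) k (by simp at hk ⊢; exact hk) hik
  | insert i B1 hi ih =>
    intro B2 hE hdis hd
    have hiB2 : i ∉ B2 := (Finset.disjoint_insert_left.mp hd).1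
    have hd' : Disjoint B1 B2 := (Finset.disjoint_insert_left.mp hd).2
    have hU1 : B1 ∪ B2 ⊆ insert i B1 ∪ B2 := by
      intro q hq; simp only [Finset.mem_union, Finset.mem_insert] at hq ⊢; tauto
    have hU2 : B1 ∪ insert i B2 ⊆ insert i B1 ∪ B2 := by
      intro q hq; simp only [Finset.mem_union, Finset.mem_insert] at hq ⊢; tauto
    have h1 := ih B2 (fun j hj => hE j (hU1 hj))
      (fun j hj k hk => hdis j (hU1 hj) k (hU1 hk)) hd'
    have h2 := ih (insert i B2) (fun j hj => hE j (hU2 hj))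
      (fun j hj k hk => hdis j (hU2 hj) k (hU2 hk))
      (by rw [Finset.disjoint_insert_right]; exact ⟨hi, hd'⟩)
    have e : ∀ S : Finset Q,
        (if (∀ j ∈ insert i B1, (S ∩ FN j).Nonempty) ∧ (∀ j ∈ B2, S ∩ FN j = ∅) then mu a E S else 0)
        = (if (∀ j ∈ B1, (S ∩ FN j).Nonempty) ∧ (∀ j ∈ B2, S ∩ FN j = ∅) then mu a E S else 0)
          - (if (∀ j ∈ B1, (S ∩ FN j).Nonempty) ∧ (∀ j ∈ insert i B2, S ∩ FN j = ∅)
              then mu a E S else 0) := by
      intro S
      simp only [Finset.mem_insert, forall_eq_or_imp]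
      by_cases h : S ∩ FN i = ∅
      · have h' : ¬ (S ∩ FN i).Nonempty := by rw [h]; simp
        simp [h, h']
      · have h' : (S ∩ FN i).Nonempty := Finset.nonempty_iff_ne_empty.mpr h
        simp [h, h']
    simp only [e]
    rw [Finset.sum_sub_distrib, h1, h2, Finset.prod_insert hi, Finset.prod_insert hiB2]
    ring

/-- Weight of a separated pattern. -/
theorem wt_sep (S : Finset Q) (l : List (GD Q)) : ∀ (B0 : Finset Q) (FN : Q → Finset Q),
    (∀ i ∈ B0, (S ∩ FN i).Nonempty) → (∀ i ∈ B0, FN i ⊆ sup2 l) →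
    (∀ g ∈ l, ∀ i ∈ B0, ∀ k ∈ B0, i ≠ k →
      ¬ ((S ∩ (FN i ∩ g.supp)).Nonempty ∧ (S ∩ (FN k ∩ g.supp)).Nonempty)) →
    (4 / 3 : ℝ) ^ B0.card ≤ wt l S := by
  induction l with
  | nil =>
    intro B0 FN h1 h2 _
    have : B0 = ∅ := by
      by_contra hne
      obtain ⟨i, hi⟩ := Finset.nonempty_iff_ne_empty.mpr hne
      obtain ⟨q, hq⟩ := h1 i hi
      have := h2 i hi (Finset.mem_inter.mp hq).2
      simp [sup2] at this
    subst this
    simp [wt]
  | cons g l ih =>
    intro B0 FN h1 h2 h3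
    set Bg := B0.filter fun i => (S ∩ (FN i ∩ g.supp)).Nonempty with hBg
    set B' := B0.filter fun i => ¬ (S ∩ (FN i ∩ g.supp)).Nonempty with hB'
    have hcard : Bg.card + B'.card = B0.card := Finset.card_filter_add_card_filter_not _
    have hg1 : Bg.card ≤ 1 := by
      rw [Finset.card_le_one]
      intro i hi k hk
      by_contra hne
      rw [hBg, Finset.mem_filter] at hi hk
      exact h3 g (by simp) i hi.1 k hk.1 hne ⟨hi.2, hk.2⟩
    have hFN' : ∀ i ∈ B', (S ∩ (FN i ∩ sup2 l)).Nonempty := by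
      intro i hi
      rw [hB', Finset.mem_filter] at hi
      obtain ⟨q, hq⟩ := h1 i hi.1
      rw [Finset.mem_inter] at hq
      have hq2 := h2 i hi.1 hq.2
      simp only [sup2, Finset.mem_union] at hq2
      rcases hq2 with h | h
      · exact absurd ⟨q, Finset.mem_inter.mpr ⟨hq.1, Finset.mem_inter.mpr ⟨hq.2, h⟩⟩⟩ hi.2
      · exact ⟨q, Finset.mem_inter.mpr ⟨hq.1, Finset.mem_inter.mpr ⟨hq.2, h⟩⟩⟩
    have hih := ih B' (fun i => FN i ∩ sup2 l) hFN' (fun i _ => Finset.inter_subset_right)
      (by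
        intro g' hg' i hi k hk hik hcon
        rw [hB', Finset.mem_filter] at hi hk
        refine h3 g' (by simp [hg']) i hi.1 k hk.1 hik ⟨?_, ?_⟩
        · obtain ⟨q, hq⟩ := hcon.1
          simp only [Finset.mem_inter] at hq
          exact ⟨q, by simp only [Finset.mem_inter]; tauto⟩
        · obtain ⟨q, hq⟩ := hcon.2
          simp only [Finset.mem_inter] at hq
          exact ⟨q, by simp only [Finset.mem_inter]; tauto⟩)
    simp only [wt]
    have hwpos : 0 ≤ wt l S := (wt_pos l S).le
    by_cases hne : Bg.card = 0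
    · have : B'.card = B0.card := by omega
      rw [← this]
      split_ifs
      · have h43 : (4 / 3 : ℝ) ^ B'.card ≥ 0 := by positivity
        nlinarith
      · linarith
    · have hone : Bg.card = 1 := by omega
      have hB0 : B0.card = B'.card + 1 := by omega
      obtain ⟨i, hi⟩ := Finset.card_pos.mp (by omega : 0 < Bg.card)
      rw [hBg, Finset.mem_filter] at hi
      have hnon : (S ∩ g.supp).Nonempty := by
        obtain ⟨q, hq⟩ := hi.2
        simp only [Finset.mem_inter] at hq
        exact ⟨q, Finset.mem_inter.mpr ⟨hq.1, hq.2.2⟩⟩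
      rw [if_pos hnon, hB0, pow_succ]
      have h43 : (4 / 3 : ℝ) ^ B'.card ≥ 0 := by positivity
      nlinarith

end Vale.Agent.Lib.P368
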