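import Mathlib
import Vale.Agent.Lib.P368.Mass

/-!
# The main estimate at a leaf of the side decomposition
-/

set_option linter.unusedSectionVars false
set_option linter.unusedVariables false
set_option linter.unusedSimpArgs false
set_option linter.deprecated false
set_option linter.unusedTactic false
set_option linter.unreachableTactic false

namespace Vale.Agent.Lib.P368

open scoped BigOperators InnerProductSpace ComplexConjugate

variable {Q : Type} [Fintype Q] [DecidableEq Q]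

/-- Load of a party on a gate. -/
noncomputable def lamv (a : Q → QV) (ω : Q → ℝ) (FN : Q → Finset Q) (i : Q) (g : GD Q) : ℝ :=
  ω i ^ 2 * pr a (FN i) * (1 - pr a (FN i ∩ g.supp))

/-- Collision sum of a list of gates. -/
noncomputable def Yv (l : List (GD Q)) (B0 : Finset Q) (lam : Q → GD Q → ℝ) : ℝ :=
  (l.map fun g => ∑ i ∈ B0, ∑ k ∈ B0, if i ≠ k then lam i g * lam k g else 0).sum

/-- Expansion of a matrix element between linear combinations of excitations. -/
theorem inner_vecC (F : Finset Q) (c1 c2 : Finset Q → ℂ) (X : Op Q) (y1 y2 : HS Q) :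
    ⟪vecC F c1 y1, X (vecC F c2 y2)⟫_ℂ = ∑ S1 ∈ F.powerset, ∑ S2 ∈ F.powerset,
      conj (c1 S1) * c2 S2 * ⟪y1, (star (vp F S1) * X * vp F S2) y2⟫_ℂ := by
  unfold vecC
  rw [map_sum, sum_inner]
  refine Finset.sum_congr rfl fun S1 _ => ?_
  rw [inner_sum]
  refine Finset.sum_congr rfl fun S2 _ => ?_
  rw [inner_smul_left, map_smul, inner_smul_right]
  have : ⟪y1, (star (vp F S1) * X * vp F S2) y2⟫_ℂ = ⟪vp F S1 y1, X (vp F S2 y2)⟫_ℂ := by
    have e : (star (vp F S1) * X * vp F S2) y2 = star (vp F S1) (X (vp F S2 y2)) := rfl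
    rw [e, inner_star_right']
  rw [this]
  ring

/-- Elementary bound for the collision indicator. -/
theorem list_sum_ge_one {α : Type*} (l : List α) (h : α → ℝ) (h0 : ∀ g, 0 ≤ h g) (g : α) (hg : g ∈ l)
    (h1 : 1 ≤ h g) : 1 ≤ (l.map h).sum := by
  induction l with
  | nil => simp at hg
  | cons x l ih =>
    simp only [List.map_cons, List.sum_cons]
    have hs : 0 ≤ (l.map h).sum := List.sum_nonneg (by
      intro y hy
      obtain ⟨z, _, rfl⟩ := List.mem_map.mp hy
      exact h0 z)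
    rcases List.mem_cons.mp hg with rfl | hg'
    · linarith
    · have := ih hg'
      linarith [h0 x]

theorem list_term_le_sum {α : Type*} (l : List α) (h : α → ℝ) (h0 : ∀ g, 0 ≤ h g) (g : α) (hg : g ∈ l) :
    h g ≤ (l.map h).sum := by
  induction l with
  | nil => simp at hg
  | cons x l ih =>
    simp only [List.map_cons, List.sum_cons]
    have hs : 0 ≤ (l.map h).sum := List.sum_nonneg (by
      intro y hy
      obtain ⟨z, _, rfl⟩ := List.mem_map.mp hy
      exact h0 z)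
    rcases List.mem_cons.mp hg with rfl | hg'
    · linarith
    · have := ih hg'
      linarith [h0 x]

theorem sum_list_map_comm {α β : Type*} (s : Finset β) (l : List α) (h : β → α → ℝ) :
    ∑ b ∈ s, (l.map (h b)).sum = (l.map fun a => ∑ b ∈ s, h b a).sum := by
  induction l with
  | nil => simp
  | cons x l ih =>
    simp only [List.map_cons, List.sum_cons, Finset.sum_add_distrib, ih]

/-- Product of numbers in the unit interval is at most the product of two of them. -/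
theorem prod_le_two {α : Type*} [DecidableEq α] (s : Finset α) (x : α → ℝ) (h0 : ∀ i ∈ s, 0 ≤ x i)
    (h1 : ∀ i ∈ s, x i ≤ 1) {i k : α} (hi : i ∈ s) (hk : k ∈ s) (hik : i ≠ k) :
    ∏ j ∈ s, x j ≤ x i * x k := by
  rw [← Finset.mul_prod_erase s x hi, ← Finset.mul_prod_erase (s.erase i) x
    (Finset.mem_erase.mpr ⟨hik.symm, hk⟩)]
  have hrest : ∏ j ∈ (s.erase i).erase k, x j ≤ 1 :=
    Finset.prod_le_one (fun j hj => h0 j (Finset.mem_of_mem_erase (Finset.mem_of_mem_erase hj)))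
      fun j hj => h1 j (Finset.mem_of_mem_erase (Finset.mem_of_mem_erase hj))
  have hik0 : 0 ≤ x i * x k := mul_nonneg (h0 i hi) (h0 k hk)
  calc x i * (x k * ∏ j ∈ (s.erase i).erase k, x j)
      = (x i * x k) * ∏ j ∈ (s.erase i).erase k, x j := by ring
    _ ≤ (x i * x k) * 1 := mul_le_mul_of_nonneg_left hrest hik0
    _ = x i * x k := mul_one _

/-- The total mass of the covering patterns. -/
theorem cover_mass_bound {a : Q → QV} (ha : ∀ q, QUnit (a q)) (B0 : Finset Q) (FN : Q → Finset Q)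
    (hdis : ∀ i ∈ B0, ∀ k ∈ B0, i ≠ k → Disjoint (FN i) (FN k)) :
    pr a (B0.biUnion FN) * ∑ S ∈ (B0.biUnion FN).powerset,
      (if ∀ i ∈ B0, (S ∩ FN i).Nonempty then mu a (B0.biUnion FN) S else 0) ≤ (1 / 4 : ℝ) ^ B0.card := by
  have h := sum_mu_cover ha (E := B0.biUnion FN) FN B0 ∅
    (fun i hi => Finset.subset_biUnion_of_mem FN (by simpa using hi))
    (fun i hi k hk => hdis i (by simpa using hi) k (by simpa using hk)) (by simp)
  simp only [Finset.notMem_empty, false_imp_iff, implies_true, and_true, Finset.prod_empty, mul_one] at h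
  rw [h]
  have e : pr a (B0.biUnion FN) = ∏ i ∈ B0, pr a (FN i) := by
    unfold pr
    rw [Finset.prod_biUnion]
    intro i hi k hk hik
    exact hdis i hi k hk hik
  rw [e, ← Finset.prod_mul_distrib]
  calc ∏ i ∈ B0, (pr a (FN i) * (1 - pr a (FN i))) ≤ ∏ _i ∈ B0, (1 / 4 : ℝ) := by
        refine Finset.prod_le_prod (fun i _ => ?_) (fun i _ => ?_)
        · exact mul_nonneg (pr_nonneg _ _) (sub_nonneg.mpr (pr_le_one ha _))
        · nlinarith [sq_nonneg (pr a (FN i) - 1 / 2)]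
    _ = _ := by rw [Finset.prod_const]

/-- Decomposition of a pattern according to the two sides. -/
theorem gam_sides {a : Q → QV} {Lf Rf S : Finset Q} (hd : Disjoint Lf Rf) :
    ‖gam a (Lf ∪ Rf) (S ∩ Lf)‖ ^ 2 * ‖gam a (Lf ∪ Rf) (S ∩ Rf)‖ ^ 2
      = mu a (Lf ∪ Rf) S * pr a (Lf ∪ Rf) := by
  rw [norm_gam_sq, norm_gam_sq]
  unfold mu pr
  rw [Finset.prod_union hd, Finset.prod_union hd, Finset.prod_union hd, Finset.prod_union hd]
  have e1 : ∏ q ∈ Lf, (if q ∈ S ∩ Lf then ‖a q false‖ ^ 2 else ‖a q true‖ ^ 2)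
      = ∏ q ∈ Lf, (if q ∈ S then ‖a q false‖ ^ 2 else ‖a q true‖ ^ 2) :=
    Finset.prod_congr rfl fun q hq => by simp [Finset.mem_inter, hq]
  have e2 : ∏ q ∈ Rf, (if q ∈ S ∩ Lf then ‖a q false‖ ^ 2 else ‖a q true‖ ^ 2)
      = ∏ q ∈ Rf, ‖a q true‖ ^ 2 :=
    Finset.prod_congr rfl fun q hq => by
      have : q ∉ Lf := Finset.disjoint_right.mp hd hq
      simp [Finset.mem_inter, this]
  have e3 : ∏ q ∈ Lf, (if q ∈ S ∩ Rf then ‖a q false‖ ^ 2 else ‖a q true‖ ^ 2)
      = ∏ q ∈ Lf, ‖a q true‖ ^ 2 :=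
    Finset.prod_congr rfl fun q hq => by
      have : q ∉ Rf := Finset.disjoint_left.mp hd hq
      simp [Finset.mem_inter, this]
  have e4 : ∏ q ∈ Rf, (if q ∈ S ∩ Rf then ‖a q false‖ ^ 2 else ‖a q true‖ ^ 2)
      = ∏ q ∈ Rf, (if q ∈ S then ‖a q false‖ ^ 2 else ‖a q true‖ ^ 2) :=
    Finset.prod_congr rfl fun q hq => by simp [Finset.mem_inter, hq]
  rw [e1, e2, e3, e4]
  ring

/-- Rearranging the double sum over patterns on the two sides into a single sum. -/
theorem sum_sides {M : Type*} [AddCommMonoid M] {Lf Rf : Finset Q} (hd : Disjoint Lf Rf)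
    (g : Finset Q → Finset Q → M) :
    ∑ S1 ∈ Lf.powerset, ∑ S2 ∈ Rf.powerset, g S1 S2
      = ∑ S ∈ (Lf ∪ Rf).powerset, g (S ∩ Lf) (S ∩ Rf) := by
  rw [sum_powerset_union hd]
  refine Finset.sum_congr rfl fun S1 h1 => Finset.sum_congr rfl fun S2 h2 => ?_
  rw [Finset.mem_powerset] at h1 h2
  have e1 : (S1 ∪ S2) ∩ Lf = S1 := by
    ext q
    simp only [Finset.mem_inter, Finset.mem_union]
    constructor
    · rintro ⟨h | h, hq⟩
      · exact h
      · exact absurd hq (Finset.disjoint_right.mp hd (h2 h))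
    · intro h; exact ⟨Or.inl h, h1 h⟩
  have e2 : (S1 ∪ S2) ∩ Rf = S2 := by
    ext q
    simp only [Finset.mem_inter, Finset.mem_union]
    constructor
    · rintro ⟨h | h, hq⟩
      · exact absurd hq (Finset.disjoint_left.mp hd (h1 h))
      · exact h
    · intro h; exact ⟨Or.inr h, h2 h⟩
  rw [e1, e2]

/-- Numerical form of the two Cauchy-Schwarz estimates. -/
theorem cs_split {ι : Type*} [DecidableEq ι] (s : Finset ι) (A D w : ι → ℝ) (sep : ι → Prop)
    [DecidablePred sep] (W Om Mass Col : ℝ) (hW : 0 < W) (hA : ∀ i ∈ s, 0 ≤ A i) (hD : ∀ i ∈ s, 0 ≤ D i)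
    (hw1 : ∀ i ∈ s, 1 ≤ w i) (hwD : ∑ i ∈ s, w i * D i ^ 2 ≤ 1)
    (hwW : ∀ i ∈ s, sep i → A i ≠ 0 → W ≤ w i)
    (hmass : ∑ i ∈ s, A i ^ 2 ≤ Mass) (hOm0 : 0 ≤ Om) (hOm1 : Om ≤ 1)
    (hcol : Om ^ 2 * ∑ i ∈ s.filter (fun i => ¬ sep i), A i ^ 2 ≤ Col) :
    Om * ∑ i ∈ s, A i * D i ≤ Real.sqrt (Mass / W) + Real.sqrt Col := by
  have hmass0 : 0 ≤ Mass := le_trans (Finset.sum_nonneg fun i _ => sq_nonneg _) hmass
  have hwpos : ∀ i ∈ s, 0 < w i := fun i hi => lt_of_lt_of_le one_pos (hw1 i hi)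
  rw [← Finset.sum_filter_add_sum_filter_not s sep, mul_add]
  have hwDf : ∀ P : ι → Prop, ∀ [DecidablePred P], ∑ i ∈ s.filter P, w i * D i ^ 2 ≤ 1 := by
    intro P _
    refine le_trans (Finset.sum_le_sum_of_subset_of_nonneg (Finset.filter_subset _ _) ?_) hwD
    intro i hi _
    exact mul_nonneg (hwpos i hi).le (sq_nonneg _)
  refine add_le_add ?_ ?_
  · -- separated part
    have hfil : ∀ i ∈ s.filter sep, i ∈ s ∧ sep i := fun i hi => Finset.mem_filter.mp hi
    have h1 : (∑ i ∈ s.filter sep, A i * D i) ^ 2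
        ≤ (∑ i ∈ s.filter sep, A i ^ 2 / w i) * ∑ i ∈ s.filter sep, w i * D i ^ 2 := by
      refine Finset.sum_sq_le_sum_mul_sum_of_sq_eq_mul _ ?_ ?_ ?_
      · intro i hi
        have := hwpos i (hfil i hi).1
        positivity
      · intro i hi
        have := hwpos i (hfil i hi).1
        positivity
      · intro i hi
        have := hwpos i (hfil i hi).1
        field_simp
    have h2 : ∑ i ∈ s.filter sep, A i ^ 2 / w i ≤ Mass / W := by
      calc ∑ i ∈ s.filter sep, A i ^ 2 / w i ≤ ∑ i ∈ s.filter sep, A i ^ 2 / W := by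
            refine Finset.sum_le_sum fun i hi => ?_
            obtain ⟨his, hsep⟩ := hfil i hi
            by_cases hA0 : A i = 0
            · simp [hA0]
            · exact div_le_div_of_nonneg_left (sq_nonneg _) hW (hwW i his hsep hA0)
        _ = (∑ i ∈ s.filter sep, A i ^ 2) / W := by rw [Finset.sum_div]
        _ ≤ Mass / W := by
            refine div_le_div_of_nonneg_right ?_ hW.le
            refine le_trans (Finset.sum_le_sum_of_subset_of_nonneg (Finset.filter_subset _ _) ?_) hmass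
            intro i _ _
            exact sq_nonneg _
    have h3 : 0 ≤ Mass / W := by positivity
    have h4 : 0 ≤ ∑ i ∈ s.filter sep, A i ^ 2 / w i := Finset.sum_nonneg fun i hi => by
      have := hwpos i (hfil i hi).1
      positivity
    apply Real.le_sqrt_of_sq_le
    have h5 := hwDf sep
    have h6 : (∑ i ∈ s.filter sep, A i * D i) ^ 2 ≤ Mass / W := by
      calc _ ≤ _ := h1
        _ ≤ (∑ i ∈ s.filter sep, A i ^ 2 / w i) * 1 := mul_le_mul_of_nonneg_left h5 h4
        _ ≤ _ := by rw [mul_one]; exact h2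
    have h7 : 0 ≤ (∑ i ∈ s.filter sep, A i * D i) ^ 2 := sq_nonneg _
    calc (Om * ∑ i ∈ s.filter sep, A i * D i) ^ 2
        = Om ^ 2 * (∑ i ∈ s.filter sep, A i * D i) ^ 2 := by ring
      _ ≤ 1 * (∑ i ∈ s.filter sep, A i * D i) ^ 2 :=
          mul_le_mul_of_nonneg_right (by nlinarith) h7
      _ ≤ _ := by rw [one_mul]; exact h6
  · -- colliding part
    have hfil : ∀ i ∈ s.filter (fun i => ¬ sep i), i ∈ s ∧ ¬ sep i := fun i hi => Finset.mem_filter.mp hi
    have h1 : (∑ i ∈ s.filter (fun i => ¬ sep i), A i * D i) ^ 2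
        ≤ (∑ i ∈ s.filter (fun i => ¬ sep i), A i ^ 2)
          * ∑ i ∈ s.filter (fun i => ¬ sep i), D i ^ 2 :=
      Finset.sum_mul_sq_le_sq_mul_sq _ _ _
    have h2 : ∑ i ∈ s.filter (fun i => ¬ sep i), D i ^ 2 ≤ 1 := by
      refine le_trans (Finset.sum_le_sum fun i hi => ?_) (hwDf fun i => ¬ sep i)
      have := hw1 i (hfil i hi).1
      nlinarith [sq_nonneg (D i)]
    have h3 : 0 ≤ ∑ i ∈ s.filter (fun i => ¬ sep i), A i ^ 2 := Finset.sum_nonneg fun i _ => sq_nonneg _
    apply Real.le_sqrt_of_sq_le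
    calc (Om * ∑ i ∈ s.filter (fun i => ¬ sep i), A i * D i) ^ 2
        = Om ^ 2 * (∑ i ∈ s.filter (fun i => ¬ sep i), A i * D i) ^ 2 := by ring
      _ ≤ Om ^ 2 * ((∑ i ∈ s.filter (fun i => ¬ sep i), A i ^ 2) * 1) := by
          refine mul_le_mul_of_nonneg_left (h1.trans ?_) (sq_nonneg _)
          exact mul_le_mul_of_nonneg_left h2 h3
      _ ≤ Col := by rw [mul_one]; exact hcol

/-- The pattern meets the flags of party `i` inside gate `g`. -/
def Meets (FN : Q → Finset Q) (S : Finset Q) (i : Q) (g : GD Q) : Prop := (S ∩ (FN i ∩ g.supp)).Nonempty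

/-- Separated pattern: no gate is touched by two different parties. -/
def SepP (l : List (GD Q)) (B0 : Finset Q) (FN : Q → Finset Q) (S : Finset Q) : Prop :=
  ∀ g ∈ l, ∀ i ∈ B0, ∀ k ∈ B0, i ≠ k → ¬ (Meets FN S i g ∧ Meets FN S k g)

open Classical in
/-- The collision estimate. -/
theorem col_bound {a : Q → QV} (ha : ∀ q, QUnit (a q)) (l : List (GD Q)) (B0 : Finset Q)
    (FN : Q → Finset Q) (hdis : ∀ i ∈ B0, ∀ k ∈ B0, i ≠ k → Disjoint (FN i) (FN k)) (ω : Q → ℝ)
    (hω0 : ∀ i, 0 ≤ ω i) (hω1 : ∀ i, ω i ≤ 1) :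
    (∏ i ∈ B0, ω i) ^ 2 * (pr a (B0.biUnion FN) *
      ∑ S ∈ (B0.biUnion FN).powerset.filter (fun S => ¬ SepP l B0 FN S), mu a (B0.biUnion FN) S)
      ≤ Yv l B0 (lamv a ω FN) := by
  set F := B0.biUnion FN with hF
  have hFi : ∀ i ∈ B0, FN i ⊆ F := fun i hi => Finset.subset_biUnion_of_mem FN hi
  -- the indicator
  set h : Finset Q → GD Q → ℝ := fun S g => ∑ i ∈ B0, ∑ k ∈ B0,
    if i ≠ k ∧ Meets FN S i g ∧ Meets FN S k g then mu a F S else 0 with hh
  have hh0 : ∀ S g, 0 ≤ h S g := fun S g =>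
    Finset.sum_nonneg fun i _ => Finset.sum_nonneg fun k _ => by
      split_ifs
      · exact mu_nonneg _ _ _
      · exact le_rfl
  have h1 : ∑ S ∈ F.powerset.filter (fun S => ¬ SepP l B0 FN S), mu a F S
      ≤ (l.map fun g => ∑ S ∈ F.powerset, h S g).sum := by
    rw [← sum_list_map_comm]
    calc ∑ S ∈ F.powerset.filter (fun S => ¬ SepP l B0 FN S), mu a F S
        ≤ ∑ S ∈ F.powerset.filter (fun S => ¬ SepP l B0 FN S), (l.map (h S)).sum := by
          refine Finset.sum_le_sum fun S hS => ?_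
          have hns := (Finset.mem_filter.mp hS).2
          unfold SepP at hns
          push Not at hns
          obtain ⟨g, hg, i, hi, k, hk, hik, hm1, hm2⟩ := hns
          -- the entry (g,i,k) contributes mu
          have hmu := mu_nonneg a F S
          have h2 : mu a F S ≤ h S g := by
            have h3 : mu a F S ≤ ∑ k' ∈ B0, if i ≠ k' ∧ Meets FN S i g ∧ Meets FN S k' g then mu a F S else 0 := by
              have := Finset.single_le_sum (f := fun k' => if i ≠ k' ∧ Meets FN S i g ∧ Meets FN S k' g then mu a F S else 0)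
                (fun k' _ => by
                  show 0 ≤ if i ≠ k' ∧ Meets FN S i g ∧ Meets FN S k' g then mu a F S else 0
                  split_ifs
                  · exact hmu
                  · exact le_rfl) hk
              simpa [hik, hm1, hm2] using this
            refine h3.trans ?_
            exact Finset.single_le_sum (f := fun i' => ∑ k' ∈ B0, if i' ≠ k' ∧ Meets FN S i' g ∧ Meets FN S k' g then mu a F S else 0)
              (fun i' _ => Finset.sum_nonneg fun k' _ => by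
                  split_ifs
                  · exact hmu
                  · exact le_rfl) hi
          exact h2.trans (list_term_le_sum l (h S) (hh0 S) g hg)
      _ ≤ ∑ S ∈ F.powerset, (l.map (h S)).sum := by
          refine Finset.sum_le_sum_of_subset_of_nonneg (Finset.filter_subset _ _) ?_
          intro S _ _
          exact List.sum_nonneg (by
            intro y hy
            obtain ⟨z, _, rfl⟩ := List.mem_map.mp hy
            exact hh0 S z)
  -- compute the inner sum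
  have h2 : ∀ g, ∑ S ∈ F.powerset, h S g = ∑ i ∈ B0, ∑ k ∈ B0,
      if i ≠ k then (1 - pr a (FN i ∩ g.supp)) * (1 - pr a (FN k ∩ g.supp)) else 0 := by
    intro g
    simp only [hh]
    rw [Finset.sum_comm]
    refine Finset.sum_congr rfl fun i hi => ?_
    rw [Finset.sum_comm]
    refine Finset.sum_congr rfl fun k hk => ?_
    by_cases hik : i = k
    · simp [hik]
    · simp only [hik, ne_eq, not_false_eq_true, true_and, if_true, if_false]
      have hC : FN i ∩ g.supp ⊆ F := Finset.inter_subset_left.trans (hFi i hi)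
      have hD : FN k ∩ g.supp ⊆ F := Finset.inter_subset_left.trans (hFi k hk)
      have hd' : Disjoint (FN i ∩ g.supp) (FN k ∩ g.supp) :=
        Finset.disjoint_of_subset_left Finset.inter_subset_left
          (Finset.disjoint_of_subset_right Finset.inter_subset_left (hdis i hi k hk hik))
      refine (Finset.sum_congr rfl fun S _ => ?_).trans (sum_mu_meet_meet ha hC hD hd')
      have hh' : (Meets FN S i g ∧ Meets FN S k g)
          ↔ ((S ∩ (FN i ∩ g.supp)).Nonempty ∧ (S ∩ (FN k ∩ g.supp)).Nonempty) := Iff.rfl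
      by_cases h' : Meets FN S i g ∧ Meets FN S k g
      · rw [if_pos h', if_pos (hh'.mp h')]
      · rw [if_neg h', if_neg (fun h'' => h' (hh'.mpr h''))]
  have hpr : pr a F = ∏ i ∈ B0, pr a (FN i) := by
    unfold pr
    rw [hF, Finset.prod_biUnion]
    intro i hi k hk hik
    exact hdis i hi k hk hik
  set c : ℝ := (∏ i ∈ B0, ω i) ^ 2 * pr a F with hc
  have hc0 : 0 ≤ c := mul_nonneg (sq_nonneg _) (pr_nonneg _ _)
  have hc2 : c = ∏ j ∈ B0, (ω j ^ 2 * pr a (FN j)) := by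
    rw [hc, hpr, Finset.prod_mul_distrib, Finset.prod_pow]
  have hx0 : ∀ j ∈ B0, 0 ≤ ω j ^ 2 * pr a (FN j) := fun j _ =>
    mul_nonneg (sq_nonneg _) (pr_nonneg _ _)
  have hx1 : ∀ j ∈ B0, ω j ^ 2 * pr a (FN j) ≤ 1 := fun j _ => by
    have h3 : ω j ^ 2 ≤ 1 := by nlinarith [hω0 j, hω1 j]
    have h4 := pr_le_one ha (FN j)
    have h5 := pr_nonneg a (FN j)
    nlinarith [sq_nonneg (ω j)]
  rw [← mul_assoc]
  calc c * ∑ S ∈ F.powerset.filter (fun S => ¬ SepP l B0 FN S), mu a F S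
      ≤ c * (l.map fun g => ∑ S ∈ F.powerset, h S g).sum := mul_le_mul_of_nonneg_left h1 hc0
    _ ≤ Yv l B0 (lamv a ω FN) := by
      unfold Yv
      rw [← List.sum_map_mul_left]
      refine List.sum_le_sum fun g _ => ?_
      rw [h2 g, Finset.mul_sum]
      refine Finset.sum_le_sum fun i hi => ?_
      rw [Finset.mul_sum]
      refine Finset.sum_le_sum fun k hk => ?_
      by_cases hik : i = k
      · simp [hik]
      · simp only [hik, ne_eq, not_false_eq_true, if_true]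
        have h3 : c ≤ (ω i ^ 2 * pr a (FN i)) * (ω k ^ 2 * pr a (FN k)) := by
          rw [hc2]
          exact prod_le_two B0 _ hx0 hx1 hi hk hik
        have h4 : 0 ≤ 1 - pr a (FN i ∩ g.supp) := sub_nonneg.mpr (pr_le_one ha _)
        have h5 : 0 ≤ 1 - pr a (FN k ∩ g.supp) := sub_nonneg.mpr (pr_le_one ha _)
        calc c * ((1 - pr a (FN i ∩ g.supp)) * (1 - pr a (FN k ∩ g.supp)))
            ≤ ((ω i ^ 2 * pr a (FN i)) * (ω k ^ 2 * pr a (FN k)))
              * ((1 - pr a (FN i ∩ g.supp)) * (1 - pr a (FN k ∩ g.supp))) :=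
              mul_le_mul_of_nonneg_right h3 (mul_nonneg h4 h5)
          _ = lamv a ω FN i g * lamv a ω FN k g := by unfold lamv; ring

theorem cf_norm_le (a : Q → QV) (F : Finset Q) (FN : Q → Finset Q) (B1 B2 S : Finset Q) :
    ‖cf a F FN B1 B2 S‖ ≤ ‖gam a F S‖ := by
  by_cases h : Pred FN B1 B2 S
  · rw [cf_pos h]
  · rw [cf_neg h]; simp

open Classical in
/-- The estimate at a leaf of the side decomposition. -/
theorem leaf_bound (φ t : Q → QV) (hφ : ∀ q, QUnit (φ q)) (ht : ∀ q, QUnit (t q))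
    (l : List (GD Q)) (hl : GoodList l) (B0 : Finset Q) (FN : Q → Finset Q)
    (hdis : ∀ i ∈ B0, ∀ k ∈ B0, i ≠ k → Disjoint (FN i) (FN k))
    (hsub : ∀ i ∈ B0, FN i ⊆ sup2 l) (a : Q → QV) (ha : ∀ q, QUnit (a q)) (ω : Q → ℝ)
    (hω0 : ∀ i, 0 ≤ ω i) (hω1 : ∀ i, ω i ≤ 1) (y1 y2 : HS Q) (hy1 : ‖y1‖ ≤ 1) (hy2 : ‖y2‖ ≤ 1)
    (B1 B2 : Finset Q) (hd : Disjoint B1 B2) (hU : B1 ∪ B2 = B0) :
    (∏ i ∈ B0, ω i) * ‖⟪vecC (B0.biUnion FN) (cf a (B0.biUnion FN) FN B1 B2) y1,
        XX φ t l (vecC (B0.biUnion FN) (cf a (B0.biUnion FN) FN B2 B1) y2)⟫_ℂ‖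
      ≤ Real.sqrt ((1 / 4 : ℝ) ^ B0.card / (4 / 3 : ℝ) ^ B0.card) + Real.sqrt (Yv l B0 (lamv a ω FN)) := by
  set F := B0.biUnion FN with hF
  set Lf := B1.biUnion FN with hLf
  set Rf := B2.biUnion FN with hRf
  have hB1 : B1 ⊆ B0 := hU ▸ Finset.subset_union_left
  have hB2 : B2 ⊆ B0 := hU ▸ Finset.subset_union_right
  have hFU : F = Lf ∪ Rf := by
    rw [hF, hLf, hRf, ← hU, Finset.union_biUnion]
  have hdLR : Disjoint Lf Rf := by
    rw [hLf, hRf, Finset.disjoint_biUnion_left]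
    intro i hi
    rw [Finset.disjoint_biUnion_right]
    intro k hk
    refine hdis i (hB1 hi) k (hB2 hk) ?_
    rintro rfl
    exact Finset.disjoint_left.mp hd hi hk
  have hFi1 : ∀ i ∈ B1, FN i ⊆ Lf := fun i hi => Finset.subset_biUnion_of_mem FN hi
  have hFi2 : ∀ i ∈ B2, FN i ⊆ Rf := fun i hi => Finset.subset_biUnion_of_mem FN hi
  have hLs : Lf ⊆ sup2 l := Finset.biUnion_subset.mpr fun i hi => hsub i (hB1 hi)
  have hRs : Rf ⊆ sup2 l := Finset.biUnion_subset.mpr fun i hi => hsub i (hB2 hi)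
  set X := XX φ t l with hX
  set M : Finset Q → Finset Q → Op Q := fun S1 S2 => star (vp F S1) * X * vp F S2 with hM
  set c1 := cf a F FN B1 B2 with hc1
  set c2 := cf a F FN B2 B1 with hc2
  -- restriction of the patterns
  have hc1z : ∀ S ∈ F.powerset, S ∉ Lf.powerset → c1 S = 0 := by
    intro S hS hS'
    rw [Finset.mem_powerset] at hS hS'
    obtain ⟨q, hq, hq'⟩ := Finset.not_subset.mp hS'
    refine cf_neg fun hP => hq' ?_
    have hqF := hS hq
    rw [hFU, Finset.mem_union] at hqF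
    rcases hqF with h | h
    · exact h
    · obtain ⟨k, hk, hqk⟩ := Finset.mem_biUnion.mp h
      have : q ∈ S ∩ FN k := Finset.mem_inter.mpr ⟨hq, hqk⟩
      rw [hP.2 k hk] at this
      simp at this
  have hc2z : ∀ S ∈ F.powerset, S ∉ Rf.powerset → c2 S = 0 := by
    intro S hS hS'
    rw [Finset.mem_powerset] at hS hS'
    obtain ⟨q, hq, hq'⟩ := Finset.not_subset.mp hS'
    refine cf_neg fun hP => hq' ?_
    have hqF := hS hq
    rw [hFU, Finset.mem_union] at hqF
    rcases hqF with h | h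
    · obtain ⟨k, hk, hqk⟩ := Finset.mem_biUnion.mp h
      have : q ∈ S ∩ FN k := Finset.mem_inter.mpr ⟨hq, hqk⟩
      rw [hP.2 k hk] at this
      simp at this
    · exact h
  have hLP : Lf.powerset ⊆ F.powerset := Finset.powerset_mono.mpr (hFU ▸ Finset.subset_union_left)
  have hRP : Rf.powerset ⊆ F.powerset := Finset.powerset_mono.mpr (hFU ▸ Finset.subset_union_right)
  have hsum : ⟪vecC F c1 y1, X (vecC F c2 y2)⟫_ℂ = ∑ S ∈ F.powerset,
      conj (c1 (S ∩ Lf)) * c2 (S ∩ Rf) * ⟪y1, (M (S ∩ Lf) (S ∩ Rf)) y2⟫_ℂ := by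
    rw [inner_vecC]
    have e1 : ∀ S1 ∈ F.powerset, ∑ S2 ∈ F.powerset,
          conj (c1 S1) * c2 S2 * ⟪y1, (star (vp F S1) * X * vp F S2) y2⟫_ℂ
        = ∑ S2 ∈ Rf.powerset, conj (c1 S1) * c2 S2 * ⟪y1, (star (vp F S1) * X * vp F S2) y2⟫_ℂ := by
      intro S1 _
      symm
      refine Finset.sum_subset hRP fun S2 h1 h2 => ?_
      rw [hc2z S2 h1 h2]; simp
    rw [Finset.sum_congr rfl e1]
    have e2 : ∑ S1 ∈ F.powerset, ∑ S2 ∈ Rf.powerset,
          conj (c1 S1) * c2 S2 * ⟪y1, (star (vp F S1) * X * vp F S2) y2⟫_ℂ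
        = ∑ S1 ∈ Lf.powerset, ∑ S2 ∈ Rf.powerset,
          conj (c1 S1) * c2 S2 * ⟪y1, (star (vp F S1) * X * vp F S2) y2⟫_ℂ := by
      symm
      refine Finset.sum_subset hLP fun S1 h1 h2 => ?_
      rw [hc1z S1 h1 h2]; simp
    rw [e2, sum_sides hdLR, ← hFU]
  set A : Finset Q → ℝ := fun S => ‖c1 (S ∩ Lf)‖ * ‖c2 (S ∩ Rf)‖ with hA
  set D : Finset Q → ℝ := fun S => ‖(M (S ∩ Lf) (S ∩ Rf)) y2‖ with hD
  have hbound : ‖⟪vecC F c1 y1, X (vecC F c2 y2)⟫_ℂ‖ ≤ ∑ S ∈ F.powerset, A S * D S := by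
    rw [hsum]
    refine (norm_sum_le _ _).trans (Finset.sum_le_sum fun S _ => ?_)
    rw [norm_mul, norm_mul, RCLike.norm_conj]
    refine mul_le_mul_of_nonneg_left ?_ (by positivity)
    calc ‖⟪y1, (M (S ∩ Lf) (S ∩ Rf)) y2⟫_ℂ‖ ≤ ‖y1‖ * ‖(M (S ∩ Lf) (S ∩ Rf)) y2‖ := norm_inner_le_norm _ _
      _ ≤ 1 * ‖(M (S ∩ Lf) (S ∩ Rf)) y2‖ := mul_le_mul_of_nonneg_right hy1 (norm_nonneg _)
      _ = D S := one_mul _
  -- the chain inequality
  have hchain : ∑ S ∈ F.powerset, wt l S * D S ^ 2 ≤ 1 := by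
    have h := chain_ineq φ t hφ ht l hl Lf Rf hdLR hLs hRs y2
    rw [sum_sides hdLR (fun S1 S2 => wt l (S1 ∪ S2) *
      ‖(star (vp (Lf ∪ Rf) S1) * XX φ t l * vp (Lf ∪ Rf) S2) y2‖ ^ 2), ← hFU] at h
    have h2 : ‖y2‖ ^ 2 ≤ 1 := by
      have := norm_nonneg y2
      nlinarith
    refine le_trans (le_of_eq ?_) (h.trans h2)
    refine Finset.sum_congr rfl fun S hS => ?_
    have e : (S ∩ Lf) ∪ (S ∩ Rf) = S := by
      rw [← Finset.inter_union_distrib_left, ← hFU]
      exact Finset.inter_eq_left.mpr (Finset.mem_powerset.mp hS)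
    rw [e]
  -- squares of the coefficients
  have hAsq : ∀ S ∈ F.powerset, A S ^ 2 ≤ mu a F S * pr a F := by
    intro S _
    have h1 := cf_norm_le a F FN B1 B2 (S ∩ Lf)
    have h2 := cf_norm_le a F FN B2 B1 (S ∩ Rf)
    have h3 := gam_sides (a := a) (S := S) hdLR
    rw [← hFU] at h3
    rw [← h3]
    simp only [hA, mul_pow]
    exact mul_le_mul (pow_le_pow_left₀ (norm_nonneg _) h1 2) (pow_le_pow_left₀ (norm_nonneg _) h2 2)
      (by positivity) (by positivity)
  have hcover : ∀ S, A S ≠ 0 → ∀ i ∈ B0, (S ∩ FN i).Nonempty := by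
    intro S hS i hi
    have hS1 : c1 (S ∩ Lf) ≠ 0 := fun h => hS (by simp [hA, h])
    have hS2 : c2 (S ∩ Rf) ≠ 0 := fun h => hS (by simp [hA, h])
    have hP1 : Pred FN B1 B2 (S ∩ Lf) := by
      by_contra h
      exact hS1 (cf_neg h)
    have hP2 : Pred FN B2 B1 (S ∩ Rf) := by
      by_contra h
      exact hS2 (cf_neg h)
    rw [← hU, Finset.mem_union] at hi
    rcases hi with hi | hi
    · obtain ⟨q, hq⟩ := hP1.1 i hi
      simp only [Finset.mem_inter] at hq
      exact ⟨q, Finset.mem_inter.mpr ⟨hq.1.1, hq.2⟩⟩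
    · obtain ⟨q, hq⟩ := hP2.1 i hi
      simp only [Finset.mem_inter] at hq
      exact ⟨q, Finset.mem_inter.mpr ⟨hq.1.1, hq.2⟩⟩
  have hmass : ∑ S ∈ F.powerset, A S ^ 2 ≤ (1 / 4 : ℝ) ^ B0.card := by
    refine le_trans ?_ (cover_mass_bound ha B0 FN hdis)
    rw [Finset.mul_sum]
    refine Finset.sum_le_sum fun S hS => ?_
    by_cases hcov : ∀ i ∈ B0, (S ∩ FN i).Nonempty
    · rw [if_pos hcov, mul_comm]
      exact hAsq S hS
    · rw [if_neg hcov, mul_zero]
      have : A S = 0 := by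
        by_contra h
        exact hcov (hcover S h)
      simp [this]
  have hmain := cs_split F.powerset A D (wt l) (SepP l B0 FN) ((4 / 3 : ℝ) ^ B0.card) (∏ i ∈ B0, ω i)
    ((1 / 4 : ℝ) ^ B0.card) (Yv l B0 (lamv a ω FN)) (by positivity)
    (fun S _ => by positivity) (fun S _ => norm_nonneg _) (fun S _ => wt_one_le l S) hchain
    (fun S _ hsep hA0 => wt_sep S l B0 FN (hcover S hA0) hsub
      (fun g hg i hi k hk hik => hsep g hg i hi k hk hik)) hmass
    (Finset.prod_nonneg fun i _ => hω0 i)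
    (Finset.prod_le_one (fun i _ => hω0 i) (fun i _ => hω1 i))
    (by
      refine le_trans ?_ (col_bound ha l B0 FN hdis ω hω0 hω1)
      refine mul_le_mul_of_nonneg_left ?_ (sq_nonneg _)
      rw [Finset.mul_sum]
      refine Finset.sum_le_sum fun S hS => ?_
      rw [mul_comm]
      exact hAsq S (Finset.mem_filter.mp hS).1)
  refine le_trans ?_ hmain
  exact mul_le_mul_of_nonneg_left hbound (Finset.prod_nonneg fun i _ => hω0 i)

end Vale.Agent.Lib.P368
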