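import Mathlib
import Vale.Agent.Lib.P368.Leaf

/-!
# The main lemma: matrix elements of the iterated star operations
-/

set_option linter.unusedSectionVars false
set_option linter.unusedVariables false
set_option linter.unusedSimpArgs false
set_option linter.deprecated false
set_option linter.unusedTactic false
set_option linter.unreachableTactic false

namespace Vale.Agent.Lib.P368

open scoped BigOperators InnerProductSpace ComplexConjugate

variable {Q : Type} [Fintype Q] [DecidableEq Q]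

theorem good_decomp {F : Finset Q} {a : Q → QV} {ξ : HS Q} (hg : bk F a a ξ = ξ) :
    bk F a (fun _ => e1) (bk F (fun _ => e1) a ξ) = ξ := by
  have h : bk F a (fun _ => e1) * bk F (fun _ => e1) a = bk F a a := by
    rw [bk_mul_bk]
    simp
  have := congrArg (fun T : Op Q => T ξ) h
  simp only [ContinuousLinearMap.mul_apply] at this
  rw [this, hg]

theorem good_norm {F : Finset Q} {a : Q → QV} {ξ : HS Q} (hg : bk F a a ξ = ξ) :
    ‖bk F (fun _ => e1) a ξ‖ = ‖ξ‖ := by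
  have h1 : ⟪bk F (fun _ => e1) a ξ, bk F (fun _ => e1) a ξ⟫_ℂ = ⟪ξ, ξ⟫_ℂ := by
    rw [← inner_star_right', star_bk]
    congr 1
    exact good_decomp hg
  rw [inner_self_cx, inner_self_cx] at h1
  have h2 : ‖bk F (fun _ => e1) a ξ‖ ^ 2 = ‖ξ‖ ^ 2 := by exact_mod_cast h1
  exact (sq_eq_sq₀ (norm_nonneg _) (norm_nonneg _)).mp h2

/-- The main lemma. -/
theorem main_lemma (φ t : Q → QV) (hφ : ∀ q, QUnit (φ q)) (ht : ∀ q, QUnit (t q))
    (l : List (GD Q)) (hl : GoodList l) (B0 : Finset Q) (FN : Q → Finset Q)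
    (hdis : ∀ i ∈ B0, ∀ k ∈ B0, i ≠ k → Disjoint (FN i) (FN k))
    (hsub : ∀ i ∈ B0, FN i ⊆ sup2 l) (a : Q → QV) (ha : ∀ q, QUnit (a q)) (ω : Q → ℝ)
    (hω0 : ∀ i, 0 ≤ ω i) (hω1 : ∀ i, ω i ≤ 1) (ξ1 ξ2 : HS Q) (h1 : ‖ξ1‖ ≤ 1) (h2 : ‖ξ2‖ ≤ 1)
    (hg1 : bk (B0.biUnion FN) a a ξ1 = ξ1) (hg2 : bk (B0.biUnion FN) a a ξ2 = ξ2)
    (bl : List Q) (hbl : bl.Nodup) (hblB : bl.toFinset = B0) :
    (∏ i ∈ B0, ω i) * ‖⟪ξ1, stars FN bl (XX φ t l) ξ2⟫_ℂ‖
      ≤ (7 / 8 : ℝ) ^ B0.card + 2 ^ B0.card * Real.sqrt (Yv l B0 (lamv a ω FN)) := by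
  set F := B0.biUnion FN with hF
  set y1 := bk F (fun _ => e1) a ξ1 with hy1
  set y2 := bk F (fun _ => e1) a ξ2 with hy2
  have hy1n : ‖y1‖ ≤ 1 := by rw [hy1, good_norm hg1]; exact h1
  have hy2n : ‖y2‖ ≤ 1 := by rw [hy2, good_norm hg2]; exact h2
  have hcfall : ∀ S, cf a F FN ∅ ∅ S = gam a F S := fun S => cf_pos (by simp [Pred])
  have e1' : ξ1 = vecC F (cf a F FN ∅ ∅) y1 := by
    conv_lhs => rw [← good_decomp hg1, bk_expand]
    unfold vecC
    rw [ContinuousLinearMap.sum_apply]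
    exact Finset.sum_congr rfl fun S _ => by rw [hcfall]; rfl
  have e2' : ξ2 = vecC F (cf a F FN ∅ ∅) y2 := by
    conv_lhs => rw [← good_decomp hg2, bk_expand]
    unfold vecC
    rw [ContinuousLinearMap.sum_apply]
    exact Finset.sum_congr rfl fun S _ => by rw [hcfall]; rfl
  have hOm0 : 0 ≤ ∏ i ∈ B0, ω i := Finset.prod_nonneg fun i _ => hω0 i
  have hlen : bl.length = B0.card := by
    rw [← hblB, List.toFinset_card_of_nodup hbl]
  set E0 := Real.sqrt ((1 / 4 : ℝ) ^ B0.card / (4 / 3 : ℝ) ^ B0.card)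
    + Real.sqrt (Yv l B0 (lamv a ω FN)) with hE0
  have hE0nn : 0 ≤ E0 := by positivity
  have hsq : Real.sqrt ((1 / 4 : ℝ) ^ B0.card / (4 / 3 : ℝ) ^ B0.card) ≤ (7 / 16 : ℝ) ^ B0.card := by
    rw [Real.sqrt_le_left (by positivity), ← div_pow, ← pow_mul, mul_comm, pow_mul]
    exact pow_le_pow_left₀ (by norm_num) (by norm_num) _
  by_cases hOm : ∏ i ∈ B0, ω i = 0
  · rw [hOm, zero_mul]
    positivity
  have hOmpos : 0 < ∏ i ∈ B0, ω i := lt_of_le_of_ne hOm0 (Ne.symm hOm)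
  have hdesc := stars_descent a F FN (XX φ t l) y1 y2 (E0 / ∏ i ∈ B0, ω i) B0
    (fun i hi => Finset.subset_biUnion_of_mem FN hi)
    (fun B1 B2 hd hU => by
      rw [le_div_iff₀ hOmpos, mul_comm]
      exact leaf_bound φ t hφ ht l hl B0 FN hdis hsub a ha ω hω0 hω1 y1 y2 hy1n hy2n B1 B2 hd hU)
    bl ∅ ∅ hbl (by simp) (by simp) (by simpa using hblB)
  rw [← e1', ← e2'] at hdesc
  calc (∏ i ∈ B0, ω i) * ‖⟪ξ1, stars FN bl (XX φ t l) ξ2⟫_ℂ‖
      ≤ (∏ i ∈ B0, ω i) * (2 ^ bl.length * (E0 / ∏ i ∈ B0, ω i)) :=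
        mul_le_mul_of_nonneg_left hdesc hOm0
    _ = 2 ^ B0.card * E0 := by rw [hlen]; field_simp
    _ ≤ 2 ^ B0.card * ((7 / 16 : ℝ) ^ B0.card + Real.sqrt (Yv l B0 (lamv a ω FN))) := by
        refine mul_le_mul_of_nonneg_left ?_ (by positivity)
        rw [hE0]
        linarith
    _ = (7 / 8 : ℝ) ^ B0.card + 2 ^ B0.card * Real.sqrt (Yv l B0 (lamv a ω FN)) := by
        rw [mul_add, ← mul_pow]
        norm_num

end Vale.Agent.Lib.P368
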