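import Mathlib
import Vale.Agent.Lib.P368.MainLemma

/-!
# Product states, signed averages and the star lemma
-/

set_option linter.unusedSectionVars false
set_option linter.unusedVariables false
set_option linter.unusedSimpArgs false
set_option linter.deprecated false
set_option linter.unusedTactic false
set_option linter.unreachableTactic false

namespace Vale.Agent.Lib.P368

open scoped BigOperators InnerProductSpace ComplexConjugate

variable {Q : Type} [Fintype Q] [DecidableEq Q]

/-! ### Vectors that are product on a set of qubits -/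

theorem bk_pv_self {E : Finset Q} {a : Q → QV} (ha : ∀ q, QUnit (a q)) : bk E a a (pv a) = pv a := by
  rw [bk_apply_pv]
  have : (fun q => if q ∈ E then a q else a q) = a := by
    funext q; split_ifs <;> rfl
  rw [this, Finset.prod_eq_one (fun q _ => ha q), one_smul]

theorem good_of_Loc {E : Finset Q} {a : Q → QV} (ha : ∀ q, QUnit (a q)) {Z : Op Q} (hZ : Z ∈ Loc Eᶜ) :
    bk E a a (Z (pv a)) = Z (pv a) := by
  have hc : Commute (bk E a a) Z :=
    Loc_commute disjoint_compl_right (bk_mem_Loc subset_rfl _ _) hZ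
  have := congrArg (fun T : Op Q => T (pv a)) hc.eq
  simp only [ContinuousLinearMap.mul_apply] at this
  rw [this, bk_pv_self ha]

/-- Factorisation of the expectation in a vector that is product on `E`. -/
theorem factor_exp {E : Finset Q} {a : Q → QV} (ha : ∀ q, QUnit (a q)) {A M : Op Q} (hA : A ∈ Loc E)
    (hM : M ∈ Loc Eᶜ) {ξ : HS Q} (hξ : bk E a a ξ = ξ) :
    ⟪ξ, A (M ξ)⟫_ℂ = ⟪pv a, A (pv a)⟫_ℂ * ⟪ξ, M ξ⟫_ℂ := by
  set P := bk E a a with hP
  have hPs : star P = P := star_bk _ _ _
  have hc : Commute P M :=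
    Loc_commute disjoint_compl_right (bk_mem_Loc subset_rfl _ _) hM
  have hRO := RO_Loc ha hA
  rw [← hP] at hRO
  calc ⟪ξ, A (M ξ)⟫_ℂ = ⟪P ξ, A (M (P ξ))⟫_ℂ := by rw [hξ]
    _ = ⟪ξ, P (A (M (P ξ)))⟫_ℂ := by
        rw [← inner_star_right', hPs]
    _ = ⟪ξ, (P * A * P) (M ξ)⟫_ℂ := by
        congr 1
        have := congrArg (fun T : Op Q => T ξ) hc.eq
        simp only [ContinuousLinearMap.mul_apply] at this
        have e : (P * A * P) (M ξ) = P (A (P (M ξ))) := rfl
        rw [e, this]
    _ = ⟪pv a, A (pv a)⟫_ℂ * ⟪ξ, P (M ξ)⟫_ℂ := by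
        rw [hRO, smul_apply, inner_smul_right]
    _ = ⟪pv a, A (pv a)⟫_ℂ * ⟪ξ, M ξ⟫_ℂ := by
        congr 1
        rw [← inner_star_left', hPs, hξ]

/-- The expectation of a local operator depends only on the local factors of the product vector. -/
theorem exp_congr {E : Finset Q} {a a' : Q → QV} (ha : ∀ q, QUnit (a q)) (ha' : ∀ q, QUnit (a' q))
    (hq : ∀ q ∈ E, a q = a' q) {A : Op Q} (hA : A ∈ Loc E) :
    ⟪pv a, A (pv a)⟫_ℂ = ⟪pv a', A (pv a')⟫_ℂ := by
  induction hA using Submodule.span_induction with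
  | mem x hx =>
    obtain ⟨b, hb, rfl⟩ := hx
    rw [po_apply_pv, po_apply_pv, inner_pv, inner_pv]
    refine Finset.prod_congr rfl fun q _ => ?_
    by_cases h : q ∈ E
    · rw [hq q h]
    · rw [hb q h, qapp_one, qapp_one]
      exact (ha q).trans (ha' q).symm
  | zero => simp
  | add y z _ _ hy hz => simp only [add_apply, inner_add_right, hy, hz]
  | smul c y _ hy => simp only [smul_apply, inner_smul_right, hy]

/-- `nn` expectation in a product vector. -/
theorem nn_exp (E : Finset Q) (a : Q → QV) (ha : ∀ q, QUnit (a q)) :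
    ⟪pv a, nn E (pv a)⟫_ℂ = ((pr a E : ℝ) : ℂ) := by
  unfold nn
  rw [bk_apply_pv, inner_smul_right, inner_pv]
  unfold pr
  rw [Complex.ofReal_prod]
  have e1 : ∏ q, qdot (a q) (if q ∈ E then e1 else a q) = ∏ q ∈ E, qdot (a q) e1 := by
    rw [← Finset.prod_subset (Finset.subset_univ E)]
    · exact Finset.prod_congr rfl fun q hq => by simp [hq]
    · intro q _ hq
      simp only [hq, if_false]
      exact ha q
  rw [e1, ← Finset.prod_mul_distrib]
  refine Finset.prod_congr rfl fun q _ => ?_
  rw [qdot_e1_left, qdot_e1_right, mul_comm, Complex.conj_mul']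
  push_cast
  rfl

/-! ### Signed averages -/

/-- Iterated signed average over input qubits. -/
noncomputable def sgnAvg (u : Q → Bool → QV) : List Q → ((Q → QV) → ℂ) → (Q → QV) → ℂ
  | [], f, a => f a
  | q :: l, f, a => (1 / 2 : ℂ) * (sgnAvg u l f (Function.update a q (u q false))
      - sgnAvg u l f (Function.update a q (u q true)))

/-- The single-qubit signed difference. -/
noncomputable def sgn1 (u : Q → Bool → QV) (q : Q) (f : (Q → QV) → ℂ) : (Q → QV) → ℂ :=
  fun a => (1 / 2 : ℂ) * (f (Function.update a q (u q false)) - f (Function.update a q (u q true)))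

theorem sgnAvg_cons' (u : Q → Bool → QV) (q : Q) (l : List Q) (hq : q ∉ l) (f : (Q → QV) → ℂ)
    (a : Q → QV) : sgnAvg u (q :: l) f a = sgnAvg u l (sgn1 u q f) a := by
  induction l generalizing a with
  | nil => rfl
  | cons r l ih =>
    have hqr : q ≠ r := fun h => hq (by simp [h])
    have hql : q ∉ l := fun h => hq (by simp [h])
    simp only [sgnAvg]
    rw [← ih hql, ← ih hql]
    simp only [sgnAvg]
    rw [Function.update_comm hqr, Function.update_comm hqr, Function.update_comm hqr,
      Function.update_comm hqr]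
    ring

theorem sgnAvg_smul (u : Q → Bool → QV) (l : List Q) (c : ℂ) (f : (Q → QV) → ℂ) (a : Q → QV) :
    sgnAvg u l (fun a' => c * f a') a = c * sgnAvg u l f a := by
  induction l generalizing a with
  | nil => rfl
  | cons r l ih =>
    simp only [sgnAvg, ih]
    ring

theorem sgnAvg_add (u : Q → Bool → QV) (l : List Q) (f g : (Q → QV) → ℂ) (a : Q → QV) :
    sgnAvg u l (fun a' => f a' + g a') a = sgnAvg u l f a + sgnAvg u l g a := by
  induction l generalizing a with
  | nil => rfl
  | cons r l ih =>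
    simp only [sgnAvg, ih]
    ring

/-- Congruence on admissible assignments. -/
theorem sgnAvg_congr (u : Q → Bool → QV) (l : List Q) (Adm : (Q → QV) → Prop)
    (hAdm : ∀ a, Adm a → ∀ q ∈ l, ∀ b, Adm (Function.update a q (u q b))) {f g : (Q → QV) → ℂ}
    (hfg : ∀ a, Adm a → f a = g a) (a : Q → QV) (ha : Adm a) : sgnAvg u l f a = sgnAvg u l g a := by
  induction l generalizing a with
  | nil => exact hfg a ha
  | cons r l ih =>
    simp only [sgnAvg]
    have hAdm' : ∀ a, Adm a → ∀ q ∈ l, ∀ b, Adm (Function.update a q (u q b)) :=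
      fun a h q hq b => hAdm a h q (by simp [hq]) b
    rw [ih hAdm' _ (hAdm a ha r (by simp) false), ih hAdm' _ (hAdm a ha r (by simp) true)]

/-- Restriction: a bound for all admissible assignments persists under further averaging. -/
theorem sgnAvg_bound_cons (u : Q → Bool → QV) (q : Q) (l : List Q) (f : (Q → QV) → ℂ) (a : Q → QV)
    {B : ℝ} (h0 : ‖sgnAvg u l f (Function.update a q (u q false))‖ ≤ B)
    (h1 : ‖sgnAvg u l f (Function.update a q (u q true))‖ ≤ B) : ‖sgnAvg u (q :: l) f a‖ ≤ B := by
  simp only [sgnAvg]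
  rw [norm_mul]
  have h2 := norm_sub_le (sgnAvg u l f (Function.update a q (u q false)))
    (sgnAvg u l f (Function.update a q (u q true)))
  have h3 : ‖(1 / 2 : ℂ)‖ = 1 / 2 := by norm_num
  rw [h3]
  linarith

end Vale.Agent.Lib.P368
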