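import Mathlib
import Vale.Agent.Lib.P368.Star

/-!
# The star lemma for one party
-/

set_option linter.unusedSectionVars false
set_option linter.unusedVariables false
set_option linter.unusedSimpArgs false
set_option linter.deprecated false
set_option linter.unusedTactic false
set_option linter.unreachableTactic false

namespace Vale.Agent.Lib.P368

open scoped BigOperators InnerProductSpace ComplexConjugate

variable {Q : Type} [Fintype Q] [DecidableEq Q]

theorem gyg_algebra {R : Type*} [Ring R] [Algebra ℂ R] (N P Y : R) (c : ℂ) (hc : c * c = c)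
    (hN : N * N = N) (hNY : Commute N Y) (hNP : Commute N P) :
    (1 - (2 * c) • (N * P)) * Y * (1 - (2 * c) • (N * P))
      = Y - (2 * c) • (N * (P * Y * (1 - P) + (1 - P) * Y * P)) := by
  have e1 : N * P * Y = N * (P * Y) := by rw [mul_assoc]
  have e2 : Y * (N * P) = N * (Y * P) := by
    rw [← mul_assoc, ← hNY.eq, mul_assoc]
  have e3 : N * P * Y * (N * P) = N * (P * Y * P) := by
    calc N * P * Y * (N * P) = N * (P * (Y * (N * P))) := by simp only [mul_assoc]
      _ = N * (P * (N * (Y * P))) := by rw [e2]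
      _ = N * ((P * N) * (Y * P)) := by simp only [mul_assoc]
      _ = N * ((N * P) * (Y * P)) := by rw [hNP.eq]
      _ = (N * N) * (P * (Y * P)) := by simp only [mul_assoc]
      _ = N * (P * Y * P) := by rw [hN]; simp only [mul_assoc]
  have e3' : N * (P * Y) * (N * P) = N * (P * Y * P) := by rw [← e1]; exact e3
  have e4 : (2 * c) * (2 * c) = 2 * (2 * c) := by
    calc (2 * c) * (2 * c) = 4 * (c * c) := by ring
      _ = 2 * (2 * c) := by rw [hc]; ring
  have e5 : N * (P * Y * (1 - P) + (1 - P) * Y * P)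
      = N * (P * Y) + N * (Y * P) - (2 : ℂ) • (N * (P * Y * P)) := by
    simp only [mul_add, mul_sub, sub_mul, mul_one, one_mul, two_smul, mul_assoc]
    abel
  rw [e5]
  simp only [sub_mul, mul_sub, one_mul, mul_one, smul_mul_assoc, mul_smul_comm, smul_sub, smul_smul,
    smul_add, e1, e2, e3', e4]
  simp only [add_smul, mul_smul, two_smul, smul_add]
  abel

theorem Loc_compl_of_disjoint {E F : Finset Q} (h : Disjoint E F) {A : Op Q} (hA : A ∈ Loc E) :
    A ∈ Loc Fᶜ :=
  Loc_mono (fun q hq => Finset.mem_compl.mpr (Finset.disjoint_left.mp h hq)) hA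

theorem nn_union {E F : Finset Q} (hd : Disjoint E F) : nn (E ∪ F) = nn E * nn F := bk_union hd _ _

theorem pr_insert {a : Q → QV} {i : Q} {E : Finset Q} (hi : i ∉ E) :
    pr a (insert i E) = ‖a i true‖ ^ 2 * pr a E := Finset.prod_insert hi

theorem pr_congr {a a' : Q → QV} {E : Finset Q} (h : ∀ q ∈ E, a q = a' q) : pr a E = pr a' E :=
  Finset.prod_congr rfl fun q hq => by rw [h q hq]

theorem starOp_mem_Loc {E F : Finset Q} (hE : E ⊆ F) {Y : Op Q} (hY : Y ∈ Loc F) : starOp E Y ∈ Loc F := by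
  unfold starOp
  have hN : (nn E : Op Q) ∈ Loc F := nn_mem_Loc hE
  have hC : (1 - nn E : Op Q) ∈ Loc F := sub_mem (one_mem_Loc F) hN
  exact add_mem (mul_mem_Loc (mul_mem_Loc hN hY) hC) (mul_mem_Loc (mul_mem_Loc hC hY) hN)

/-- The star lemma. -/
theorem star_step {i : Q} {F0 FN : Finset Q} (hi0 : i ∉ F0) (hiN : i ∉ FN) (hd : Disjoint F0 FN) {c : ℂ}
    (hc : c = 0 ∨ c = 1) {Y Z : Op Q} (hY : Y ∈ Loc (insert i F0)ᶜ)
    (hZ : Z ∈ Loc (insert i (F0 ∪ FN))ᶜ) (hZu : star Z * Z = 1) {a : Q → QV} (ha : ∀ q, QUnit (a q))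
    {v0 v1 : QV} (hv0 : QUnit v0) (hv1 : QUnit v1) :
    (1 / 2 : ℂ) * (⟪gz c (insert i (F0 ∪ FN)) (fun _ => e1) (Z (pv (Function.update a i v0))),
          Y (gz c (insert i (F0 ∪ FN)) (fun _ => e1) (Z (pv (Function.update a i v0))))⟫_ℂ
        - ⟪gz c (insert i (F0 ∪ FN)) (fun _ => e1) (Z (pv (Function.update a i v1))),
          Y (gz c (insert i (F0 ∪ FN)) (fun _ => e1) (Z (pv (Function.update a i v1))))⟫_ℂ)
      = ((-c) * (((‖v0 true‖ ^ 2 - ‖v1 true‖ ^ 2) * pr a F0 : ℝ) : ℂ))
        * ⟪Z (pv a), starOp FN Y (Z (pv a))⟫_ℂ := by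
  set E := insert i F0 with hE
  have hUE : insert i (F0 ∪ FN) = E ∪ FN := by
    rw [hE, Finset.insert_union]
  have hdE : Disjoint E FN := by
    rw [hE, Finset.disjoint_insert_left]
    exact ⟨hiN, hd⟩
  rw [hUE] at hZ ⊢
  set G := gz c (E ∪ FN) (fun _ => e1) with hG
  set N : Op Q := nn E with hN
  set P : Op Q := nn FN with hP
  have hGs : star G = G := star_gz hc _ _
  have hcc : c * c = c := by rcases hc with rfl | rfl <;> simp
  have hEc : Eᶜ ⊇ FN := fun q hq => Finset.mem_compl.mpr (Finset.disjoint_right.mp hdE hq)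
  have hNL : N ∈ Loc E := nn_mem_Loc subset_rfl
  have hPL : P ∈ Loc Eᶜ := nn_mem_Loc hEc
  have hMem : starOp FN Y ∈ Loc Eᶜ := starOp_mem_Loc hEc hY
  have hGYG : G * Y * G = Y - (2 * c) • (N * starOp FN Y) := by
    have hGe : G = 1 - (2 * c) • (N * P) := by
      rw [hG, hN, hP, ← nn_union hdE]; rfl
    rw [hGe]
    exact gyg_algebra N P Y c hcc (nn_idem _) (Loc_commute disjoint_compl_right hNL hY)
      (Loc_commute hdE hNL (nn_mem_Loc subset_rfl))
  -- the two vectors
  have hstep : ∀ v : QV, QUnit v →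
      ⟪G (Z (pv (Function.update a i v))), Y (G (Z (pv (Function.update a i v))))⟫_ℂ
        = ⟪Z (pv a), Y (Z (pv a))⟫_ℂ - (2 * c) * (((‖v true‖ ^ 2 * pr a F0 : ℝ) : ℂ)
          * ⟪Z (pv a), starOp FN Y (Z (pv a))⟫_ℂ) := by
    intro v hv
    set a' := Function.update a i v with ha'
    have hua : ∀ q, QUnit (a' q) := by
      intro q
      by_cases h : q = i
      · subst h; simpa [ha'] using hv
      · simpa [ha', h] using ha q
    have hoff : ∀ q ∈ ({i} : Finset Q)ᶜ, a' q = a q := by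
      intro q hq
      have : q ≠ i := by simpa using hq
      simp [ha', this]
    have hZi : Z ∈ Loc ({i} : Finset Q)ᶜ := Loc_mono (by
      intro q hq
      simp only [Finset.mem_compl, Finset.mem_singleton]
      rintro rfl
      simp [hE, Finset.mem_compl] at hq) hZ
    have hZE : Z ∈ Loc Eᶜ := Loc_mono (by
      intro q hq
      simp only [Finset.mem_compl, Finset.mem_union] at hq ⊢
      tauto) hZ
    have hEi : Eᶜ ⊆ ({i} : Finset Q)ᶜ := by
      intro q hq
      simp only [Finset.mem_compl, Finset.mem_singleton]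
      rintro rfl
      simp [hE, Finset.mem_compl] at hq
    -- moving the value of qubit i
    have hmove : ∀ M : Op Q, M ∈ Loc Eᶜ → ⟪Z (pv a'), M (Z (pv a'))⟫_ℂ = ⟪Z (pv a), M (Z (pv a))⟫_ℂ := by
      intro M hM
      have h1 : star Z * M * Z ∈ Loc ({i} : Finset Q)ᶜ :=
        mul_mem_Loc (mul_mem_Loc (star_mem_Loc hZi) (Loc_mono hEi hM)) hZi
      have h2 := exp_congr hua ha hoff h1
      have e1 : ∀ b : Q → QV, ⟪pv b, (star Z * M * Z) (pv b)⟫_ℂ = ⟪Z (pv b), M (Z (pv b))⟫_ℂ := by
        intro b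
        have : (star Z * M * Z) (pv b) = star Z (M (Z (pv b))) := rfl
        rw [this, inner_star_right']
      rwa [e1, e1] at h2
    have hgood : bk E a' a' (Z (pv a')) = Z (pv a') := good_of_Loc hua hZE
    have hfac := factor_exp hua hNL hMem hgood
    rw [nn_exp E a' hua] at hfac
    have hpr : pr a' E = ‖v true‖ ^ 2 * pr a F0 := by
      rw [hE, pr_insert hi0]
      have h1 : a' i = v := by simp [ha']
      rw [h1]
      congr 1
      refine pr_congr fun q hq => ?_
      have : q ≠ i := fun h => hi0 (h ▸ hq)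
      simp [ha', this]
    rw [hpr] at hfac
    -- now compute
    have h1 : ⟪G (Z (pv a')), Y (G (Z (pv a')))⟫_ℂ = ⟪Z (pv a'), (G * Y * G) (Z (pv a'))⟫_ℂ := by
      have : (G * Y * G) (Z (pv a')) = star G (Y (G (Z (pv a')))) := by rw [hGs]; rfl
      rw [this, inner_star_right']
    rw [h1, hGYG, sub_apply, inner_sub_right, smul_apply, inner_smul_right, hmove Y hY]
    have h2 : (N * starOp FN Y) (Z (pv a')) = N (starOp FN Y (Z (pv a'))) := rfl
    rw [h2, hfac, hmove _ hMem]
  rw [hstep v0 hv0, hstep v1 hv1]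
  push_cast
  ring

end Vale.Agent.Lib.P368
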