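import Mathlib
import Vale.Agent.Lib.P368.StarStep

/-!
# The key theorem: alive parties with bounded collisions
-/

set_option linter.unusedSectionVars false
set_option linter.unusedVariables false
set_option linter.unusedSimpArgs false
set_option linter.deprecated false
set_option linter.unusedTactic false
set_option linter.unreachableTactic false

namespace Vale.Agent.Lib.P368

open scoped BigOperators InnerProductSpace ComplexConjugate

variable {Q : Type} [Fintype Q] [DecidableEq Q]

/-- The qubits of the party gate. -/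
def qsOf (F : Q → Finset Q) (i : Q) : Finset Q := insert i (F i)

/-- The party gate of the first layer. -/
noncomputable def Gi (F : Q → Finset Q) (c : Q → ℂ) (i : Q) : Op Q :=
  gz (c i) (qsOf F i) (fun _ => e1)

/-- Ordered product of party gates. -/
noncomputable def PG (F : Q → Finset Q) (c : Q → ℂ) (L : List Q) : Op Q := (L.map (Gi F c)).prod

/-- Ordered product of the projectors of the alive gates. -/
noncomputable def PK (Ke : Q → Op Q) (L : List Q) : Op Q := (L.map Ke).prod

/-- All qubits of a list of parties. -/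
def Erem (F : Q → Finset Q) (L : List Q) : Finset Q := L.toFinset.biUnion (qsOf F)

/-- The hypotheses of the key theorem. -/
structure KH (u : Q → Bool → QV) (F : Q → Finset Q) (c : Q → ℂ) (Ke : Q → Op Q) (Se : Q → Finset Q)
    (φ t : Q → QV) (l : List (GD Q)) (A0 : Finset Q) (a0 : Q → QV) : Prop where
  hu : ∀ q b, QUnit (u q b)
  hφ : ∀ q, QUnit (φ q)
  ht : ∀ q, QUnit (t q)
  hl : GoodList l
  ha0 : ∀ q, QUnit (a0 q)
  hc : ∀ i, c i = 0 ∨ c i = 1
  hiF : ∀ i ∈ A0, i ∉ F i
  hqs : ∀ i ∈ A0, ∀ k ∈ A0, i ≠ k → Disjoint (qsOf F i) (qsOf F k)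
  hiN : ∀ i ∈ A0, i ∉ sup2 l
  hKp : ∀ i ∈ A0, Ke i * Ke i = Ke i
  hKs : ∀ i ∈ A0, star (Ke i) = Ke i
  hKL : ∀ i ∈ A0, Ke i ∈ Loc (Se i)
  hSN : ∀ i ∈ A0, Disjoint (Se i) (sup2 l)
  hSq : ∀ i ∈ A0, ∀ k ∈ A0, i ≠ k → Disjoint (Se i) (qsOf F k)
  hSS : ∀ i ∈ A0, ∀ k ∈ A0, i ≠ k → Disjoint (Se i) (Se k)

section
variable {u : Q → Bool → QV} {F : Q → Finset Q} {c : Q → ℂ} {Ke : Q → Op Q} {Se : Q → Finset Q}
  {φ t : Q → QV} {l : List (GD Q)} {A0 : Finset Q} {a0 : Q → QV}

/-- The flags of party `i` inside gates of the list. -/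
def FNof (F : Q → Finset Q) (l : List (GD Q)) (i : Q) : Finset Q := F i ∩ sup2 l

/-- The remaining flags of party `i`. -/
def F0of (F : Q → Finset Q) (l : List (GD Q)) (i : Q) : Finset Q := F i \ sup2 l

theorem F0_union_FN (F : Q → Finset Q) (l : List (GD Q)) (i : Q) :
    F0of F l i ∪ FNof F l i = F i := by
  unfold F0of FNof
  exact Finset.sdiff_union_inter _ _

theorem F0_disj_FN (F : Q → Finset Q) (l : List (GD Q)) (i : Q) :
    Disjoint (F0of F l i) (FNof F l i) := by
  unfold F0of FNof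
  exact Finset.disjoint_sdiff_inter _ _

/-- The weight attached to a party. -/
noncomputable def om (F : Q → Finset Q) (l : List (GD Q)) (a0 : Q → QV) (i : Q) : ℝ :=
  pr a0 (F0of F l i)

/-- The collision quantity of the key theorem. -/
noncomputable def Ycol (F : Q → Finset Q) (l : List (GD Q)) (a0 : Q → QV) (A0 : Finset Q) : ℝ :=
  Yv l A0 (lamv a0 (om F l a0) (FNof F l))

/-- Admissible assignments. -/
def Adm (F : Q → Finset Q) (A0 : Finset Q) (a0 : Q → QV) (a : Q → QV) : Prop :=
  (∀ q, QUnit (a q)) ∧ ∀ i ∈ A0, ∀ q ∈ F i, a q = a0 q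

theorem Adm_update (H : KH u F c Ke Se φ t l A0 a0) {a : Q → QV} (ha : Adm F A0 a0 a) {i : Q} (hi : i ∈ A0)
    (b : Bool) : Adm F A0 a0 (Function.update a i (u i b)) := by
  constructor
  · intro q
    by_cases h : q = i
    · subst h; simpa using H.hu q b
    · simpa [h] using ha.1 q
  · intro k hk q hq
    have hne : q ≠ i := by
      rintro rfl
      by_cases hik : q = k
      · subst hik; exact H.hiF q hi hq
      · have := H.hqs q hi k hk hik
        have h2 : q ∈ qsOf F k := Finset.mem_insert_of_mem hq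
        have h3 : q ∈ qsOf F q := Finset.mem_insert_self _ _
        exact Finset.disjoint_left.mp this h3 h2
    simpa [hne] using ha.2 k hk q hq

/-- The reflection attached to an alive gate. -/
noncomputable def Fl (Ke : Q → Op Q) (i : Q) : Op Q := (2 : ℂ) • Ke i - 1

theorem Fl_sq (H : KH u F c Ke Se φ t l A0 a0) {i : Q} (hi : i ∈ A0) : Fl Ke i * Fl Ke i = 1 := by
  unfold Fl
  have h := H.hKp i hi
  simp only [sub_mul, mul_sub, mul_one, one_mul, smul_mul_assoc, mul_smul_comm, smul_smul, h]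
  simp only [two_smul]
  norm_num

theorem Fl_star (H : KH u F c Ke Se φ t l A0 a0) {i : Q} (hi : i ∈ A0) : star (Fl Ke i) = Fl Ke i := by
  unfold Fl
  simp [star_sub, star_smul, H.hKs i hi]

theorem Fl_mem (H : KH u F c Ke Se φ t l A0 a0) {i : Q} (hi : i ∈ A0) : Fl Ke i ∈ Loc (Se i) :=
  sub_mem (Submodule.smul_mem _ _ (H.hKL i hi)) (one_mem_Loc _)

theorem Ke_eq (i : Q) : Ke i = (1 / 2 : ℂ) • (1 : Op Q) + (1 / 2 : ℂ) • Fl Ke i := by
  unfold Fl
  rw [smul_sub, smul_smul]
  norm_num

theorem Gi_mem (F : Q → Finset Q) (c : Q → ℂ) (i : Q) : Gi F c i ∈ Loc (qsOf F i) :=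
  gz_mem_Loc subset_rfl _ _

theorem Gi_star (H : KH u F c Ke Se φ t l A0 a0) (i : Q) : star (Gi F c i) = Gi F c i :=
  star_gz (H.hc i) _ _

theorem Gi_sq (H : KH u F c Ke Se φ t l A0 a0) (i : Q) : Gi F c i * Gi F c i = 1 :=
  gz_mul_self (H.hc i) fun _ _ => qunit_e1

theorem PG_isometry (H : KH u F c Ke Se φ t l A0 a0) (L : List Q) :
    star (PG F c L) * PG F c L = 1 := by
  induction L with
  | nil => simp [PG]
  | cons i L ih =>
    have e : PG F c (i :: L) = Gi F c i * PG F c L := rfl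
    rw [e, star_mul, Gi_star H]
    calc star (PG F c L) * Gi F c i * (Gi F c i * PG F c L)
        = star (PG F c L) * (Gi F c i * Gi F c i) * PG F c L := by simp only [mul_assoc]
      _ = 1 := by rw [Gi_sq H, mul_one, ih]

/-- Membership of a product of local operators. -/
theorem list_prod_mem_Loc {α : Type*} {E : Finset Q} (L : List α) (f : α → Op Q)
    (h : ∀ x ∈ L, f x ∈ Loc E) : (L.map f).prod ∈ Loc E := by
  induction L with
  | nil => exact one_mem_Loc E
  | cons x L ih =>
    simp only [List.map_cons, List.prod_cons]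
    exact mul_mem_Loc (h x (by simp)) (ih fun y hy => h y (by simp [hy]))

theorem stars_mem_Loc {FN : Q → Finset Q} {E : Finset Q} (B : List Q) (hB : ∀ i ∈ B, FN i ⊆ E)
    {X : Op Q} (hX : X ∈ Loc E) : stars FN B X ∈ Loc E := by
  induction B with
  | nil => exact hX
  | cons i B ih =>
    exact starOp_mem_Loc (hB i (by simp)) (ih fun j hj => hB j (by simp [hj]))

/-- Algebra for pulling a commuting factor out of the star operation. -/
theorem starOp_comm {C S : Op Q} {E : Finset Q} (hC : Commute (nn E) C) :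
    starOp E (C * S) = C * starOp E S := by
  unfold starOp
  have hC' : Commute (1 - nn E) C := (Commute.one_left C).sub_left hC
  calc nn E * (C * S) * (1 - nn E) + (1 - nn E) * (C * S) * nn E
      = (nn E * C) * S * (1 - nn E) + ((1 - nn E) * C) * S * nn E := by simp only [mul_assoc]
    _ = (C * nn E) * S * (1 - nn E) + (C * (1 - nn E)) * S * nn E := by rw [hC.eq, hC'.eq]
    _ = _ := by simp only [mul_add, mul_assoc]

/-- The functional appearing in the recursion of the key theorem. -/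
noncomputable def fab (F : Q → Finset Q) (c : Q → ℂ) (Ke : Q → Op Q) (φ t : Q → QV) (lN : List (GD Q))
    (L B : List Q) (W Z : Op Q) (a : Q → QV) : ℂ :=
  ⟪(PG F c L * Z) (pv a), (PK Ke L * W * stars (FNof F lN) B (XX φ t lN)) ((PG F c L * Z) (pv a))⟫_ℂ

/-- The bound in the recursion of the key theorem. -/
noncomputable def OmBd (Y : ℝ) (b r : ℕ) : ℝ :=
  (7 / 8 : ℝ) ^ b * (15 / 16 : ℝ) ^ r + 2 ^ b * (3 / 2 : ℝ) ^ r * Real.sqrt Y

theorem OmBd_succ (Y : ℝ) (b r : ℕ) :
    (1 / 2 : ℝ) * OmBd Y (b + 1) r + (1 / 2 : ℝ) * OmBd Y b r = OmBd Y b (r + 1) := by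
  unfold OmBd
  simp only [pow_succ]
  ring

theorem Yv_mono {lN : List (GD Q)} {B C : Finset Q} (hBC : B ⊆ C) {lam : Q → GD Q → ℝ}
    (hlam : ∀ i g, 0 ≤ lam i g) : Yv lN B lam ≤ Yv lN C lam := by
  unfold Yv
  refine List.sum_le_sum fun g _ => ?_
  have hin : ∀ i k, 0 ≤ if i ≠ k then lam i g * lam k g else 0 := fun i k => by
    split_ifs
    · exact mul_nonneg (hlam i g) (hlam k g)
    · exact le_rfl
  calc ∑ i ∈ B, ∑ k ∈ B, (if i ≠ k then lam i g * lam k g else 0)
      ≤ ∑ i ∈ B, ∑ k ∈ C, (if i ≠ k then lam i g * lam k g else 0) :=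
        Finset.sum_le_sum fun i _ =>
          Finset.sum_le_sum_of_subset_of_nonneg hBC fun k _ _ => hin i k
    _ ≤ ∑ i ∈ C, ∑ k ∈ C, (if i ≠ k then lam i g * lam k g else 0) :=
        Finset.sum_le_sum_of_subset_of_nonneg hBC fun i _ _ =>
          Finset.sum_nonneg fun k _ => hin i k

theorem lamv_nonneg (H : KH u F c Ke Se φ t l A0 a0) (i : Q) (g : GD Q) :
    0 ≤ lamv a0 (om F l a0) (FNof F l) i g :=
  mul_nonneg (mul_nonneg (sq_nonneg _) (pr_nonneg _ _)) (sub_nonneg.mpr (pr_le_one H.ha0 _))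

theorem iso_norm {Z : Op Q} (hZ : star Z * Z = 1) (v : HS Q) : ‖Z v‖ = ‖v‖ := by
  have h1 : ⟪Z v, Z v⟫_ℂ = ⟪v, v⟫_ℂ := by
    rw [← inner_star_right']
    have : star Z (Z v) = v := by
      have := congrArg (fun T : Op Q => T v) hZ
      simpa using this
    rw [this]
  rw [inner_self_cx, inner_self_cx] at h1
  have h2 : ‖Z v‖ ^ 2 = ‖v‖ ^ 2 := by exact_mod_cast h1
  exact (sq_eq_sq₀ (norm_nonneg _) (norm_nonneg _)).mp h2

theorem bk_congr {E : Finset Q} {f f' g g' : Q → QV} (h1 : ∀ q ∈ E, f q = f' q)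
    (h2 : ∀ q ∈ E, g q = g' q) : bk E f g = bk E f' g' := by
  unfold bk
  congr 1
  funext q
  by_cases h : q ∈ E
  · simp [h, h1 q h, h2 q h]
  · simp [h]

theorem Erem_subset {L L' : List Q} (h : ∀ j ∈ L, j ∈ L') : Erem F L ⊆ Erem F L' := by
  unfold Erem
  intro q hq
  obtain ⟨j, hj, hq'⟩ := Finset.mem_biUnion.mp hq
  exact Finset.mem_biUnion.mpr ⟨j, by simpa using h j (by simpa using hj), hq'⟩

theorem qs_subset_Erem {L : List Q} {j : Q} (hj : j ∈ L) : qsOf F j ⊆ Erem F L := by
  unfold Erem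
  exact Finset.subset_biUnion_of_mem (qsOf F) (by simpa using hj)

theorem disjoint_Erem {E : Finset Q} {L : List Q} (h : ∀ j ∈ L, Disjoint E (qsOf F j)) :
    Disjoint E (Erem F L) := by
  unfold Erem
  rw [Finset.disjoint_biUnion_right]
  intro j hj
  exact h j (by simpa using hj)

/-- The base case of the recursion of the key theorem. -/
theorem key_base (H : KH u F c Ke Se φ t l A0 a0) (B : List Q) (W Z : Op Q) (hnd : B.Nodup)
    (hA : ∀ j ∈ B, j ∈ A0) (hW : W * star W = 1) (hZ : star Z * Z = 1)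
    (hWL : W ∈ Loc (Erem F B)ᶜ) (hZL : Z ∈ Loc (Erem F B)ᶜ) (a : Q → QV) (ha : Adm F A0 a0 a) :
    (∏ i ∈ B.toFinset, om F l a0 i) * ‖fab F c Ke φ t l [] B W Z a‖
      ≤ OmBd (Ycol F l a0 A0) B.length 0 := by
  set S := stars (FNof F l) B (XX φ t l) with hS
  set ξ2 := Z (pv a) with hξ2
  set ξ1 := star W ξ2 with hξ1
  have e : fab F c Ke φ t l [] B W Z a = ⟪ξ1, S ξ2⟫_ℂ := by
    unfold fab
    have e1 : (PG F c [] * Z) (pv a) = ξ2 := by simp [PG, hξ2]
    have e2 : PK Ke [] * W * S = W * S := by simp [PK]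
    rw [e1, e2, hξ1, inner_star_left']
    rfl
  rw [e]
  have hpv : ‖pv a‖ = 1 := pv_norm ha.1
  have hn2 : ‖ξ2‖ ≤ 1 := by rw [hξ2, iso_norm hZ, hpv]
  have hn1 : ‖ξ1‖ ≤ 1 := by
    have h : star (star W) * star W = 1 := by rw [star_star]; exact hW
    rw [hξ1, iso_norm h]; exact hn2
  set B0 := B.toFinset with hB0
  have hB0A : B0 ⊆ A0 := fun j hj => hA j (by simpa [hB0] using hj)
  have hE : B0.biUnion (FNof F l) ⊆ Erem F B := by
    intro q hq
    obtain ⟨j, hj, hq'⟩ := Finset.mem_biUnion.mp hq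
    have hjB : j ∈ B := by simpa [hB0] using hj
    refine qs_subset_Erem hjB (Finset.mem_insert_of_mem ?_)
    exact (Finset.mem_inter.mp hq').1
  have hEc : (Erem F B)ᶜ ⊆ (B0.biUnion (FNof F l))ᶜ := Finset.compl_subset_compl.mpr hE
  have hflags : ∀ q ∈ B0.biUnion (FNof F l), a0 q = a q := by
    intro q hq
    obtain ⟨j, hj, hq'⟩ := Finset.mem_biUnion.mp hq
    exact (ha.2 j (hB0A hj) q (Finset.mem_inter.mp hq').1).symm
  have hbk : bk (B0.biUnion (FNof F l)) a0 a0 = bk (B0.biUnion (FNof F l)) a a :=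
    bk_congr hflags hflags
  have hg2 : bk (B0.biUnion (FNof F l)) a0 a0 ξ2 = ξ2 := by
    rw [hbk]
    exact good_of_Loc ha.1 (Loc_mono hEc hZL)
  have hg1 : bk (B0.biUnion (FNof F l)) a0 a0 ξ1 = ξ1 := by
    have hc : Commute (bk (B0.biUnion (FNof F l)) a0 a0) (star W) :=
      Loc_commute disjoint_compl_right (bk_mem_Loc subset_rfl _ _)
        (star_mem_Loc (Loc_mono hEc hWL))
    have := congrArg (fun T : Op Q => T ξ2) hc.eq
    simp only [ContinuousLinearMap.mul_apply] at this
    rw [hξ1, this, hg2]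
  have hmain := main_lemma φ t H.hφ H.ht l H.hl B0 (FNof F l)
    (by
      intro i hi k hk hik
      have h := H.hqs i (hB0A hi) k (hB0A hk) hik
      refine Finset.disjoint_of_subset_left ?_ (Finset.disjoint_of_subset_right ?_ h)
      · exact Finset.inter_subset_left.trans (Finset.subset_insert _ _)
      · exact Finset.inter_subset_left.trans (Finset.subset_insert _ _))
    (fun i _ => Finset.inter_subset_right) a0 H.ha0 (om F l a0)
    (fun i => pr_nonneg _ _) (fun i => pr_le_one H.ha0 _) ξ1 ξ2 hn1 hn2 hg1 hg2 B hnd hB0.symm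
  have hcard : B0.card = B.length := List.toFinset_card_of_nodup hnd
  refine hmain.trans ?_
  rw [hcard]
  unfold OmBd
  have hmono : Real.sqrt (Yv l B0 (lamv a0 (om F l a0) (FNof F l))) ≤ Real.sqrt (Ycol F l a0 A0) :=
    Real.sqrt_le_sqrt (Yv_mono hB0A (lamv_nonneg H))
  have h2 : (0 : ℝ) ≤ 2 ^ B.length := by positivity
  simp only [pow_zero, mul_one]
  exact add_le_add_right (mul_le_mul_of_nonneg_left hmono h2) _

/-- The decomposition of the alive projector into a trivial and a reflection part. -/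
theorem fab_split (H : KH u F c Ke Se φ t l A0 a0) {i : Q} {L : List Q} (B : List Q) (W Z : Op Q)
    (hi : i ∈ A0) (hL : ∀ j ∈ L, j ∈ A0) (hiL : i ∉ L) (a : Q → QV) :
    fab F c Ke φ t l (i :: L) B W Z a
      = (1 / 2 : ℂ) * ⟪Gi F c i ((PG F c L * Z) (pv a)),
          (PK Ke L * W * stars (FNof F l) B (XX φ t l)) (Gi F c i ((PG F c L * Z) (pv a)))⟫_ℂ
        + (1 / 2 : ℂ) * ⟪Gi F c i ((PG F c L * Z) (pv a)),
          (PK Ke L * (Fl Ke i * W) * stars (FNof F l) B (XX φ t l))
            (Gi F c i ((PG F c L * Z) (pv a)))⟫_ℂ := by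
  unfold fab
  have e1 : (PG F c (i :: L) * Z) (pv a) = Gi F c i ((PG F c L * Z) (pv a)) := by
    have : PG F c (i :: L) = Gi F c i * PG F c L := rfl
    rw [this, mul_assoc]
    rfl
  rw [e1]
  set v := Gi F c i ((PG F c L * Z) (pv a)) with hv
  set S := stars (FNof F l) B (XX φ t l) with hS
  have hcomm : Commute (Fl Ke i) (PK Ke L) := by
    unfold PK
    refine Commute.list_prod_right _ _ ?_
    intro x hx
    obtain ⟨j, hj, rfl⟩ := List.mem_map.mp hx
    have hne : i ≠ j := fun h => hiL (h ▸ hj)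
    exact Loc_commute (H.hSS i hi j (hL j hj) hne) (Fl_mem H hi) (H.hKL j (hL j hj))
  have e2 : PK Ke (i :: L) * W * S
      = (1 / 2 : ℂ) • (PK Ke L * W * S) + (1 / 2 : ℂ) • (PK Ke L * (Fl Ke i * W) * S) := by
    have : PK Ke (i :: L) = Ke i * PK Ke L := rfl
    rw [this, Ke_eq (Ke := Ke) i]
    simp only [add_mul, smul_mul_assoc, one_mul]
    congr 2
    rw [hcomm.eq]
    simp only [mul_assoc]
  rw [e2, add_apply, inner_add_right, smul_apply, smul_apply, inner_smul_right, inner_smul_right]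

/-- The recursion of the key theorem. -/
theorem key_rec (H : KH u F c Ke Se φ t l A0 a0) (L : List Q) :
    ∀ (B : List Q) (W Z : Op Q), (L ++ B).Nodup → (∀ j ∈ L ++ B, j ∈ A0) → W * star W = 1 →
      star Z * Z = 1 → W ∈ Loc (Erem F (L ++ B))ᶜ → Z ∈ Loc (Erem F (L ++ B))ᶜ →
      ∀ a, Adm F A0 a0 a →
      (∏ i ∈ B.toFinset, om F l a0 i) * ‖sgnAvg u L (fab F c Ke φ t l L B W Z) a‖
        ≤ OmBd (Ycol F l a0 A0) B.length L.length := by
  induction L with
  | nil =>
    intro B W Z hnd hA hW hZ hWL hZL a ha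
    exact key_base H B W Z hnd hA hW hZ hWL hZL a ha
  | cons i L ih =>
    intro B W Z hnd hA hW hZ hWL hZL a ha
    have hnd0 : (i :: (L ++ B)).Nodup := hnd
    have hiLB : i ∉ L ++ B := (List.nodup_cons.mp hnd0).1
    have hnd1 : (L ++ B).Nodup := (List.nodup_cons.mp hnd0).2
    have hiL : i ∉ L := fun h => hiLB (List.mem_append_left _ h)
    have hiB : i ∉ B := fun h => hiLB (List.mem_append_right _ h)
    have hi : i ∈ A0 := hA i (by simp)
    have hLA : ∀ j ∈ L, j ∈ A0 := fun j hj => hA j (by simp [hj])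
    have hLBA : ∀ j ∈ L ++ B, j ∈ A0 := fun j hj => hA j (by simp only [List.cons_append, List.mem_cons]; exact Or.inr hj)
    have hne : ∀ j ∈ L ++ B, i ≠ j := fun j hj h => hiLB (h ▸ hj)
    set S := stars (FNof F l) B (XX φ t l) with hS
    set Zp := PG F c L * Z with hZp
    set Y1 := PK Ke L * W * S with hY1
    set Y2 := PK Ke L * (Fl Ke i * W) * S with hY2
    set g1 : (Q → QV) → ℂ := fun a' => ⟪Gi F c i (Zp (pv a')), Y1 (Gi F c i (Zp (pv a')))⟫_ℂ with hg1
    set g2 : (Q → QV) → ℂ := fun a' => ⟪Gi F c i (Zp (pv a')), Y2 (Gi F c i (Zp (pv a')))⟫_ℂ with hg2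
    have hfab : fab F c Ke φ t l (i :: L) B W Z = fun a' => (1 / 2 : ℂ) * g1 a' + (1 / 2 : ℂ) * g2 a' := by
      funext a'
      exact fab_split H B W Z hi hLA hiL a'
    have hsplit : sgnAvg u (i :: L) (fab F c Ke φ t l (i :: L) B W Z) a
        = (1 / 2 : ℂ) * sgnAvg u (i :: L) g1 a + (1 / 2 : ℂ) * sgnAvg u (i :: L) g2 a := by
      rw [hfab, sgnAvg_add, sgnAvg_smul, sgnAvg_smul]
    set Om := ∏ j ∈ B.toFinset, om F l a0 j with hOm
    have hOm0 : 0 ≤ Om := Finset.prod_nonneg fun j _ => pr_nonneg _ _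
    have hqi : Disjoint (qsOf F i) (Erem F (L ++ B)) :=
      disjoint_Erem fun j hj => H.hqs i hi j (hLBA j hj) (hne j hj)
    have hSi : Disjoint (Se i) (Erem F (L ++ B)) :=
      disjoint_Erem fun j hj => H.hSq i hi j (hLBA j hj) (hne j hj)
    have hEsub : Erem F (L ++ B) ⊆ Erem F (i :: L ++ B) :=
      Erem_subset fun j hj => by simp only [List.cons_append, List.mem_cons]; exact Or.inr hj
    have hEc : (Erem F (i :: L ++ B))ᶜ ⊆ (Erem F (L ++ B))ᶜ := Finset.compl_subset_compl.mpr hEsub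
    have hqsi : qsOf F i ⊆ Erem F (i :: L ++ B) := qs_subset_Erem (by simp)
    have hqc : (Erem F (i :: L ++ B))ᶜ ⊆ (qsOf F i)ᶜ := Finset.compl_subset_compl.mpr hqsi
    -- commutation of the party gate past the other party gates
    have hGcomm : Commute (Gi F c i) (PG F c L) := by
      unfold PG
      refine Commute.list_prod_right _ _ ?_
      intro x hx
      obtain ⟨j, hj, rfl⟩ := List.mem_map.mp hx
      have hne' : i ≠ j := fun h => hiL (h ▸ hj)
      exact Loc_commute (H.hqs i hi j (hLA j hj) hne') (Gi_mem F c i) (Gi_mem F c j)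
    -- part two: i is not in B
    have hpart2 : Om * ‖sgnAvg u (i :: L) g2 a‖ ≤ OmBd (Ycol F l a0 A0) B.length L.length := by
      have hg2' : g2 = fab F c Ke φ t l L B (Fl Ke i * W) (Gi F c i * Z) := by
        funext a'
        unfold fab
        have e : (PG F c L * (Gi F c i * Z)) (pv a') = Gi F c i (Zp (pv a')) := by
          rw [← mul_assoc, ← hGcomm.eq, mul_assoc]
          rfl
        rw [e]
      have hW2 : (Fl Ke i * W) * star (Fl Ke i * W) = 1 := by
        rw [star_mul, Fl_star H hi]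
        calc Fl Ke i * W * (star W * Fl Ke i) = Fl Ke i * (W * star W) * Fl Ke i := by
              simp only [mul_assoc]
          _ = 1 := by rw [hW, mul_one, Fl_sq H hi]
      have hZ2 : star (Gi F c i * Z) * (Gi F c i * Z) = 1 := by
        rw [star_mul, Gi_star H]
        calc star Z * Gi F c i * (Gi F c i * Z) = star Z * (Gi F c i * Gi F c i) * Z := by
              simp only [mul_assoc]
          _ = 1 := by rw [Gi_sq H, mul_one, hZ]
      have hWL2 : Fl Ke i * W ∈ Loc (Erem F (L ++ B))ᶜ :=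
        mul_mem_Loc (Loc_compl_of_disjoint hSi (Fl_mem H hi)) (Loc_mono hEc hWL)
      have hZL2 : Gi F c i * Z ∈ Loc (Erem F (L ++ B))ᶜ :=
        mul_mem_Loc (Loc_compl_of_disjoint hqi (Gi_mem F c i)) (Loc_mono hEc hZL)
      have hb : ∀ b, Om * ‖sgnAvg u L g2 (Function.update a i (u i b))‖
          ≤ OmBd (Ycol F l a0 A0) B.length L.length := by
        intro b
        rw [hg2']
        exact ih B _ _ hnd1 hLBA hW2 hZ2 hWL2 hZL2 _ (Adm_update H ha hi b)
      simp only [sgnAvg]
      rw [norm_mul]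
      have h3 : ‖(1 / 2 : ℂ)‖ = 1 / 2 := by norm_num
      rw [h3]
      have h4 := norm_sub_le (sgnAvg u L g2 (Function.update a i (u i false)))
        (sgnAvg u L g2 (Function.update a i (u i true)))
      have h5 := mul_le_mul_of_nonneg_left h4 hOm0
      have h6 := hb false
      have h7 := hb true
      nlinarith
    -- part one: i is in B
    have hpart1 : Om * ‖sgnAvg u (i :: L) g1 a‖ ≤ OmBd (Ycol F l a0 A0) (B.length + 1) L.length := by
      rw [sgnAvg_cons' u i L hiL]
      set F0 := F0of F l i with hF0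
      set FN := FNof F l i with hFN
      have hFU : F0 ∪ FN = F i := F0_union_FN F l i
      have hiF : i ∉ F i := H.hiF i hi
      have hi0 : i ∉ F0 := fun h => hiF ((Finset.mem_sdiff.mp h).1)
      have hiN : i ∉ FN := fun h => hiF (Finset.mem_inter.mp h).1
      have hE0 : insert i F0 ⊆ qsOf F i := by
        intro q hq
        rcases Finset.mem_insert.mp hq with rfl | h
        · exact Finset.mem_insert_self _ _
        · exact Finset.mem_insert_of_mem ((Finset.mem_sdiff.mp h).1)
      have hFNs : FN ⊆ qsOf F i := fun q hq =>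
        Finset.mem_insert_of_mem (Finset.mem_inter.mp hq).1
      have hE0c : (Erem F (i :: L ++ B))ᶜ ⊆ (insert i F0)ᶜ :=
        Finset.compl_subset_compl.mpr (hE0.trans hqsi)
      have hSdisj : Disjoint (sup2 l) (insert i F0) := by
        rw [Finset.disjoint_insert_right]
        refine ⟨H.hiN i hi, ?_⟩
        exact Finset.disjoint_sdiff
      have hKj : ∀ j ∈ L, Ke j ∈ Loc (insert i F0)ᶜ := by
        intro j hj
        have hne' : j ≠ i := fun h => hiL (h ▸ hj)
        have h := H.hSq j (hLA j hj) i hi hne'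
        exact Loc_compl_of_disjoint (Finset.disjoint_of_subset_right hE0 h) (H.hKL j (hLA j hj))
      have hPKL : PK Ke L ∈ Loc (insert i F0)ᶜ := list_prod_mem_Loc L Ke hKj
      have hSL : S ∈ Loc (insert i F0)ᶜ :=
        Loc_compl_of_disjoint hSdisj
          (stars_mem_Loc B (fun j _ => Finset.inter_subset_right) (XX_mem_Loc φ t l))
      have hYL : Y1 ∈ Loc (insert i F0)ᶜ :=
        mul_mem_Loc (mul_mem_Loc hPKL (Loc_mono hE0c hWL)) hSL
      have hGj : ∀ j ∈ L, Gi F c j ∈ Loc (qsOf F i)ᶜ := by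
        intro j hj
        have hne' : j ≠ i := fun h => hiL (h ▸ hj)
        exact Loc_compl_of_disjoint (H.hqs j (hLA j hj) i hi hne') (Gi_mem F c j)
      have hPGL : PG F c L ∈ Loc (qsOf F i)ᶜ := list_prod_mem_Loc L (Gi F c) hGj
      have hZpL : Zp ∈ Loc (insert i (F0 ∪ FN))ᶜ := by
        rw [hFU]
        exact mul_mem_Loc hPGL (Loc_mono hqc hZL)
      have hZpu : star Zp * Zp = 1 := by
        rw [hZp, star_mul]
        calc star Z * star (PG F c L) * (PG F c L * Z) = star Z * (star (PG F c L) * PG F c L) * Z := by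
              simp only [mul_assoc]
          _ = 1 := by rw [PG_isometry H, mul_one, hZ]
      -- commutation with the flag projector
      have hnnPK : Commute (nn FN) (PK Ke L) := by
        unfold PK
        refine Commute.list_prod_right _ _ ?_
        intro x hx
        obtain ⟨j, hj, rfl⟩ := List.mem_map.mp hx
        have hd' : Disjoint FN (Se j) :=
          Finset.disjoint_of_subset_left Finset.inter_subset_right (H.hSN j (hLA j hj)).symm
        exact Loc_commute hd' (nn_mem_Loc subset_rfl) (H.hKL j (hLA j hj))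
      have hnnW : Commute (nn FN) W := by
        have hd' : Disjoint FN (Erem F (i :: L ++ B))ᶜ :=
          Finset.disjoint_of_subset_left (hFNs.trans hqsi) disjoint_compl_right
        exact Loc_commute hd' (nn_mem_Loc subset_rfl) hWL
      set ω' : ℂ := (-c i) * (((‖u i false true‖ ^ 2 - ‖u i true true‖ ^ 2) * om F l a0 i : ℝ) : ℂ) with hω'
      have hstep : ∀ a', Adm F A0 a0 a' → sgn1 u i g1 a' = ω' * fab F c Ke φ t l L (i :: B) W Z a' := by
        intro a' ha'
        have hsnd := star_step (i := i) (F0 := F0) (FN := FN) hi0 hiN (F0_disj_FN F l i) (H.hc i)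
          (Y := Y1) (Z := Zp) hYL hZpL hZpu (a := a') ha'.1 (H.hu i false) (H.hu i true)
        have hGeq : gz (c i) (insert i (F0 ∪ FN)) (fun _ => e1) = Gi F c i := by
          rw [hFU]; rfl
        rw [hGeq] at hsnd
        have hprq : pr a' F0 = om F l a0 i :=
          pr_congr fun q hq => ha'.2 i hi q ((Finset.mem_sdiff.mp hq).1)
        rw [hprq] at hsnd
        have hst : starOp FN Y1 = PK Ke L * W * stars (FNof F l) (i :: B) (XX φ t l) := by
          rw [hY1, starOp_comm (hnnPK.mul_right hnnW)]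
          rfl
        rw [hst] at hsnd
        exact hsnd
      have hsub : sgnAvg u L (sgn1 u i g1) a = ω' * sgnAvg u L (fab F c Ke φ t l L (i :: B) W Z) a := by
        rw [sgnAvg_congr u L (Adm F A0 a0) (fun a h q hq b => Adm_update H h (hLA q hq) b) hstep a ha,
          sgnAvg_smul]
      have hnd2 : (L ++ i :: B).Nodup := List.nodup_middle.mpr hnd0
      have hA2 : ∀ j ∈ L ++ i :: B, j ∈ A0 := by
        intro j hj
        refine hA j ?_
        simp only [List.mem_append, List.mem_cons, List.cons_append] at hj ⊢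
        tauto
      have hEE : Erem F (L ++ i :: B) ⊆ Erem F (i :: L ++ B) := Erem_subset (by
        intro j hj
        simp only [List.mem_append, List.mem_cons, List.cons_append] at hj ⊢
        tauto)
      have hEE' := Finset.compl_subset_compl.mpr hEE
      have hih := ih (i :: B) W Z hnd2 hA2 hW hZ (Loc_mono hEE' hWL) (Loc_mono hEE' hZL) a ha
      have hprod : ∏ j ∈ (i :: B).toFinset, om F l a0 j = om F l a0 i * Om := by
        rw [List.toFinset_cons, Finset.prod_insert (by simpa using hiB)]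
      rw [hprod] at hih
      simp only [List.length_cons] at hih
      have hom0 : 0 ≤ om F l a0 i := pr_nonneg _ _
      have hnorm : ‖ω'‖ ≤ om F l a0 i := by
        rw [hω', norm_mul, norm_neg, Complex.norm_real, Real.norm_eq_abs, abs_mul, abs_of_nonneg hom0]
        have hc1 : ‖c i‖ ≤ 1 := by
          rcases H.hc i with h | h <;> simp [h]
        have h1 : 0 ≤ ‖u i false true‖ ^ 2 := by positivity
        have h2 : 0 ≤ ‖u i true true‖ ^ 2 := by positivity
        have h3 := qunit_true_le (H.hu i false)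
        have h4 := qunit_true_le (H.hu i true)
        have h5 : |‖u i false true‖ ^ 2 - ‖u i true true‖ ^ 2| ≤ 1 := by
          rw [abs_le]; constructor <;> linarith
        calc ‖c i‖ * (|‖u i false true‖ ^ 2 - ‖u i true true‖ ^ 2| * om F l a0 i)
            ≤ 1 * (1 * om F l a0 i) := by
              refine mul_le_mul hc1 (mul_le_mul_of_nonneg_right h5 hom0) ?_ (by norm_num)
              positivity
          _ = om F l a0 i := by ring
      rw [hsub, norm_mul]
      set T := ‖sgnAvg u L (fab F c Ke φ t l L (i :: B) W Z) a‖ with hT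
      have hT0 : 0 ≤ T := norm_nonneg _
      calc Om * (‖ω'‖ * T) ≤ Om * (om F l a0 i * T) :=
            mul_le_mul_of_nonneg_left (mul_le_mul_of_nonneg_right hnorm hT0) hOm0
        _ = om F l a0 i * Om * T := by ring
        _ ≤ _ := hih
    rw [hsplit]
    have hfin := OmBd_succ (Ycol F l a0 A0) B.length L.length
    have hb1 := norm_add_le ((1 / 2 : ℂ) * sgnAvg u (i :: L) g1 a) ((1 / 2 : ℂ) * sgnAvg u (i :: L) g2 a)
    rw [norm_mul, norm_mul] at hb1
    have h3 : ‖(1 / 2 : ℂ)‖ = 1 / 2 := by norm_num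
    rw [h3] at hb1
    have hb2 := mul_le_mul_of_nonneg_left hb1 hOm0
    simp only [List.length_cons]
    rw [← hfin]
    nlinarith

/-- The key theorem. -/
theorem key_theorem (H : KH u F c Ke Se φ t l A0 a0) (A : List Q) (hnd : A.Nodup) (hA : A.toFinset = A0)
    (Z : Op Q) (hZ : star Z * Z = 1) (hZL : Z ∈ Loc (A0.biUnion (qsOf F))ᶜ) :
    ‖sgnAvg u A (fun a => ⟪(PG F c A * Z) (pv a), (PK Ke A * XX φ t l) ((PG F c A * Z) (pv a))⟫_ℂ) a0‖
      ≤ (15 / 16 : ℝ) ^ A.length + (3 / 2 : ℝ) ^ A.length * Real.sqrt (Ycol F l a0 A0) := by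
  have hE : Erem F (A ++ []) = A0.biUnion (qsOf F) := by
    simp [Erem, hA]
  have h := key_rec H A [] 1 Z (by simpa using hnd) (by
      intro j hj
      rw [← hA]
      simpa using hj) (by simp) hZ (by
      exact one_mem_Loc _) (by rw [hE]; exact hZL) a0 ⟨H.ha0, fun _ _ _ _ => rfl⟩
  have e : fab F c Ke φ t l A [] 1 Z
      = fun a => ⟪(PG F c A * Z) (pv a), (PK Ke A * XX φ t l) ((PG F c A * Z) (pv a))⟫_ℂ := by
    funext a
    unfold fab
    simp [stars]
  rw [e] at h
  simpa [OmBd] using h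

end

end Vale.Agent.Lib.P368
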