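import Mathlib
import Vale.Agent.Lib.P368.Key

/-!
# Unsigned averages and the deficit of a product of party gates
-/

set_option linter.unusedSectionVars false
set_option linter.unusedVariables false
set_option linter.unusedSimpArgs false
set_option linter.deprecated false
set_option linter.unusedTactic false
set_option linter.unreachableTactic false

namespace Vale.Agent.Lib.P368

open scoped BigOperators InnerProductSpace ComplexConjugate

variable {Q : Type} [Fintype Q] [DecidableEq Q]

/-! ### Unsigned averages -/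

/-- Iterated unsigned average over input qubits. -/
noncomputable def uAvg (u : Q → Bool → QV) : List Q → ((Q → QV) → ℝ) → (Q → QV) → ℝ
  | [], f, a => f a
  | q :: l, f, a => (1 / 2 : ℝ) * (uAvg u l f (Function.update a q (u q false))
      + uAvg u l f (Function.update a q (u q true)))

/-- A class of assignments closed under updates along the list. -/
def Closed (u : Q → Bool → QV) (l : List Q) (C : (Q → QV) → Prop) : Prop :=
  ∀ a, C a → ∀ q ∈ l, ∀ b, C (Function.update a q (u q b))

theorem Closed.tail {u : Q → Bool → QV} {q : Q} {l : List Q} {C : (Q → QV) → Prop}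
    (h : Closed u (q :: l) C) : Closed u l C :=
  fun a ha r hr b => h a ha r (by simp [hr]) b

theorem uAvg_mono (u : Q → Bool → QV) (l : List Q) {C : (Q → QV) → Prop} (hC : Closed u l C)
    {f g : (Q → QV) → ℝ} (hfg : ∀ a, C a → f a ≤ g a) (a : Q → QV) (ha : C a) :
    uAvg u l f a ≤ uAvg u l g a := by
  induction l generalizing a with
  | nil => exact hfg a ha
  | cons r l ih =>
    simp only [uAvg]
    have h1 := ih hC.tail _ (hC a ha r (by simp) false)
    have h2 := ih hC.tail _ (hC a ha r (by simp) true)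
    linarith

theorem uAvg_congr (u : Q → Bool → QV) (l : List Q) {C : (Q → QV) → Prop} (hC : Closed u l C)
    {f g : (Q → QV) → ℝ} (hfg : ∀ a, C a → f a = g a) (a : Q → QV) (ha : C a) :
    uAvg u l f a = uAvg u l g a :=
  le_antisymm (uAvg_mono u l hC (fun a h => (hfg a h).le) a ha)
    (uAvg_mono u l hC (fun a h => (hfg a h).ge) a ha)

theorem uAvg_const (u : Q → Bool → QV) (l : List Q) (c : ℝ) (a : Q → QV) :
    uAvg u l (fun _ => c) a = c := by
  induction l generalizing a with
  | nil => rfl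
  | cons r l ih =>
    simp only [uAvg, ih]
    ring

theorem uAvg_add (u : Q → Bool → QV) (l : List Q) (f g : (Q → QV) → ℝ) (a : Q → QV) :
    uAvg u l (fun a' => f a' + g a') a = uAvg u l f a + uAvg u l g a := by
  induction l generalizing a with
  | nil => rfl
  | cons r l ih =>
    simp only [uAvg, ih]
    ring

theorem uAvg_mul_left (u : Q → Bool → QV) (l : List Q) (c : ℝ) (f : (Q → QV) → ℝ) (a : Q → QV) :
    uAvg u l (fun a' => c * f a') a = c * uAvg u l f a := by
  induction l generalizing a with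
  | nil => rfl
  | cons r l ih =>
    simp only [uAvg, ih]
    ring

theorem uAvg_nonneg (u : Q → Bool → QV) (l : List Q) {C : (Q → QV) → Prop} (hC : Closed u l C)
    {f : (Q → QV) → ℝ} (hf : ∀ a, C a → 0 ≤ f a) (a : Q → QV) (ha : C a) : 0 ≤ uAvg u l f a := by
  have := uAvg_mono u l hC (f := fun _ => 0) (g := f) hf a ha
  rwa [uAvg_const] at this

theorem uAvg_le_const (u : Q → Bool → QV) (l : List Q) {C : (Q → QV) → Prop} (hC : Closed u l C)
    {f : (Q → QV) → ℝ} {B : ℝ} (hf : ∀ a, C a → f a ≤ B) (a : Q → QV) (ha : C a) :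
    uAvg u l f a ≤ B := by
  have := uAvg_mono u l hC (f := f) (g := fun _ => B) hf a ha
  rwa [uAvg_const] at this

theorem norm_sgnAvg_le (u : Q → Bool → QV) (l : List Q) (f : (Q → QV) → ℂ) (a : Q → QV) :
    ‖sgnAvg u l f a‖ ≤ uAvg u l (fun a' => ‖f a'‖) a := by
  induction l generalizing a with
  | nil => exact le_rfl
  | cons r l ih =>
    simp only [sgnAvg, uAvg]
    rw [norm_mul]
    have h3 : ‖(1 / 2 : ℂ)‖ = 1 / 2 := by norm_num
    rw [h3]
    have h2 := norm_sub_le (sgnAvg u l f (Function.update a r (u r false)))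
      (sgnAvg u l f (Function.update a r (u r true)))
    have h4 := ih (Function.update a r (u r false))
    have h5 := ih (Function.update a r (u r true))
    linarith

theorem sgnAvg_sub (u : Q → Bool → QV) (l : List Q) (f g : (Q → QV) → ℂ) (a : Q → QV) :
    sgnAvg u l (fun a' => f a' - g a') a = sgnAvg u l f a - sgnAvg u l g a := by
  induction l generalizing a with
  | nil => rfl
  | cons r l ih =>
    simp only [sgnAvg, ih]
    ring

theorem norm_sgnAvg_sub_le (u : Q → Bool → QV) (l : List Q) (f g : (Q → QV) → ℂ) (a : Q → QV) :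
    ‖sgnAvg u l f a - sgnAvg u l g a‖ ≤ uAvg u l (fun a' => ‖f a' - g a'‖) a := by
  rw [← sgnAvg_sub]
  exact norm_sgnAvg_le u l _ a

/-- Jensen for the square root. -/
theorem uAvg_sqrt_le (u : Q → Bool → QV) (l : List Q) {C : (Q → QV) → Prop} (hC : Closed u l C)
    {f : (Q → QV) → ℝ} (hf : ∀ a, C a → 0 ≤ f a) (a : Q → QV) (ha : C a) :
    uAvg u l (fun a' => Real.sqrt (f a')) a ≤ Real.sqrt (uAvg u l f a) := by
  induction l generalizing a with
  | nil => exact le_rfl
  | cons r l ih =>
    simp only [uAvg]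
    have h1 := ih hC.tail _ (hC a ha r (by simp) false)
    have h2 := ih hC.tail _ (hC a ha r (by simp) true)
    have hx := uAvg_nonneg u l hC.tail hf _ (hC a ha r (by simp) false)
    have hy := uAvg_nonneg u l hC.tail hf _ (hC a ha r (by simp) true)
    set x := uAvg u l f (Function.update a r (u r false))
    set y := uAvg u l f (Function.update a r (u r true))
    have h3 : (1 / 2 : ℝ) * (Real.sqrt x + Real.sqrt y) ≤ Real.sqrt (1 / 2 * (x + y)) := by
      apply Real.le_sqrt_of_sq_le
      have e1 := Real.sq_sqrt hx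
      have e2 := Real.sq_sqrt hy
      nlinarith [sq_nonneg (Real.sqrt x - Real.sqrt y)]
    linarith

/-- Unit assignments are closed under updates by unit vectors. -/
theorem closed_unit {u : Q → Bool → QV} (hu : ∀ q b, QUnit (u q b)) (l : List Q) :
    Closed u l (fun a => ∀ q, QUnit (a q)) := by
  intro a ha q _ b p
  by_cases h : p = q
  · subst h; simpa using hu p b
  · simpa [h] using ha p

/-- Unit assignments that agree with a given one on a set avoiding the list. -/
theorem closed_agree {u : Q → Bool → QV} (hu : ∀ q b, QUnit (u q b)) (l : List Q) (S : Finset Q)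
    (hS : ∀ q ∈ l, q ∉ S) (a0 : Q → QV) :
    Closed u l (fun a => (∀ q, QUnit (a q)) ∧ ∀ q ∈ S, a q = a0 q) := by
  intro a ha q hq b
  refine ⟨closed_unit hu l a ha.1 q hq b, fun p hp => ?_⟩
  have : p ≠ q := fun h => hS q hq (h ▸ hp)
  simpa [this] using ha.2 p hp

/-! ### Factorisation of norms -/

theorem norm_sq_re (x : HS Q) : ‖x‖ ^ 2 = (⟪x, x⟫_ℂ).re := norm_sq_eq_re_inner' x

/-- The squared norm of `A M v` factorises when `A` and `M` act on complementary sets. -/
theorem norm_factor {S : Finset Q} {A M : Op Q} (hA : A ∈ Loc S) (hM : M ∈ Loc Sᶜ) {a : Q → QV}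
    (ha : ∀ q, QUnit (a q)) : ‖A (M (pv a))‖ ^ 2 = ‖A (pv a)‖ ^ 2 * ‖M (pv a)‖ ^ 2 := by
  have hAA : star A * A ∈ Loc S := mul_mem_Loc (star_mem_Loc hA) hA
  have hMM : star M * M ∈ Loc Sᶜ := mul_mem_Loc (star_mem_Loc hM) hM
  have hcomm : Commute (star A * A) M :=
    Loc_commute disjoint_compl_right hAA hM
  have h1 : ⟪A (M (pv a)), A (M (pv a))⟫_ℂ = ⟪pv a, (star A * A) ((star M * M) (pv a))⟫_ℂ := by
    have e : (star A * A) ((star M * M) (pv a)) = star M ((star A * A) (M (pv a))) := by
      have hc2 : Commute (star A * A) (star M) :=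
        Loc_commute disjoint_compl_right hAA (star_mem_Loc hM)
      have := congrArg (fun T : Op Q => T (M (pv a))) hc2.eq
      simpa [ContinuousLinearMap.mul_apply] using this
    rw [e, inner_star_right']
    rw [ContinuousLinearMap.mul_apply, inner_star_right']
  have h2 := factor_exp ha hAA hMM (ξ := pv a) (bk_pv_self ha)
  have h3 : ⟪pv a, (star A * A) (pv a)⟫_ℂ = ⟪A (pv a), A (pv a)⟫_ℂ := by
    rw [ContinuousLinearMap.mul_apply, inner_star_right']
  have h4 : ⟪pv a, (star M * M) (pv a)⟫_ℂ = ⟪M (pv a), M (pv a)⟫_ℂ := by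
    rw [ContinuousLinearMap.mul_apply, inner_star_right']
  rw [h2, h3, h4, inner_self_cx, inner_self_cx] at h1
  rw [inner_self_cx] at h1
  exact_mod_cast h1

/-- The squared norm depends only on the local factors. -/
theorem norm_congr {S : Finset Q} {A : Op Q} (hA : A ∈ Loc S) {a a' : Q → QV}
    (ha : ∀ q, QUnit (a q)) (ha' : ∀ q, QUnit (a' q)) (hq : ∀ q ∈ S, a q = a' q) :
    ‖A (pv a)‖ ^ 2 = ‖A (pv a')‖ ^ 2 := by
  have hAA : star A * A ∈ Loc S := mul_mem_Loc (star_mem_Loc hA) hA
  have h := exp_congr ha ha' hq hAA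
  simp only [ContinuousLinearMap.mul_apply, inner_star_right'] at h
  rw [inner_self_cx, inner_self_cx] at h
  exact_mod_cast h

theorem norm_nn_pv (E : Finset Q) {a : Q → QV} (ha : ∀ q, QUnit (a q)) :
    ‖nn E (pv a)‖ ^ 2 = pr a E := by
  have h1 := proj_norm_sq (nn_idem E) (star_nn E) (pv a)
  rw [nn_exp E a ha] at h1
  exact_mod_cast h1.symm

theorem pr_nonneg' (a : Q → QV) (E : Finset Q) : 0 ≤ pr a E := pr_nonneg a E

/-- The numeric core of the deficit. -/
theorem deficit_numeric {X Y : ℂ} {C p w : ℝ} (hC0 : 0 ≤ C) (hC1 : C ≤ 1) (hp0 : 0 ≤ p) (hp1 : p ≤ 1)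
    (hw0 : 0 ≤ w) (hw1 : w ≤ 1) (hX : ‖X‖ ^ 2 ≤ C * p) (hY : ‖Y‖ ^ 2 ≤ (1 - C) * (1 - p)) :
    (2 - w) * ‖X + Y‖ ^ 2 + w * ‖Y - X‖ ^ 2 ≤ 2 - 2 * (w * p) * (1 - p) := by
  have hre : (conj X * Y).re ≤ ‖X‖ * ‖Y‖ := by
    have := Complex.re_le_norm (conj X * Y)
    rwa [norm_mul, Complex.norm_conj] at this
  have e1 : ‖X + Y‖ ^ 2 = ‖X‖ ^ 2 + ‖Y‖ ^ 2 + 2 * (conj X * Y).re := by
    have := norm_add_sq (𝕜 := ℂ) X Y
    simp only [RCLike.inner_apply] at this
    rw [this]
    simp only [RCLike.re_to_complex]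
    have : (Y * conj X) = conj X * Y := mul_comm _ _
    rw [this]
    ring
  have e2 : ‖Y - X‖ ^ 2 = ‖X‖ ^ 2 + ‖Y‖ ^ 2 - 2 * (conj X * Y).re := by
    have := norm_sub_sq (𝕜 := ℂ) Y X
    simp only [RCLike.inner_apply] at this
    rw [this]
    simp only [RCLike.re_to_complex]
    have h9 : (X * conj Y).re = (conj X * Y).re := by
      have : X * conj Y = conj (conj X * Y) := by simp [mul_comm]
      rw [this, Complex.conj_re]
    rw [h9]
    ring
  rw [e1, e2]
  set x := ‖X‖ with hx
  set y := ‖Y‖ with hy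
  have hx0 : 0 ≤ x := norm_nonneg _
  have hy0 : 0 ≤ y := norm_nonneg _
  set r := (conj X * Y).re
  have hA : 0 ≤ C * (1 - p) := mul_nonneg hC0 (by linarith)
  have hB : 0 ≤ (1 - C) * p := mul_nonneg (by linarith) hp0
  have hxy : 2 * (x * y) ≤ C * (1 - p) + (1 - C) * p := by
    have h1 : (x * y) ^ 2 ≤ (C * (1 - p)) * ((1 - C) * p) := by
      have : (x * y) ^ 2 = x ^ 2 * y ^ 2 := by ring
      rw [this]
      calc x ^ 2 * y ^ 2 ≤ (C * p) * ((1 - C) * (1 - p)) :=
            mul_le_mul hX hY (by positivity) (mul_nonneg hC0 hp0)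
        _ = _ := by ring
    have h2 : (2 * (x * y)) ^ 2 ≤ (C * (1 - p) + (1 - C) * p) ^ 2 := by
      nlinarith [sq_nonneg (C * (1 - p) - (1 - C) * p)]
    exact abs_le_of_sq_le_sq' h2 (by positivity) |>.2
  have h3 : p * (1 - p) ≤ C * (1 - p) + (1 - C) * p := by
    nlinarith [mul_nonneg hC0 (sq_nonneg (1 - p)), mul_nonneg (by linarith : 0 ≤ 1 - C) (sq_nonneg p)]
  have h4 : (1 - w) * (2 * r) ≤ (1 - w) * (C * (1 - p) + (1 - C) * p) :=
    mul_le_mul_of_nonneg_left (by linarith) (by linarith)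
  have h5 : w * (p * (1 - p)) ≤ w * (C * (1 - p) + (1 - C) * p) :=
    mul_le_mul_of_nonneg_left h3 hw0
  nlinarith

end Vale.Agent.Lib.P368
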