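import Mathlib
import Vale.Agent.Lib.P368.Deficit

/-!
# The deficit of one party gate
-/

set_option linter.unusedSectionVars false
set_option linter.unusedVariables false
set_option linter.unusedSimpArgs false
set_option linter.deprecated false
set_option linter.unusedTactic false
set_option linter.unreachableTactic false

namespace Vale.Agent.Lib.P368

open scoped BigOperators InnerProductSpace ComplexConjugate

variable {Q : Type} [Fintype Q] [DecidableEq Q]

theorem bk_norm_le {E : Finset Q} {f : Q → QV} (hf : ∀ q, QUnit (f q)) (v : HS Q) :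
    ‖bk E f f v‖ ≤ ‖v‖ :=
  proj_norm_le (bk_idem fun q _ => hf q) (bk_star_self E f) v

/-- Splitting off a projector on a disjoint set. -/
theorem nn_split {E R : Finset Q} (hd : Disjoint E R) {B : Op Q} (hB : B ∈ Loc E) {a : Q → QV}
    (ha : ∀ q, QUnit (a q)) : ‖nn R (B (pv a))‖ ^ 2 = pr a R * ‖B (pv a)‖ ^ 2 := by
  have hR : (nn R : Op Q) ∈ Loc R := nn_mem_Loc subset_rfl
  have hB' : B ∈ Loc Rᶜ := Loc_compl_of_disjoint hd hB
  rw [norm_factor hR hB' ha, norm_nn_pv R ha]

/-- The complementary part. -/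
theorem nn_split' {E R : Finset Q} (hd : Disjoint E R) {B : Op Q} (hB : B ∈ Loc E) {a : Q → QV}
    (ha : ∀ q, QUnit (a q)) : ‖(1 - nn R) (B (pv a))‖ ^ 2 = (1 - pr a R) * ‖B (pv a)‖ ^ 2 := by
  have h1 := nn_split hd hB ha
  have h2 : ‖(B (pv a))‖ ^ 2 = ‖(nn R) (B (pv a))‖ ^ 2 + ‖(1 - nn R) (B (pv a))‖ ^ 2 := by
    have e : B (pv a) = (1 - nn R) (B (pv a)) + (nn R) (B (pv a)) := by
      simp [sub_apply]
    have h3 := proj_norm_add (star_nn R) (x := (1 - nn R) (B (pv a))) (y := (nn R) (B (pv a)))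
      (by
        have : (nn R : Op Q) ((1 - nn R) (B (pv a))) = (nn R * (1 - nn R)) (B (pv a)) := rfl
        rw [this, mul_sub, nn_idem, mul_one, sub_self]; rfl)
      (by
        have : (nn R : Op Q) ((nn R) (B (pv a))) = (nn R * nn R) (B (pv a)) := rfl
        rw [this, nn_idem])
    rw [← e] at h3
    rw [h3]; ring
  nlinarith

/-- The deficit on the flags. -/
theorem defi_flags {E F : Finset Q} (hEF : E ⊆ F) {a u' : Q → QV} (ha : ∀ q, QUnit (a q))
    (hu' : ∀ q, QUnit (u' q)) :
    ‖bk E u' u' (pv a)‖ ^ 2 + ‖bk E u' u' ((1 - (2 : ℂ) • nn F) (pv a))‖ ^ 2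
      ≤ 2 - 2 * pr a F * (1 - pr a E) := by
  classical
  set R := F \ E with hR
  have hd : Disjoint E R := Finset.disjoint_sdiff
  have hF : F = E ∪ R := (Finset.union_sdiff_of_subset hEF).symm
  set P : Op Q := nn E with hP
  set S : Op Q := nn R with hS
  set O : Op Q := bk E u' u' with hO
  set v : HS Q := pv a with hv
  have hnnF : (nn F : Op Q) = P * S := by rw [hF, nn_union hd]
  have hprF : pr a F = pr a E * pr a R := by rw [hF, pr_union hd]
  set w := pr a R with hw
  set p := pr a E with hp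
  have hw0 : 0 ≤ w := pr_nonneg _ _
  have hw1 : w ≤ 1 := pr_le_one ha _
  have hp0 : 0 ≤ p := pr_nonneg _ _
  have hp1 : p ≤ 1 := pr_le_one ha _
  set C := pr u' E with hC
  have hC0 : 0 ≤ C := pr_nonneg _ _
  have hC1 : C ≤ 1 := pr_le_one hu' _
  -- the first splitting
  have hOL : O ∈ Loc E := bk_mem_Loc subset_rfl _ _
  have hPL : P ∈ Loc E := nn_mem_Loc subset_rfl
  have hSL : S ∈ Loc R := nn_mem_Loc subset_rfl
  have hOS : Commute O S := Loc_commute hd hOL hSL
  have hPS : Commute P S := Loc_commute hd hPL hSL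
  set B2 : Op Q := O * (1 - (2 : ℂ) • P) with hB2
  have hB2L : B2 ∈ Loc E :=
    mul_mem_Loc hOL (sub_mem (one_mem_Loc E) (Submodule.smul_mem _ _ hPL))
  have hdecomp : O ((1 - (2 : ℂ) • nn F) v) = (1 - S) (O v) + S (B2 v) := by
    have hSB : S * B2 = B2 * S := (Loc_commute hd hB2L hSL).symm.eq
    have h1 : O * (1 - (2 : ℂ) • (P * S)) = (1 - S) * O + S * B2 := by
      rw [hSB, hB2]
      have hOS' : S * O = O * S := hOS.symm.eq
      simp only [mul_sub, sub_mul, one_mul, mul_one, smul_mul_assoc, mul_smul_comm, mul_assoc, hOS']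
      abel
    rw [hnnF]
    exact congrArg (fun T : Op Q => T v) h1
  have hn2 : ‖O ((1 - (2 : ℂ) • nn F) v)‖ ^ 2 = (1 - w) * ‖O v‖ ^ 2 + w * ‖B2 v‖ ^ 2 := by
    rw [hdecomp]
    have h3 := proj_norm_add (star_nn R) (x := (1 - S) (O v)) (y := S (B2 v))
      (by
        have : (nn R : Op Q) ((1 - S) (O v)) = (S * (1 - S)) (O v) := rfl
        rw [this, mul_sub, hS, nn_idem, mul_one, sub_self]; rfl)
      (by
        have : (nn R : Op Q) (S (B2 v)) = (S * S) (B2 v) := rfl
        rw [this, hS, nn_idem])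
    rw [h3, nn_split' hd hOL ha, nn_split hd hB2L ha]
  -- explicit formulas
  set f : Q → QV := fun q => if q ∈ E then u' q else a q with hf
  have hfU : ∀ q, QUnit (f q) := by
    intro q
    by_cases h : q ∈ E <;> simp [hf, h, hu' q, ha q]
  set û : HS Q := pv f with hû
  set κ : ℂ := ∏ q ∈ E, qdot (u' q) (a q) with hκ
  set γ : ℂ := ∏ q ∈ E, qdot e1 (a q) with hγ
  set b : Q → QV := fun q => if q ∈ E then e1 else a q with hb
  set X : ℂ := γ * ∏ q ∈ E, qdot (u' q) e1 with hX
  have hPv : P v = γ • pv b := by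
    rw [hP, hv]
    unfold nn
    rw [bk_apply_pv]
  have hOv : O v = κ • û := by
    rw [hO, hv, bk_apply_pv]
  have hfb : (fun q => if q ∈ E then u' q else b q) = f := by
    funext q
    by_cases h : q ∈ E <;> simp [hf, hb, h]
  have hOb : O (pv b) = (∏ q ∈ E, qdot (u' q) e1) • û := by
    rw [hO, bk_apply_pv, hfb]
    congr 1
    exact Finset.prod_congr rfl fun q hq => by simp [hb, hq]
  have hOPv : O (P v) = X • û := by
    rw [hPv, map_smul, hOb, smul_smul]
  have hBv : B2 v = (κ - 2 * X) • û := by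
    show O ((1 - (2 : ℂ) • P) v) = _
    simp only [sub_apply, ContinuousLinearMap.one_apply, smul_apply, map_sub, map_smul]
    rw [hOv, hOPv, sub_smul, smul_smul]
  have hû1 : ‖û‖ = 1 := pv_norm hfU
  set Y : ℂ := κ - X with hY
  have hOv' : ‖O v‖ ^ 2 = ‖X + Y‖ ^ 2 := by
    rw [hOv, norm_smul, hû1, mul_one, hY]; congr 2; ring
  have hBv' : ‖B2 v‖ ^ 2 = ‖Y - X‖ ^ 2 := by
    rw [hBv, norm_smul, hû1, mul_one, hY]; congr 2; ring
  -- bounds for X and Y
  have hXb : ‖X‖ ^ 2 ≤ C * p := by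
    have : ‖X‖ ^ 2 = p * C := by
      rw [hX, norm_mul, mul_pow]
      congr 1
      · rw [hγ, norm_prod, ← Finset.prod_pow]
        exact Finset.prod_congr rfl fun q _ => by rw [qdot_e1_left]
      · rw [norm_prod, ← Finset.prod_pow]
        refine Finset.prod_congr rfl fun q _ => ?_
        rw [qdot_e1_right, Complex.norm_conj]
    rw [this, mul_comm]
  have hin1 : ⟪û, v⟫_ℂ = κ := by
    rw [hû, hv, inner_pv, hκ]
    rw [← Finset.prod_subset (Finset.subset_univ E)]
    · exact Finset.prod_congr rfl fun q hq => by simp [hf, hq]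
    · intro q _ hq
      simp only [hf, hq, if_false]
      exact ha q
  have hin2 : ⟪û, P v⟫_ℂ = X := by
    rw [hPv, inner_smul_right, hû, inner_pv, hX]
    congr 1
    rw [← Finset.prod_subset (Finset.subset_univ E)]
    · exact Finset.prod_congr rfl fun q hq => by simp [hf, hb, hq]
    · intro q _ hq
      simp only [hf, hb, hq, if_false]
      exact ha q
  have hin3 : ⟪(1 - P) û, (1 - P) v⟫_ℂ = Y := by
    have hPi : P * P = P := nn_idem E
    have hPst : star P = P := star_nn E
    have e1 : ⟪(1 - P) û, (1 - P) v⟫_ℂ = ⟪û, v⟫_ℂ - ⟪û, P v⟫_ℂ := by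
      have e2 : ⟪P û, v⟫_ℂ = ⟪û, P v⟫_ℂ := by
        rw [← inner_star_right', hPst]
      have e3 : ⟪P û, P v⟫_ℂ = ⟪û, P v⟫_ℂ := by
        rw [← inner_star_right', hPst]
        have : P (P v) = (P * P) v := rfl
        rw [this, hPi]
      simp only [sub_apply, ContinuousLinearMap.one_apply, inner_sub_left, inner_sub_right, e2, e3]
      ring
    rw [e1, hin1, hin2]
  have hnP : ∀ x : HS Q, ‖(1 - P) x‖ ^ 2 = ‖x‖ ^ 2 - ‖P x‖ ^ 2 := by
    intro x
    have h3 := proj_norm_add (star_nn E) (x := (1 - P) x) (y := P x)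
      (by
        have : (nn E : Op Q) ((1 - P) x) = (P * (1 - P)) x := rfl
        rw [this, mul_sub, hP, nn_idem, mul_one, sub_self]; rfl)
      (by
        have : (nn E : Op Q) (P x) = (P * P) x := rfl
        rw [this, hP, nn_idem])
    have e : (1 - P) x + P x = x := by simp [sub_apply]
    rw [e] at h3
    rw [h3]; ring
  have hYb : ‖Y‖ ^ 2 ≤ (1 - C) * (1 - p) := by
    rw [← hin3]
    have h1 : ‖(1 - P) û‖ ^ 2 = 1 - C := by
      rw [hnP, hû1, hP, hû, norm_nn_pv E hfU, hC]
      have : pr f E = pr u' E := pr_congr fun q hq => by simp [hf, hq]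
      rw [this]; ring
    have h2 : ‖(1 - P) v‖ ^ 2 = 1 - p := by
      rw [hnP, hP, hv, norm_nn_pv E ha, pv_norm ha]; ring
    rw [← h1, ← h2, ← mul_pow]
    exact pow_le_pow_left₀ (norm_nonneg _) (norm_inner_le_norm _ _) 2
  have hmain := deficit_numeric hC0 hC1 hp0 hp1 hw0 hw1 hXb hYb
  rw [hn2, hOv', hBv', hprF]
  calc ‖X + Y‖ ^ 2 + ((1 - w) * ‖X + Y‖ ^ 2 + w * ‖Y - X‖ ^ 2)
      = (2 - w) * ‖X + Y‖ ^ 2 + w * ‖Y - X‖ ^ 2 := by ring
    _ ≤ 2 - 2 * (w * p) * (1 - p) := hmain
    _ = _ := by ring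

/-- Load of a party with flags `F` on a set `E`. -/
noncomputable def Lam0 (a : Q → QV) (F E : Finset Q) (i : Q) : ℝ :=
  pr a F * (1 - pr a (F ∩ E)) + if i ∈ E then 1 else 0

/-- Load of party `i` on a set `E`. -/
noncomputable def Lam (a : Q → QV) (F : Q → Finset Q) (E : Finset Q) (i : Q) : ℝ :=
  Lam0 a (F i) E i

theorem pr_sub_one_nonneg {a : Q → QV} (ha : ∀ q, QUnit (a q)) (E : Finset Q) : 0 ≤ 1 - pr a E := by
  have := pr_le_one ha E
  linarith

theorem Lam0_nonneg {a : Q → QV} (ha : ∀ q, QUnit (a q)) (F E : Finset Q) (i : Q) :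
    0 ≤ Lam0 a F E i := by
  unfold Lam0
  have h1 := mul_nonneg (pr_nonneg a F) (pr_sub_one_nonneg ha (F ∩ E))
  split_ifs <;> linarith

theorem Lam0_le_two {a : Q → QV} (ha : ∀ q, QUnit (a q)) (F E : Finset Q) (i : Q) :
    Lam0 a F E i ≤ 2 := by
  unfold Lam0
  have h0 := pr_nonneg a (F ∩ E)
  have h1 : pr a F * (1 - pr a (F ∩ E)) ≤ 1 * 1 :=
    mul_le_mul (pr_le_one ha F) (by linarith) (pr_sub_one_nonneg ha _) zero_le_one
  split_ifs <;> linarith

/-- Rows of a unitary two by two matrix with columns `v0`, `v1`. -/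
structure Rows (v0 v1 : QV) : Prop where
  h0 : ‖v0 false‖ ^ 2 + ‖v1 false‖ ^ 2 = 1
  h1 : ‖v0 true‖ ^ 2 + ‖v1 true‖ ^ 2 = 1
  h2 : conj (v0 false) * v0 true + conj (v1 false) * v1 true = 0

theorem pv_update_linear (a : Q → QV) (i : Q) (v : QV) :
    pv (Function.update a i v)
      = v false • pv (Function.update a i e0) + v true • pv (Function.update a i e1) := by
  unfold pv
  show WithLp.toLp 2 _ = (v false) • (WithLp.toLp 2 _ : EuclideanSpace ℂ (Q → Bool))
    + (v true) • (WithLp.toLp 2 _ : EuclideanSpace ℂ (Q → Bool))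
  rw [← WithLp.toLp_smul, ← WithLp.toLp_smul, ← WithLp.toLp_add]
  congr 1
  funext x
  simp only [Pi.add_apply, Pi.smul_apply, smul_eq_mul]
  have h : ∀ w : QV, ∏ q, (Function.update a i w q) (x q)
      = w (x i) * ∏ q ∈ Finset.univ.erase i, a q (x q) := by
    intro w
    rw [← Finset.mul_prod_erase _ _ (Finset.mem_univ i)]
    simp only [Function.update_self]
    congr 1
    refine Finset.prod_congr rfl fun q hq => ?_
    rw [Function.update_of_ne (Finset.ne_of_mem_erase hq)]
  rw [h, h, h]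
  cases x i <;> simp [e0, e1]

/-- Averaging over an orthonormal basis is the same as over the computational basis. -/
theorem two_basis (T : Op Q) (a : Q → QV) (i : Q) {v0 v1 : QV} (hr : Rows v0 v1) :
    ‖T (pv (Function.update a i v0))‖ ^ 2 + ‖T (pv (Function.update a i v1))‖ ^ 2
      = ‖T (pv (Function.update a i e0))‖ ^ 2 + ‖T (pv (Function.update a i e1))‖ ^ 2 := by
  set t0 := T (pv (Function.update a i e0)) with ht0
  set t1 := T (pv (Function.update a i e1)) with ht1
  have hT : ∀ v : QV, T (pv (Function.update a i v)) = v false • t0 + v true • t1 := by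
    intro v
    rw [pv_update_linear a i v, map_add, map_smul, map_smul]
  have hn : ∀ v : QV, ‖T (pv (Function.update a i v))‖ ^ 2
      = ‖v false‖ ^ 2 * ‖t0‖ ^ 2 + ‖v true‖ ^ 2 * ‖t1‖ ^ 2
        + 2 * (conj (v false) * v true * ⟪t0, t1⟫_ℂ).re := by
    intro v
    rw [hT, norm_add_sq (𝕜 := ℂ), norm_smul, norm_smul, inner_smul_left, inner_smul_right]
    simp only [RCLike.re_to_complex]
    have : (starRingEnd ℂ) (v false) * (v true * ⟪t0, t1⟫_ℂ)
        = conj (v false) * v true * ⟪t0, t1⟫_ℂ := by ring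
    rw [this]
    ring
  rw [hn v0, hn v1]
  have h3 : (conj (v0 false) * v0 true * ⟪t0, t1⟫_ℂ).re + (conj (v1 false) * v1 true * ⟪t0, t1⟫_ℂ).re = 0 := by
    rw [← Complex.add_re, ← add_mul, hr.h2, zero_mul, Complex.zero_re]
  have h4 := hr.h0
  have h5 := hr.h1
  calc _ = (‖v0 false‖ ^ 2 + ‖v1 false‖ ^ 2) * ‖t0‖ ^ 2 + (‖v0 true‖ ^ 2 + ‖v1 true‖ ^ 2) * ‖t1‖ ^ 2
        + 2 * ((conj (v0 false) * v0 true * ⟪t0, t1⟫_ℂ).re + (conj (v1 false) * v1 true * ⟪t0, t1⟫_ℂ).re) := by ring
    _ = _ := by rw [h4, h5, h3]; ring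

theorem update_unit {a : Q → QV} (ha : ∀ q, QUnit (a q)) {i : Q} {v : QV} (hv : QUnit v) :
    ∀ q, QUnit (Function.update a i v q) := by
  intro q
  by_cases h : q = i
  · subst h; simpa using hv
  · simpa [h] using ha q

theorem gz_norm {c : ℂ} (hc : c = 0 ∨ c = 1) {E : Finset Q} {φ : Q → QV} (hφ : ∀ q ∈ E, QUnit (φ q))
    (v : HS Q) : ‖gz c E φ v‖ = ‖v‖ :=
  iso_norm (by rw [star_gz hc, gz_mul_self hc hφ]) v

theorem gz_pv_e0 {c : ℂ} {i : Q} {F : Finset Q} (a : Q → QV) :
    gz c (insert i F) (fun _ => e1) (pv (Function.update a i e0)) = pv (Function.update a i e0) := by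
  unfold gz
  simp only [sub_apply, ContinuousLinearMap.one_apply, smul_apply]
  rw [bk_apply_pv, Finset.prod_eq_zero (Finset.mem_insert_self i F) (by simp)]
  simp

theorem gz_pv_e1 {c : ℂ} {i : Q} {F : Finset Q} (hi : i ∉ F) (a : Q → QV) :
    gz c (insert i F) (fun _ => e1) (pv (Function.update a i e1))
      = (1 - (2 * c) • nn F) (pv (Function.update a i e1)) := by
  unfold gz
  simp only [sub_apply, ContinuousLinearMap.one_apply, smul_apply]
  congr 2
  unfold nn
  rw [bk_apply_pv, bk_apply_pv, Finset.prod_insert hi]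
  congr 1
  · simp only [Function.update_self, qdot_e1_e1, one_mul]
  · congr 1
    funext q
    by_cases h : q = i
    · subst h; simp
    · by_cases h2 : q ∈ F <;> simp [h, h2]

theorem qdot_unit_sum {v : QV} (hv : QUnit v) : ‖qdot v e0‖ ^ 2 + ‖qdot v e1‖ ^ 2 = 1 := by
  rw [qdot_e0_right, qdot_e1_right, Complex.norm_conj, Complex.norm_conj]
  exact (qunit_iff v).mp hv

/-- The deficit of one party gate. -/
theorem one_party_deficit {i : Q} {F : Finset Q} {c : ℂ} (hi : i ∉ F) (hc : (c = 0 ∧ F = ∅) ∨ c = 1)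
    {E : Finset Q} {u' : Q → QV} (hu' : ∀ q, QUnit (u' q)) {a : Q → QV} (ha : ∀ q, QUnit (a q))
    {v0 v1 : QV} (hr : Rows v0 v1) :
    (1 / 2 : ℝ) * (‖(bk (E ∩ insert i F) u' u' * gz c (insert i F) (fun _ => e1)) (pv (Function.update a i v0))‖ ^ 2
      + ‖(bk (E ∩ insert i F) u' u' * gz c (insert i F) (fun _ => e1)) (pv (Function.update a i v1))‖ ^ 2)
      ≤ 1 - Lam0 a F E i / 4 := by
  have hc01 : c = 0 ∨ c = 1 := by
    rcases hc with h | h
    · exact Or.inl h.1
    · exact Or.inr h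
  rw [two_basis _ a i hr]
  have hA0 : ∀ q, QUnit (Function.update a i e0 q) := update_unit ha qunit_e0
  have hA1 : ∀ q, QUnit (Function.update a i e1 q) := update_unit ha qunit_e1
  simp only [ContinuousLinearMap.mul_apply]
  rw [gz_pv_e0, gz_pv_e1 hi]
  by_cases hiE : i ∈ E
  · -- the input qubit is measured
    have hE' : E ∩ insert i F = {i} ∪ (E ∩ F) := by
      ext q
      simp only [Finset.mem_inter, Finset.mem_insert, Finset.mem_union, Finset.mem_singleton]
      constructor
      · rintro ⟨h1, h2 | h2⟩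
        · exact Or.inl h2
        · exact Or.inr ⟨h1, h2⟩
      · rintro (h | h)
        · subst h; exact ⟨hiE, Or.inl rfl⟩
        · exact ⟨h.1, Or.inr h.2⟩
    have hd : Disjoint ({i} : Finset Q) (E ∩ F) := by
      rw [Finset.disjoint_singleton_left]
      exact fun h => hi (Finset.mem_inter.mp h).2
    rw [hE', bk_union hd]
    set π : Op Q := bk {i} u' u' with hπ
    set OF : Op Q := bk (E ∩ F) u' u' with hOF
    set û := pv (Function.update a i (u' i)) with hû
    have hû1 : ‖û‖ = 1 := pv_norm (update_unit ha (hu' i))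
    have hπs : ∀ s : QV, π (pv (Function.update a i s)) = qdot (u' i) s • û := by
      intro s
      rw [hπ, bk_apply_pv]
      have h1 : (fun q => if q ∈ ({i} : Finset Q) then u' q else Function.update a i s q)
          = Function.update a i (u' i) := by
        funext q
        by_cases h : q = i
        · subst h; simp
        · simp [h]
      rw [h1]
      simp [hû]
    have hcomm1 : Commute π OF := Loc_commute hd (bk_mem_Loc subset_rfl _ _) (bk_mem_Loc subset_rfl _ _)
    have hdF : Disjoint ({i} : Finset Q) F := Finset.disjoint_singleton_left.mpr hi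
    have hπL : π ∈ Loc ({i} : Finset Q) := bk_mem_Loc subset_rfl _ _
    have hcomm2 : Commute π (1 - (2 * c) • nn F) :=
      Loc_commute hdF hπL (sub_mem (one_mem_Loc F) (Submodule.smul_mem _ _ (nn_mem_Loc subset_rfl)))
    have ht0 : ‖(π * OF) (pv (Function.update a i e0))‖ ≤ ‖qdot (u' i) e0‖ := by
      rw [hcomm1.eq, ContinuousLinearMap.mul_apply, hπs, map_smul, norm_smul]
      have := bk_norm_le (E := E ∩ F) hu' û
      rw [hû1] at this
      calc _ ≤ ‖qdot (u' i) e0‖ * 1 := mul_le_mul_of_nonneg_left this (norm_nonneg _)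
        _ = _ := mul_one _
    have ht1 : ‖(π * OF) ((1 - (2 * c) • nn F) (pv (Function.update a i e1)))‖ ≤ ‖qdot (u' i) e1‖ := by
      have e1' : (π * OF) ((1 - (2 * c) • nn F) (pv (Function.update a i e1)))
          = OF ((1 - (2 * c) • nn F) (π (pv (Function.update a i e1)))) := by
        have h1 : π * OF * (1 - (2 * c) • nn F) = OF * (1 - (2 * c) • nn F) * π := by
          rw [hcomm1.eq, mul_assoc, hcomm2.eq, mul_assoc]
        exact congrArg (fun T : Op Q => T (pv (Function.update a i e1))) h1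
      rw [e1', hπs, map_smul, map_smul, norm_smul]
      have h2 := bk_norm_le (E := E ∩ F) hu' ((1 - (2 * c) • nn F) û)
      have h3 : ‖(1 - (2 * c) • nn F) û‖ = ‖û‖ := gz_norm hc01 (fun _ _ => qunit_e1) û
      rw [h3, hû1] at h2
      calc _ ≤ ‖qdot (u' i) e1‖ * 1 := mul_le_mul_of_nonneg_left h2 (norm_nonneg _)
        _ = _ := mul_one _
    have h1 := qdot_unit_sum (hu' i)
    have h2 : ‖(π * OF) (pv (Function.update a i e0))‖ ^ 2 ≤ ‖qdot (u' i) e0‖ ^ 2 :=
      pow_le_pow_left₀ (norm_nonneg _) ht0 2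
    have h3 : ‖(π * OF) ((1 - (2 * c) • nn F) (pv (Function.update a i e1)))‖ ^ 2 ≤ ‖qdot (u' i) e1‖ ^ 2 :=
      pow_le_pow_left₀ (norm_nonneg _) ht1 2
    have h4 := Lam0_le_two ha F E i
    linarith
  · have hE' : E ∩ insert i F = E ∩ F := by
      rw [Finset.inter_insert_of_notMem hiE]
    rw [hE']
    rcases hc with ⟨rfl, rfl⟩ | rfl
    · -- no gate
      have h0 : Lam0 a ∅ E i = 0 := by
        unfold Lam0
        simp [pr, hiE]
      rw [h0]
      have hb0 := bk_norm_le (E := E ∩ ∅) hu' (pv (Function.update a i e0))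
      rw [pv_norm hA0] at hb0
      have e : ((1 : Op Q) - (2 * (0 : ℂ)) • (nn (∅ : Finset Q) : Op Q)) (pv (Function.update a i e1)) = pv (Function.update a i e1) := by
        simp
      have hb1 := bk_norm_le (E := E ∩ ∅) hu' (((1 : Op Q) - (2 * (0 : ℂ)) • (nn (∅ : Finset Q) : Op Q)) (pv (Function.update a i e1)))
      rw [e, pv_norm hA1] at hb1
      have := pow_le_pow_left₀ (norm_nonneg _) hb0 2
      have h2 := pow_le_pow_left₀ (norm_nonneg _) hb1 2
      rw [e]
      rw [one_pow] at this h2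
      linarith
    · -- the flags
      have hsub : E ∩ F ⊆ F := Finset.inter_subset_right
      have h1 := defi_flags hsub hA0 hu'
      simp only [mul_one]
      have hO : (bk (E ∩ F) u' u' * (1 - (2 : ℂ) • nn F) : Op Q) ∈ Loc F :=
        mul_mem_Loc (bk_mem_Loc hsub _ _) (sub_mem (one_mem_Loc F) (Submodule.smul_mem _ _ (nn_mem_Loc subset_rfl)))
      have hagree : ∀ q ∈ F, Function.update a i e1 q = Function.update a i e0 q := by
        intro q hq
        have : q ≠ i := fun h => hi (h ▸ hq)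
        simp [this]
      have h2 := norm_congr hO hA1 hA0 hagree
      simp only [ContinuousLinearMap.mul_apply] at h2
      rw [h2]
      have hp1 : pr (Function.update a i e0) F = pr a F := pr_congr fun q hq => by
        have : q ≠ i := fun h => hi (h ▸ hq)
        simp [this]
      have hp2 : pr (Function.update a i e0) (E ∩ F) = pr a (F ∩ E) := by
        rw [Finset.inter_comm E F]
        exact pr_congr fun q hq => by
          have : q ≠ i := fun h => hi (h ▸ (Finset.mem_inter.mp hq).1)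
          simp [this]
      rw [hp1, hp2] at h1
      unfold Lam0
      simp only [hiE, if_false, add_zero]
      have h3 := mul_nonneg (pr_nonneg a F) (pr_sub_one_nonneg ha (F ∩ E))
      linarith


end Vale.Agent.Lib.P368
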