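import Mathlib
import Vale.Agent.Lib.P368.Deficit2

/-!
# The deficit of a product of party gates
-/

set_option linter.unusedSectionVars false
set_option linter.unusedVariables false
set_option linter.unusedSimpArgs false
set_option linter.deprecated false
set_option linter.unusedTactic false
set_option linter.unreachableTactic false

namespace Vale.Agent.Lib.P368

open scoped BigOperators InnerProductSpace ComplexConjugate

variable {Q : Type} [Fintype Q] [DecidableEq Q]

theorem Lam_le_two {a : Q → QV} (ha : ∀ q, QUnit (a q)) (F : Q → Finset Q) (E : Finset Q) (i : Q) :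
    Lam a F E i ≤ 2 := Lam0_le_two ha _ _ _

theorem Lam_nonneg {a : Q → QV} (ha : ∀ q, QUnit (a q)) (F : Q → Finset Q) (E : Finset Q) (i : Q) :
    0 ≤ Lam a F E i := Lam0_nonneg ha _ _ _

theorem Gi_norm {F : Q → Finset Q} {c : Q → ℂ} (hc : ∀ i, c i = 0 ∨ c i = 1) (i : Q) :
    star (Gi F c i) * Gi F c i = 1 := by
  unfold Gi
  rw [star_gz (hc i), gz_mul_self (hc i) fun _ _ => qunit_e1]

theorem PG_iso {F : Q → Finset Q} {c : Q → ℂ} (hc : ∀ i, c i = 0 ∨ c i = 1) (L : List Q) :
    star (PG F c L) * PG F c L = 1 := by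
  induction L with
  | nil => simp [PG]
  | cons i L ih =>
    have e : PG F c (i :: L) = Gi F c i * PG F c L := rfl
    rw [e, star_mul]
    calc star (PG F c L) * star (Gi F c i) * (Gi F c i * PG F c L)
        = star (PG F c L) * (star (Gi F c i) * Gi F c i) * PG F c L := by simp only [mul_assoc]
      _ = 1 := by rw [Gi_norm hc, mul_one, ih]

theorem PG_mem_Loc (F : Q → Finset Q) (c : Q → ℂ) (L : List Q) : PG F c L ∈ Loc (Erem F L) := by
  unfold PG
  exact list_prod_mem_Loc L _ fun i hi => Loc_mono (qs_subset_Erem hi) (Gi_mem F c i)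

theorem Loc_compl_mono {E F : Finset Q} (h : E ⊆ F) : Loc Fᶜ ≤ Loc Eᶜ :=
  Loc_mono (Finset.compl_subset_compl.mpr h)

/-- The product bound for the deficit. -/
theorem deficit_prod {u : Q → Bool → QV} (hu : ∀ q b, QUnit (u q b))
    (hr : ∀ q, Rows (u q false) (u q true))
    {F : Q → Finset Q} {c : Q → ℂ} {u' : Q → QV} (hu' : ∀ q, QUnit (u' q))
    (hc' : ∀ i, c i = 0 ∨ c i = 1)
    (A : List Q) (hnd : A.Nodup) (hiF : ∀ i ∈ A, i ∉ F i)
    (hcF : ∀ i ∈ A, (c i = 0 ∧ F i = ∅) ∨ c i = 1)
    (hqs : ∀ i ∈ A, ∀ k ∈ A, i ≠ k → Disjoint (qsOf F i) (qsOf F k))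
    (E : Finset Q) (Z : Op Q) (hZ : star Z * Z = 1) (hZL : Z ∈ Loc (Erem F A)ᶜ)
    (a : Q → QV) (ha : ∀ q, QUnit (a q)) :
    uAvg u A (fun a' => ‖(bk E u' u' * (PG F c A * Z)) (pv a')‖ ^ 2) a
      ≤ (A.map fun i => 1 - Lam a F E i / 4).prod := by
  induction A generalizing E a with
  | nil =>
    simp only [uAvg, List.map_nil, List.prod_nil]
    have e : PG F c [] = 1 := rfl
    rw [e, one_mul, ContinuousLinearMap.mul_apply]
    have h1 := bk_norm_le (E := E) hu' (Z (pv a))
    rw [iso_norm hZ, pv_norm ha] at h1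
    have h2 := pow_le_pow_left₀ (norm_nonneg _) h1 2
    rwa [one_pow] at h2
  | cons i A' ih =>
    have hnd' : A'.Nodup := (List.nodup_cons.mp hnd).2
    have hiA' : i ∉ A' := (List.nodup_cons.mp hnd).1
    have hiF' : ∀ k ∈ A', k ∉ F k := fun k hk => hiF k (by simp [hk])
    have hcF' : ∀ k ∈ A', (c k = 0 ∧ F k = ∅) ∨ c k = 1 := fun k hk => hcF k (by simp [hk])
    have hqs' : ∀ j ∈ A', ∀ k ∈ A', j ≠ k → Disjoint (qsOf F j) (qsOf F k) :=
      fun j hj k hk => hqs j (by simp [hj]) k (by simp [hk])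
    set qs := qsOf F i with hqsdef
    have hdisj : ∀ k ∈ A', Disjoint qs (qsOf F k) := by
      intro k hk
      have hne : i ≠ k := fun h => hiA' (h ▸ hk)
      exact hqs i (by simp) k (by simp [hk]) hne
    have hdE : Disjoint qs (Erem F A') := disjoint_Erem hdisj
    have hZ1 : Z ∈ Loc qsᶜ := Loc_compl_mono (qs_subset_Erem (by simp)) hZL
    have hZ2 : Z ∈ Loc (Erem F A')ᶜ := Loc_compl_mono (Erem_subset (by simp +contextual)) hZL
    have hPG : PG F c (i :: A') = Gi F c i * PG F c A' := rfl
    set W : Op Q := PG F c A' * Z with hW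
    have hWL : W ∈ Loc qsᶜ :=
      mul_mem_Loc (Loc_compl_of_disjoint hdE.symm (PG_mem_Loc F c A')) hZ1
    set Oi : Op Q := bk (E ∩ qs) u' u' with hOi
    set Or : Op Q := bk (E \ qs) u' u' with hOr
    have hdEE : Disjoint (E ∩ qs) (E \ qs) := Finset.disjoint_sdiff_inter E qs |>.symm
    have hEs : bk E u' u' = Oi * Or := by
      have : (E ∩ qs) ∪ (E \ qs) = E := by
        rw [Finset.union_comm, Finset.sdiff_union_inter]
      rw [hOi, hOr, ← bk_union hdEE, this]
    have hGO : Commute Or (Gi F c i) :=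
      Loc_commute Finset.sdiff_disjoint (bk_mem_Loc subset_rfl _ _) (Gi_mem F c i)
    have hAL : Oi * Gi F c i ∈ Loc qs :=
      mul_mem_Loc (bk_mem_Loc Finset.inter_subset_right _ _) (Gi_mem F c i)
    have hML : Or * W ∈ Loc qsᶜ :=
      mul_mem_Loc (Loc_compl_of_disjoint Finset.sdiff_disjoint (bk_mem_Loc subset_rfl _ _)) hWL
    have hopeq : bk E u' u' * (PG F c (i :: A') * Z) = (Oi * Gi F c i) * (Or * W) := by
      rw [hEs, hPG, hW]
      calc Oi * Or * (Gi F c i * PG F c A' * Z) = Oi * (Or * Gi F c i) * (PG F c A' * Z) := by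
            simp only [mul_assoc]
        _ = Oi * (Gi F c i * Or) * (PG F c A' * Z) := by rw [hGO.eq]
        _ = _ := by simp only [mul_assoc]
    have hfac : ∀ a' : Q → QV, (∀ q, QUnit (a' q)) →
        ‖(bk E u' u' * (PG F c (i :: A') * Z)) (pv a')‖ ^ 2
          = ‖(Oi * Gi F c i) (pv a')‖ ^ 2 * ‖(Or * W) (pv a')‖ ^ 2 := by
      intro a' ha'
      rw [hopeq, ContinuousLinearMap.mul_apply, norm_factor hAL hML ha']
    have hAavoid : ∀ k ∈ A', k ∉ qs := by
      intro k hk hkq
      have h1 := hdisj k hk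
      exact Finset.disjoint_left.mp h1 hkq (Finset.mem_insert_self k _)
    set B' : ℝ := (A'.map fun k => 1 - Lam a F E k / 4).prod with hB'
    have hB'0 : 0 ≤ B' := by
      apply List.prod_nonneg
      intro x hx
      obtain ⟨k, _, rfl⟩ := List.mem_map.mp hx
      have := Lam_le_two ha F E k
      linarith
    have hbranch : ∀ b : Bool,
        uAvg u A' (fun a' => ‖(bk E u' u' * (PG F c (i :: A') * Z)) (pv a')‖ ^ 2)
          (Function.update a i (u i b))
          ≤ ‖(Oi * Gi F c i) (pv (Function.update a i (u i b)))‖ ^ 2 * B' := by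
      intro b
      set ab := Function.update a i (u i b) with hab
      have hab1 : ∀ q, QUnit (ab q) := update_unit ha (hu i b)
      have hC := closed_agree hu A' qs hAavoid ab
      have e1 : uAvg u A' (fun a' => ‖(bk E u' u' * (PG F c (i :: A') * Z)) (pv a')‖ ^ 2) ab
          = ‖(Oi * Gi F c i) (pv ab)‖ ^ 2 * uAvg u A' (fun a' => ‖(Or * W) (pv a')‖ ^ 2) ab := by
        rw [← uAvg_mul_left]
        refine uAvg_congr u A' hC (fun a' ha' => ?_) ab ⟨hab1, fun _ _ => rfl⟩
        rw [hfac a' ha'.1, norm_congr hAL ha'.1 hab1 ha'.2]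
      rw [e1]
      refine mul_le_mul_of_nonneg_left ?_ (by positivity)
      have hih := ih hnd' hiF' hcF' hqs' (E \ qs) hZ2 ab hab1
      have e2 : (A'.map fun k => 1 - Lam ab F (E \ qs) k / 4)
          = (A'.map fun k => 1 - Lam a F E k / 4) := by
        refine List.map_congr_left fun k hk => ?_
        have hkq := hAavoid k hk
        have hFk : Disjoint (F k) qs := by
          have h1 := hdisj k hk
          exact (Finset.disjoint_of_subset_left (Finset.subset_insert k (F k)) h1.symm)
        have hiFk : i ∉ F k := fun h =>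
          Finset.disjoint_left.mp hFk h (Finset.mem_insert_self i _)
        have h1 : F k ∩ (E \ qs) = F k ∩ E := by
          ext q
          simp only [Finset.mem_inter, Finset.mem_sdiff]
          constructor
          · rintro ⟨h1, h2, _⟩; exact ⟨h1, h2⟩
          · rintro ⟨h1, h2⟩; exact ⟨h1, h2, fun h3 => Finset.disjoint_left.mp hFk h1 h3⟩
        have hag : ∀ q ∈ F k, ab q = a q := by
          intro q hq
          have : q ≠ i := fun h => hiFk (h ▸ hq)
          simp [hab, this]
        unfold Lam Lam0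
        rw [h1, pr_congr hag, pr_congr (E := F k ∩ E) fun q hq => hag q (Finset.mem_inter.mp hq).1]
        have h3 : (k ∈ E \ qs) ↔ k ∈ E := by
          simp [hkq]
        simp only [h3]
      rw [e2] at hih
      exact hih
    have h0 := hbranch false
    have h1 := hbranch true
    have hone := one_party_deficit (i := i) (F := F i) (c := c i) (hiF i (by simp))
      (hcF i (by simp)) (E := E) hu' ha (hr i)
    simp only [uAvg, List.map_cons, List.prod_cons]
    have hone' : (1 / 2 : ℝ) * (‖(Oi * Gi F c i) (pv (Function.update a i (u i false)))‖ ^ 2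
        + ‖(Oi * Gi F c i) (pv (Function.update a i (u i true)))‖ ^ 2) ≤ 1 - Lam a F E i / 4 := hone
    calc _ ≤ (1 / 2 : ℝ) * (‖(Oi * Gi F c i) (pv (Function.update a i (u i false)))‖ ^ 2 * B'
          + ‖(Oi * Gi F c i) (pv (Function.update a i (u i true)))‖ ^ 2 * B') := by linarith
      _ = ((1 / 2 : ℝ) * (‖(Oi * Gi F c i) (pv (Function.update a i (u i false)))‖ ^ 2
          + ‖(Oi * Gi F c i) (pv (Function.update a i (u i true)))‖ ^ 2)) * B' := by ring
      _ ≤ _ := mul_le_mul_of_nonneg_right hone' hB'0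

/-- The list product is bounded by an exponential. -/
theorem list_prod_le_exp {α : Type*} (A : List α) (g : α → ℝ) (hg : ∀ x ∈ A, g x ≤ 4) :
    (A.map fun i => 1 - g i / 4).prod ≤ Real.exp (-(A.map g).sum / 4) := by
  induction A with
  | nil => simp
  | cons x A ih =>
    simp only [List.map_cons, List.prod_cons, List.sum_cons]
    have h1 := ih fun y hy => hg y (by simp [hy])
    have h2 : 1 - g x / 4 ≤ Real.exp (-(g x) / 4) := by
      have := Real.add_one_le_exp (-(g x) / 4)
      linarith
    have h3 : 0 ≤ 1 - g x / 4 := by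
      have := hg x (by simp)
      linarith
    have e : -(g x + (A.map g).sum) / 4 = -(g x) / 4 + -(A.map g).sum / 4 := by ring
    rw [e, Real.exp_add]
    refine mul_le_mul h2 h1 ?_ (Real.exp_pos _).le
    apply List.prod_nonneg
    intro y hy
    obtain ⟨k, hk, rfl⟩ := List.mem_map.mp hy
    have := hg k (by simp [hk])
    linarith

end Vale.Agent.Lib.P368
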