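import Mathlib
import Vale.Agent.Lib.P368.Deficit3

/-!
# Killed and dead gates
-/

set_option linter.unusedSectionVars false
set_option linter.unusedVariables false
set_option linter.unusedSimpArgs false
set_option linter.deprecated false
set_option linter.unusedTactic false
set_option linter.unreachableTactic false

namespace Vale.Agent.Lib.P368

open scoped BigOperators InnerProductSpace ComplexConjugate

variable {Q : Type} [Fintype Q] [DecidableEq Q]

/-- The party setting. -/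
structure PS (u : Q → Bool → QV) (F : Q → Finset Q) (c : Q → ℂ) (Z : Op Q) (A : List Q) : Prop where
  hu : ∀ q b, QUnit (u q b)
  hr : ∀ q, Rows (u q false) (u q true)
  hc : ∀ i, c i = 0 ∨ c i = 1
  hnd : A.Nodup
  hiF : ∀ i ∈ A, i ∉ F i
  hcF : ∀ i ∈ A, (c i = 0 ∧ F i = ∅) ∨ c i = 1
  hqs : ∀ i ∈ A, ∀ k ∈ A, i ≠ k → Disjoint (qsOf F i) (qsOf F k)
  hZ : star Z * Z = 1
  hZL : Z ∈ Loc (Erem F A)ᶜ

/-- The state after the first layer. -/
noncomputable def Psi (F : Q → Finset Q) (c : Q → ℂ) (Z : Op Q) (A : List Q) (a : Q → QV) : HS Q :=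
  (PG F c A * Z) (pv a)

section
variable {u : Q → Bool → QV} {F : Q → Finset Q} {c : Q → ℂ} {Z : Op Q} {A : List Q}

theorem Psi_norm (S : PS u F c Z A) {a : Q → QV} (ha : ∀ q, QUnit (a q)) : ‖Psi F c Z A a‖ = 1 := by
  unfold Psi
  rw [ContinuousLinearMap.mul_apply, iso_norm (PG_iso S.hc A), iso_norm S.hZ, pv_norm ha]

/-- The total load of a set. -/
noncomputable def Load (a : Q → QV) (F : Q → Finset Q) (A : List Q) (E : Finset Q) : ℝ :=
  (A.map (Lam a F E)).sum

theorem deficit_exp (S : PS u F c Z A) {u' : Q → QV} (hu' : ∀ q, QUnit (u' q)) (E : Finset Q)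
    {a : Q → QV} (ha : ∀ q, QUnit (a q)) :
    uAvg u A (fun a' => ‖bk E u' u' (Psi F c Z A a')‖ ^ 2) a ≤ Real.exp (-Load a F A E / 4) := by
  have h1 := deficit_prod S.hu S.hr hu' S.hc A S.hnd S.hiF S.hcF S.hqs E Z S.hZ S.hZL a ha
  have h2 := list_prod_le_exp A (Lam a F E) (fun x _ => by
    have := Lam_le_two ha F E x
    linarith)
  exact h1.trans h2

/-- The first moment version. -/
theorem deficit_exp_sqrt (S : PS u F c Z A) {u' : Q → QV} (hu' : ∀ q, QUnit (u' q)) (E : Finset Q)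
    {a : Q → QV} (ha : ∀ q, QUnit (a q)) :
    uAvg u A (fun a' => ‖bk E u' u' (Psi F c Z A a')‖) a ≤ Real.exp (-Load a F A E / 8) := by
  have hC := closed_unit S.hu A
  have h1 : uAvg u A (fun a' => ‖bk E u' u' (Psi F c Z A a')‖) a
      = uAvg u A (fun a' => Real.sqrt (‖bk E u' u' (Psi F c Z A a')‖ ^ 2)) a := by
    refine uAvg_congr u A hC (fun a' _ => ?_) a ha
    rw [Real.sqrt_sq (norm_nonneg _)]
  rw [h1]
  refine (uAvg_sqrt_le u A hC (fun _ _ => by positivity) a ha).trans ?_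
  have h2 := deficit_exp S hu' E ha
  have h3 : Real.sqrt (Real.exp (-Load a F A E / 4)) = Real.exp (-Load a F A E / 8) := by
    rw [Real.sqrt_eq_iff_mul_self_eq_of_pos (Real.exp_pos _), ← Real.exp_add]
    congr 1
    ring
  rw [← h3]
  exact Real.sqrt_le_sqrt h2

end

/-! ### Facts on gates -/

section
variable {φ t : Q → QV}

theorem gD_gz_sq {g : GD Q} (hg : g.Good) (hφ : ∀ q, QUnit (φ q)) :
    gz g.c (g.T ∪ g.R) φ * gz g.c (g.T ∪ g.R) φ = 1 := gz_mul_self hg.2 fun q _ => hφ q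

theorem K_idem {g : GD Q} (hg : g.Good) (hφ : ∀ q, QUnit (φ q)) (ht : ∀ q, QUnit (t q)) :
    g.K φ t * g.K φ t = g.K φ t := by
  unfold GD.K gateK
  set G := gz g.c (g.T ∪ g.R) φ
  set B := bk g.T t t
  have hG : G * G = 1 := gD_gz_sq hg hφ
  have hB : B * B = B := bk_idem fun q _ => ht q
  calc G * B * G * (G * B * G) = G * B * (G * G) * B * G := by simp only [mul_assoc]
    _ = G * (B * B) * G := by rw [hG]; simp only [mul_one, mul_assoc]
    _ = _ := by rw [hB]

theorem K_star {g : GD Q} (hg : g.Good) : star (g.K φ t) = g.K φ t := by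
  unfold GD.K gateK
  simp only [star_mul, star_gz hg.2, star_bk]
  simp only [mul_assoc]

theorem sup2_mem {l : List (GD Q)} {q : Q} : q ∈ sup2 l ↔ ∃ g ∈ l, q ∈ g.supp := by
  induction l with
  | nil => simp [sup2]
  | cons g l ih =>
    simp only [sup2, Finset.mem_union, ih, List.mem_cons]
    constructor
    · rintro (h | ⟨h', hh, hq⟩)
      · exact ⟨g, Or.inl rfl, h⟩
      · exact ⟨h', Or.inr hh, hq⟩
    · rintro ⟨h', rfl | hh, hq⟩
      · exact Or.inl hq
      · exact Or.inr ⟨h', hh, hq⟩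

theorem GoodList.tail {g : GD Q} {l : List (GD Q)} (h : GoodList (g :: l)) : GoodList l :=
  ⟨fun x hx => h.1 x (by simp [hx]), (List.pairwise_cons.mp h.2).2⟩

theorem GoodList.head {g : GD Q} {l : List (GD Q)} (h : GoodList (g :: l)) : g.Good :=
  h.1 g (by simp)

theorem GoodList.disj {g : GD Q} {l : List (GD Q)} (h : GoodList (g :: l)) :
    Disjoint g.supp (sup2 l) :=
  disjoint_supp_sup2 (List.pairwise_cons.mp h.2).1

theorem XX_props {l : List (GD Q)} (hl : GoodList l) (hφ : ∀ q, QUnit (φ q)) (ht : ∀ q, QUnit (t q)) :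
    XX φ t l * XX φ t l = XX φ t l ∧ star (XX φ t l) = XX φ t l := by
  induction l with
  | nil => simp [XX]
  | cons g l ih =>
    obtain ⟨h1, h2⟩ := ih hl.tail
    have hg := hl.head
    have hc : Commute (g.K φ t) (XX φ t l) :=
      Loc_commute hl.disj (K_mem_Loc φ t g) (XX_mem_Loc φ t l)
    constructor
    · show g.K φ t * XX φ t l * (g.K φ t * XX φ t l) = g.K φ t * XX φ t l
      calc g.K φ t * XX φ t l * (g.K φ t * XX φ t l)
          = g.K φ t * (XX φ t l * g.K φ t) * XX φ t l := by simp only [mul_assoc]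
        _ = g.K φ t * (g.K φ t * XX φ t l) * XX φ t l := by rw [hc.eq]
        _ = (g.K φ t * g.K φ t) * (XX φ t l * XX φ t l) := by simp only [mul_assoc]
        _ = _ := by rw [K_idem hg hφ ht, h1]
    · show star (g.K φ t * XX φ t l) = g.K φ t * XX φ t l
      rw [star_mul, K_star hg, h2, hc.eq]

theorem XX_norm_le {l : List (GD Q)} (hl : GoodList l) (hφ : ∀ q, QUnit (φ q)) (ht : ∀ q, QUnit (t q))
    (v : HS Q) : ‖XX φ t l v‖ ≤ ‖v‖ :=
  proj_norm_le (XX_props hl hφ ht).1 (XX_props hl hφ ht).2 v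

theorem K_norm_le {g : GD Q} (hg : g.Good) (hφ : ∀ q, QUnit (φ q)) (ht : ∀ q, QUnit (t q))
    (v : HS Q) : ‖g.K φ t v‖ ≤ ‖v‖ :=
  proj_norm_le (K_idem hg hφ ht) (K_star hg) v

/-- Sandwich of the product of projectors by one of them. -/
theorem XX_sandwich {l : List (GD Q)} (hl : GoodList l) (hφ : ∀ q, QUnit (φ q)) (ht : ∀ q, QUnit (t q))
    {g : GD Q} (hgl : g ∈ l) :
    ∃ Y : Op Q, (∀ v, ‖Y v‖ ≤ ‖v‖) ∧ XX φ t l = g.K φ t * Y * g.K φ t := by
  induction l with
  | nil => simp at hgl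
  | cons h l ih =>
    have hc : Commute (h.K φ t) (XX φ t l) :=
      Loc_commute hl.disj (K_mem_Loc φ t h) (XX_mem_Loc φ t l)
    have hgood := hl.head
    rcases List.mem_cons.mp hgl with rfl | hgl'
    · refine ⟨XX φ t l, XX_norm_le hl.tail hφ ht, ?_⟩
      show g.K φ t * XX φ t l = _
      calc g.K φ t * XX φ t l = (g.K φ t * g.K φ t) * XX φ t l := by rw [K_idem hgood hφ ht]
        _ = g.K φ t * (g.K φ t * XX φ t l) := by rw [mul_assoc]
        _ = g.K φ t * (XX φ t l * g.K φ t) := by rw [hc.eq]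
        _ = _ := by rw [mul_assoc]
    · obtain ⟨Y, hY, e⟩ := ih hl.tail hgl'
      have hcg : Commute (h.K φ t) (g.K φ t) := by
        have : Disjoint h.supp g.supp := by
          refine Finset.disjoint_of_subset_right ?_ hl.disj
          intro q hq
          exact sup2_mem.mpr ⟨g, hgl', hq⟩
        exact Loc_commute this (K_mem_Loc φ t h) (K_mem_Loc φ t g)
      refine ⟨h.K φ t * Y, fun v => ?_, ?_⟩
      · calc ‖(h.K φ t * Y) v‖ ≤ ‖Y v‖ := K_norm_le hgood hφ ht _
          _ ≤ ‖v‖ := hY v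
      · show h.K φ t * XX φ t l = _
        rw [e]
        calc h.K φ t * (g.K φ t * Y * g.K φ t) = (h.K φ t * g.K φ t) * Y * g.K φ t := by
              simp only [mul_assoc]
          _ = (g.K φ t * h.K φ t) * Y * g.K φ t := by rw [hcg.eq]
          _ = _ := by simp only [mul_assoc]

/-- The expectation of the product of projectors is bounded by the weight of one of them. -/
theorem XX_exp_le {l : List (GD Q)} (hl : GoodList l) (hφ : ∀ q, QUnit (φ q)) (ht : ∀ q, QUnit (t q))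
    {g : GD Q} (hgl : g ∈ l) (v : HS Q) : ‖⟪v, XX φ t l v⟫_ℂ‖ ≤ ‖g.K φ t v‖ ^ 2 := by
  obtain ⟨Y, hY, e⟩ := XX_sandwich hl hφ ht hgl
  have hg := hl.1 g hgl
  rw [e]
  have e2 : ⟪v, (g.K φ t * Y * g.K φ t) v⟫_ℂ = ⟪g.K φ t v, Y (g.K φ t v)⟫_ℂ := by
    have : (g.K φ t * Y * g.K φ t) v = g.K φ t (Y (g.K φ t v)) := rfl
    rw [this, ← inner_star_left', K_star hg]
  rw [e2]
  calc _ ≤ ‖g.K φ t v‖ * ‖Y (g.K φ t v)‖ := norm_inner_le_norm _ _
    _ ≤ ‖g.K φ t v‖ * ‖g.K φ t v‖ := mul_le_mul_of_nonneg_left (hY _) (norm_nonneg _)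
    _ = _ := by ring

theorem c_norm_le {c : ℂ} (hc : c = 0 ∨ c = 1) : ‖c‖ ≤ 1 := by
  rcases hc with rfl | rfl <;> simp

/-- The projector weight of a gate. -/
theorem K_weight_le {g : GD Q} (hg : g.Good) (hφ : ∀ q, QUnit (φ q)) (ht : ∀ q, QUnit (t q)) (v : HS Q) :
    ‖g.K φ t v‖ ^ 2 ≤ 2 * ‖bk g.T t t v‖ ^ 2 + 8 * ‖bk g.T φ φ v‖ ^ 2 := by
  unfold GD.K gateK
  set G := gz g.c (g.T ∪ g.R) φ with hG
  have hGn : ∀ x, ‖G x‖ = ‖x‖ := gz_norm hg.2 fun q _ => hφ q
  have e1 : ‖(G * bk g.T t t * G) v‖ = ‖bk g.T t t (G v)‖ := by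
    have : (G * bk g.T t t * G) v = G (bk g.T t t (G v)) := rfl
    rw [this, hGn]
  rw [e1]
  have hGv : G v = v - (2 * g.c) • bk (g.T ∪ g.R) φ φ v := by
    rw [hG]; unfold gz; simp [sub_apply, smul_apply]
  have hsplit : bk (g.T ∪ g.R) φ φ v = bk g.R φ φ (bk g.T φ φ v) := by
    rw [bk_union hg.1]
    have hc : Commute (bk g.T φ φ) (bk g.R φ φ) :=
      Loc_commute hg.1 (bk_mem_Loc subset_rfl _ _) (bk_mem_Loc subset_rfl _ _)
    have := congrArg (fun T : Op Q => T v) hc.eq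
    exact this
  have h1 : ‖bk g.T t t (G v)‖ ≤ ‖bk g.T t t v‖ + 2 * ‖bk g.T φ φ v‖ := by
    rw [hGv, map_sub, map_smul]
    refine (norm_sub_le _ _).trans ?_
    have h2 : ‖(2 * g.c) • bk g.T t t (bk (g.T ∪ g.R) φ φ v)‖ ≤ 2 * ‖bk g.T φ φ v‖ := by
      rw [norm_smul, norm_mul]
      have h3 : ‖bk g.T t t (bk (g.T ∪ g.R) φ φ v)‖ ≤ ‖bk g.T φ φ v‖ := by
        refine (bk_norm_le ht _).trans ?_
        rw [hsplit]
        exact bk_norm_le hφ _
      have h4 := c_norm_le hg.2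
      have h5 : ‖(2 : ℂ)‖ = 2 := by norm_num
      rw [h5]
      have h6 := norm_nonneg (bk g.T t t (bk (g.T ∪ g.R) φ φ v))
      have h7 := norm_nonneg (bk g.T φ φ v)
      nlinarith
    linarith
  have h8 := norm_nonneg (bk g.T t t (G v))
  have h9 := norm_nonneg (bk g.T t t v)
  have h10 := norm_nonneg (bk g.T φ φ v)
  have h11 : ‖bk g.T t t (G v)‖ ^ 2 ≤ (‖bk g.T t t v‖ + 2 * ‖bk g.T φ φ v‖) ^ 2 :=
    pow_le_pow_left₀ h8 h1 2
  nlinarith [sq_nonneg (‖bk g.T t t v‖ - 2 * ‖bk g.T φ φ v‖)]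

end

/-! ### Killed gates -/

section
variable {u : Q → Bool → QV} {F : Q → Finset Q} {c : Q → ℂ} {Z : Op Q} {A : List Q}
  {φ t : Q → QV} {l : List (GD Q)}

/-- The function whose signed average is the quantity of interest. -/
noncomputable def fX (F : Q → Finset Q) (c : Q → ℂ) (Z : Op Q) (A : List Q) (X : Op Q) (a : Q → QV) : ℂ :=
  ⟪Psi F c Z A a, X (Psi F c Z A a)⟫_ℂ

theorem killed_bound (S : PS u F c Z A) (hφ : ∀ q, QUnit (φ q)) (ht : ∀ q, QUnit (t q))
    (hl : GoodList l) {g : GD Q} (hgl : g ∈ l) {a : Q → QV} (ha : ∀ q, QUnit (a q)) :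
    ‖sgnAvg u A (fX F c Z A (XX φ t l)) a‖ ≤ 10 * Real.exp (-Load a F A g.T / 4) := by
  refine (norm_sgnAvg_le u A _ a).trans ?_
  have hC := closed_unit S.hu A
  have h1 : uAvg u A (fun a' => ‖fX F c Z A (XX φ t l) a'‖) a
      ≤ uAvg u A (fun a' => 2 * ‖bk g.T t t (Psi F c Z A a')‖ ^ 2
        + 8 * ‖bk g.T φ φ (Psi F c Z A a')‖ ^ 2) a := by
    refine uAvg_mono u A hC (fun a' _ => ?_) a ha
    exact (XX_exp_le hl hφ ht hgl _).trans (K_weight_le (hl.1 g hgl) hφ ht _)
  refine h1.trans ?_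
  rw [uAvg_add, uAvg_mul_left, uAvg_mul_left]
  have h2 := deficit_exp S ht g.T ha
  have h3 := deficit_exp S hφ g.T ha
  linarith

end

/-! ### Dead gates -/

/-- Replacement of a gate that acts trivially on the state. -/
def deadGD (g : GD Q) : GD Q := ⟨g.T, ∅, 0⟩

section
variable {φ t : Q → QV}

theorem deadGD_K (g : GD Q) : (deadGD g).K φ t = bk g.T t t := by
  unfold GD.K gateK deadGD gz
  simp

theorem deadGD_good (g : GD Q) : (deadGD g).Good :=
  ⟨Finset.disjoint_empty_right _, Or.inl rfl⟩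

theorem deadGD_supp (g : GD Q) : (deadGD g).supp ⊆ g.supp := by
  unfold GD.supp deadGD
  simp

theorem one_gate_error {g : GD Q} (hg : g.Good) (hφ : ∀ q, QUnit (φ q)) (ht : ∀ q, QUnit (t q))
    {Y : Op Q} (hYL : Y ∈ Loc g.suppᶜ) (hY : ∀ v, ‖Y v‖ ≤ ‖v‖) {v : HS Q} (hv : ‖v‖ = 1) :
    ‖⟪v, (g.K φ t * Y) v⟫_ℂ - ⟪v, ((deadGD g).K φ t * Y) v⟫_ℂ‖ ≤ 4 * ‖bk g.R φ φ v‖ := by
  rw [deadGD_K]
  unfold GD.K gateK
  set G := gz g.c (g.T ∪ g.R) φ with hG
  set B := bk g.T t t with hB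
  have hGn : ∀ x, ‖G x‖ = ‖x‖ := gz_norm hg.2 fun q _ => hφ q
  have hBn : ∀ x, ‖B x‖ ≤ ‖x‖ := bk_norm_le ht
  have hGs : star G = G := star_gz hg.2 _ _
  have hGL : G ∈ Loc g.supp := gz_mem_Loc subset_rfl _ _
  have hGY : Commute G Y := Loc_commute disjoint_compl_right hGL hYL
  set δ := G v - v with hδ
  have hδv : G v = v + δ := by rw [hδ]; abel
  have e1 : ⟪v, (G * B * G * Y) v⟫_ℂ = ⟪G v, B (Y (G v))⟫_ℂ := by
    have h1 : (G * B * G * Y) = G * B * (Y * G) := by
      rw [mul_assoc (G * B), hGY.eq]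
    rw [h1]
    have h2 : (G * B * (Y * G)) v = G (B (Y (G v))) := rfl
    rw [h2, ← inner_star_left', hGs]
  have e2 : (B * Y) v = B (Y v) := rfl
  have e3 : ⟪G v, B (Y (G v))⟫_ℂ - ⟪v, B (Y v)⟫_ℂ = ⟪δ, B (Y (G v))⟫_ℂ + ⟪v, B (Y δ)⟫_ℂ := by
    have h4 : B (Y δ) = B (Y (G v)) - B (Y v) := by
      rw [hδ, map_sub, map_sub]
    rw [h4, inner_sub_right]
    have h5 : ∀ w, ⟪G v, w⟫_ℂ = ⟪v, w⟫_ℂ + ⟪δ, w⟫_ℂ := fun w => by
      rw [hδv, inner_add_left]
    rw [h5 (B (Y (G v)))]
    ring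
  rw [e1, e2, e3]
  have hδn : ‖δ‖ ≤ 2 * ‖bk g.R φ φ v‖ := by
    have hGv : G v = v - (2 * g.c) • bk (g.T ∪ g.R) φ φ v := rfl
    have h1 : δ = -((2 * g.c) • bk (g.T ∪ g.R) φ φ v) := by
      rw [hδ, hGv]; abel
    rw [h1, norm_neg, norm_smul, norm_mul]
    have h2 : ‖bk (g.T ∪ g.R) φ φ v‖ ≤ ‖bk g.R φ φ v‖ := by
      rw [bk_union hg.1, ContinuousLinearMap.mul_apply]
      exact bk_norm_le hφ _
    have h3 := c_norm_le hg.2
    have h4 : ‖(2 : ℂ)‖ = 2 := by norm_num
    rw [h4]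
    have h6 := norm_nonneg (bk (g.T ∪ g.R) φ φ v)
    have h7 := norm_nonneg (bk g.R φ φ v)
    nlinarith
  have h1 : ‖⟪δ, B (Y (G v))⟫_ℂ‖ ≤ ‖δ‖ := by
    refine (norm_inner_le_norm _ _).trans ?_
    have : ‖B (Y (G v))‖ ≤ 1 := by
      refine (hBn _).trans ((hY _).trans ?_)
      rw [hGn, hv]
    calc _ ≤ ‖δ‖ * 1 := mul_le_mul_of_nonneg_left this (norm_nonneg _)
      _ = _ := mul_one _
  have h2 : ‖⟪v, B (Y δ)⟫_ℂ‖ ≤ ‖δ‖ := by
    refine (norm_inner_le_norm _ _).trans ?_
    rw [hv, one_mul]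
    exact (hBn _).trans (hY _)
  have h3 := norm_add_le ⟪δ, B (Y (G v))⟫_ℂ ⟪v, B (Y δ)⟫_ℂ
  linarith

open Classical in
/-- Replace the gates satisfying a predicate. -/
noncomputable def dk (D : GD Q → Prop) (g : GD Q) : GD Q := if D g then deadGD g else g

theorem dk_supp (D : GD Q → Prop) (g : GD Q) : (dk D g).supp ⊆ g.supp := by
  unfold dk
  split_ifs
  · exact deadGD_supp g
  · exact subset_rfl

theorem sup2_dk (D : GD Q → Prop) (l : List (GD Q)) : sup2 (l.map (dk D)) ⊆ sup2 l := by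
  intro q hq
  obtain ⟨g, hg, hq'⟩ := sup2_mem.mp hq
  obtain ⟨h, hh, rfl⟩ := List.mem_map.mp hg
  exact sup2_mem.mpr ⟨h, hh, dk_supp D h hq'⟩

theorem dk_good (D : GD Q → Prop) {l : List (GD Q)} (hl : GoodList l) : GoodList (l.map (dk D)) := by
  constructor
  · intro g hg
    obtain ⟨h, hh, rfl⟩ := List.mem_map.mp hg
    unfold dk
    split_ifs
    · exact deadGD_good h
    · exact hl.1 h hh
  · rw [List.pairwise_map]
    exact hl.2.imp fun hd => Finset.disjoint_of_subset_left (dk_supp D _)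
      (Finset.disjoint_of_subset_right (dk_supp D _) hd)

open Classical in
theorem XX_dk_error (D : GD Q → Prop) {l : List (GD Q)} (hl : GoodList l) (hφ : ∀ q, QUnit (φ q))
    (ht : ∀ q, QUnit (t q)) {v : HS Q} (hv : ‖v‖ = 1) (Y : Op Q) (hYL : Y ∈ Loc (sup2 l)ᶜ)
    (hY : ∀ v, ‖Y v‖ ≤ ‖v‖) :
    ‖⟪v, (XX φ t l * Y) v⟫_ℂ - ⟪v, (XX φ t (l.map (dk D)) * Y) v⟫_ℂ‖
      ≤ (l.map fun g => if D g then 4 * ‖bk g.R φ φ v‖ else 0).sum := by
  induction l generalizing Y with
  | nil => simp [XX]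
  | cons g l ih =>
    have hl' := hl.tail
    have hg := hl.head
    have hd := hl.disj
    have hXL : XX φ t l ∈ Loc g.suppᶜ := Loc_compl_of_disjoint hd.symm (XX_mem_Loc φ t l)
    have hY1 : Y ∈ Loc g.suppᶜ :=
      Loc_compl_mono (fun q hq => by simp only [sup2]; exact Finset.mem_union_left _ hq) hYL
    have hY2 : Y ∈ Loc (sup2 l)ᶜ :=
      Loc_compl_mono (fun q hq => by simp only [sup2]; exact Finset.mem_union_right _ hq) hYL
    set g' := dk D g with hg'
    have hg'good : g'.Good := by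
      rw [hg']; unfold dk
      split_ifs
      · exact deadGD_good g
      · exact hg
    have hg'L : g'.K φ t ∈ Loc g.supp := Loc_mono (dk_supp D g) (K_mem_Loc φ t g')
    have hg'L2 : g'.K φ t ∈ Loc (sup2 l)ᶜ := Loc_compl_of_disjoint hd hg'L
    have hcomm1 : Commute (g'.K φ t) (XX φ t l) :=
      Loc_commute hd hg'L (XX_mem_Loc φ t l)
    have hcomm2 : Commute (g'.K φ t) (XX φ t (l.map (dk D))) :=
      Loc_commute (Finset.disjoint_of_subset_right (sup2_dk D l) hd) hg'L (XX_mem_Loc φ t _)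
    have e1 : (XX φ t (g :: l) * Y) = g.K φ t * (XX φ t l * Y) := by
      show g.K φ t * XX φ t l * Y = _
      rw [mul_assoc]
    have e2 : (XX φ t (dk D g :: l.map (dk D)) * Y) = XX φ t (l.map (dk D)) * (g'.K φ t * Y) := by
      show g'.K φ t * XX φ t (l.map (dk D)) * Y = _
      rw [hcomm2.eq, mul_assoc]
    have e3 : g'.K φ t * (XX φ t l * Y) = XX φ t l * (g'.K φ t * Y) := by
      rw [← mul_assoc, hcomm1.eq, mul_assoc]
    have hY' : ∀ v, ‖(g'.K φ t * Y) v‖ ≤ ‖v‖ := fun w =>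
      (K_norm_le hg'good hφ ht _).trans (hY w)
    have hih := ih hl' (g'.K φ t * Y) (mul_mem_Loc hg'L2 hY2) hY'
    have hfirst : ‖⟪v, (g.K φ t * (XX φ t l * Y)) v⟫_ℂ - ⟪v, (g'.K φ t * (XX φ t l * Y)) v⟫_ℂ‖
        ≤ if D g then 4 * ‖bk g.R φ φ v‖ else 0 := by
      by_cases hDg : D g
      · rw [if_pos hDg]
        have : g' = deadGD g := by rw [hg']; unfold dk; rw [if_pos hDg]
        rw [this]
        refine one_gate_error hg hφ ht (mul_mem_Loc hXL hY1) (fun w => ?_) hv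
        exact (XX_norm_le hl' hφ ht _).trans (hY w)
      · rw [if_neg hDg]
        have : g' = g := by rw [hg']; unfold dk; rw [if_neg hDg]
        rw [this]
        simp
    simp only [List.map_cons, List.sum_cons]
    rw [e1, e2]
    have hsplit : ⟪v, (g.K φ t * (XX φ t l * Y)) v⟫_ℂ - ⟪v, (XX φ t (l.map (dk D)) * (g'.K φ t * Y)) v⟫_ℂ
        = (⟪v, (g.K φ t * (XX φ t l * Y)) v⟫_ℂ - ⟪v, (g'.K φ t * (XX φ t l * Y)) v⟫_ℂ)
          + (⟪v, (XX φ t l * (g'.K φ t * Y)) v⟫_ℂ - ⟪v, (XX φ t (l.map (dk D)) * (g'.K φ t * Y)) v⟫_ℂ) := by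
      rw [e3]; ring
    rw [hsplit]
    exact (norm_add_le _ _).trans (add_le_add hfirst hih)

end

section
variable {u : Q → Bool → QV}

theorem uAvg_list_sum {α : Type*} (A : List Q) (l : List α) (h : α → (Q → QV) → ℝ) (a : Q → QV) :
    uAvg u A (fun a' => (l.map fun g => h g a').sum) a = (l.map fun g => uAvg u A (h g) a).sum := by
  induction l with
  | nil => simp [uAvg_const]
  | cons g l ih =>
    simp only [List.map_cons, List.sum_cons]
    rw [uAvg_add, ih]

end

/-! ### Budgets -/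

section
variable {a : Q → QV}

theorem budget_flags (ha : ∀ q, QUnit (a q)) (Es : List (Finset Q)) (hEs : Es.Pairwise Disjoint)
    (F0 : Finset Q) : pr a F0 * (1 + (Es.map fun E => 1 - pr a (F0 ∩ E)).sum) ≤ 1 := by
  induction Es generalizing F0 with
  | nil => simpa using pr_le_one ha F0
  | cons E Es ih =>
    have hE := (List.pairwise_cons.mp hEs).1
    have hEs' := (List.pairwise_cons.mp hEs).2
    set F1 := F0 ∩ E with hF1
    set F2 := F0 \ E with hF2
    have hd : Disjoint F2 F1 := Finset.disjoint_sdiff_inter _ _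
    have hU : F2 ∪ F1 = F0 := Finset.sdiff_union_inter _ _
    have hpr : pr a F0 = pr a F2 * pr a F1 := by rw [← hU, pr_union hd]
    have hmap : (Es.map fun E' => 1 - pr a (F0 ∩ E')) = (Es.map fun E' => 1 - pr a (F2 ∩ E')) := by
      refine List.map_congr_left fun E' hE' => ?_
      have : F0 ∩ E' = F2 ∩ E' := by
        ext q
        simp only [hF2, Finset.mem_inter, Finset.mem_sdiff]
        constructor
        · rintro ⟨h1, h2⟩
          exact ⟨⟨h1, fun h3 => Finset.disjoint_left.mp (hE E' hE') h3 h2⟩, h2⟩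
        · rintro ⟨⟨h1, _⟩, h2⟩
          exact ⟨h1, h2⟩
      rw [this]
    have hih := ih hEs' F2
    simp only [List.map_cons, List.sum_cons]
    rw [hmap, hpr]
    set s := (Es.map fun E' => 1 - pr a (F2 ∩ E')).sum with hs
    set P2 := pr a F2
    set P1 := pr a F1
    have h1 : 0 ≤ P1 := pr_nonneg _ _
    have h2 : P1 ≤ 1 := pr_le_one ha _
    have h3 : 0 ≤ P2 := pr_nonneg _ _
    have h4 : P2 ≤ 1 := pr_le_one ha _
    have h5 : P2 * (1 + s) ≤ 1 := hih
    have e : P2 * P1 * (1 + (1 - P1 + s)) = P1 * (P2 * (1 + s) + (1 - P1) * P2) := by ring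
    rw [e]
    have h6 : P2 * (1 + s) + (1 - P1) * P2 ≤ 1 + (1 - P1) := by
      have : (1 - P1) * P2 ≤ (1 - P1) * 1 := mul_le_mul_of_nonneg_left h4 (by linarith)
      linarith
    have h7 : P1 * (P2 * (1 + s) + (1 - P1) * P2) ≤ P1 * (1 + (1 - P1)) :=
      mul_le_mul_of_nonneg_left h6 h1
    nlinarith [sq_nonneg (1 - P1)]

theorem budget_ind (Es : List (Finset Q)) (hEs : Es.Pairwise Disjoint) (i : Q) :
    (Es.map fun E => (if i ∈ E then (1 : ℝ) else 0)).sum ≤ 1 := by
  induction Es with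
  | nil => simp
  | cons E Es ih =>
    have hE := (List.pairwise_cons.mp hEs).1
    have hEs' := (List.pairwise_cons.mp hEs).2
    simp only [List.map_cons, List.sum_cons]
    by_cases h : i ∈ E
    · have hz : (Es.map fun E => (if i ∈ E then (1 : ℝ) else 0)) = Es.map fun _ => (0 : ℝ) := by
        refine List.map_congr_left fun E' hE' => ?_
        have : i ∉ E' := fun h' => Finset.disjoint_left.mp (hE E' hE') h h'
        simp [this]
      rw [hz, if_pos h]
      simp
    · rw [if_neg h, zero_add]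
      exact ih hEs'

/-- The budget of a party on pairwise disjoint sets. -/
theorem budget_Lam0 (ha : ∀ q, QUnit (a q)) (Es : List (Finset Q)) (hEs : Es.Pairwise Disjoint)
    (F0 : Finset Q) (i : Q) : (Es.map fun E => Lam0 a F0 E i).sum ≤ 2 := by
  have h1 := budget_flags ha Es hEs F0
  have h2 := budget_ind Es hEs i
  have e : (Es.map fun E => Lam0 a F0 E i).sum
      = pr a F0 * (Es.map fun E => 1 - pr a (F0 ∩ E)).sum
        + (Es.map fun E => (if i ∈ E then (1 : ℝ) else 0)).sum := by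
    clear h1 h2 hEs
    induction Es with
    | nil => simp
    | cons E Es ih =>
      simp only [List.map_cons, List.sum_cons, ih]
      unfold Lam0
      ring
  rw [e]
  have h3 := pr_nonneg a F0
  have h4 : pr a F0 * (List.map (fun E => 1 - pr a (F0 ∩ E)) Es).sum ≤ 1 := by
    have : pr a F0 * (1 + (List.map (fun E => 1 - pr a (F0 ∩ E)) Es).sum)
      = pr a F0 + pr a F0 * (List.map (fun E => 1 - pr a (F0 ∩ E)) Es).sum := by ring
    linarith
  linarith

/-- Subadditivity of the load. -/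
theorem Lam0_union_le (ha : ∀ q, QUnit (a q)) (F0 : Finset Q) {T R : Finset Q} (hd : Disjoint T R)
    (i : Q) : Lam0 a F0 (T ∪ R) i ≤ Lam0 a F0 T i + Lam0 a F0 R i := by
  unfold Lam0
  have e : F0 ∩ (T ∪ R) = (F0 ∩ T) ∪ (F0 ∩ R) := Finset.inter_union_distrib_left _ _ _
  have hd' : Disjoint (F0 ∩ T) (F0 ∩ R) :=
    Finset.disjoint_of_subset_left Finset.inter_subset_right
      (Finset.disjoint_of_subset_right Finset.inter_subset_right hd)
  rw [e, pr_union hd']
  have h1 := pr_nonneg a (F0 ∩ T)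
  have h2 := pr_le_one ha (F0 ∩ T)
  have h3 := pr_nonneg a (F0 ∩ R)
  have h4 := pr_le_one ha (F0 ∩ R)
  have h5 := pr_nonneg a F0
  have h6 : pr a F0 * (1 - pr a (F0 ∩ T) * pr a (F0 ∩ R))
      ≤ pr a F0 * (1 - pr a (F0 ∩ T)) + pr a F0 * (1 - pr a (F0 ∩ R)) := by
    rw [← mul_add]
    refine mul_le_mul_of_nonneg_left ?_ h5
    nlinarith [mul_nonneg (sub_nonneg.mpr h2) (sub_nonneg.mpr h4)]
  by_cases hT : i ∈ T <;> by_cases hR : i ∈ R <;> simp only [Finset.mem_union, hT, hR, true_or, or_true, or_false, if_true, if_false] <;> linarith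

/-- Load is monotone in the flags through the probability only. -/
theorem Load_nonneg {F : Q → Finset Q} (ha : ∀ q, QUnit (a q)) (A : List Q) (E : Finset Q) :
    0 ≤ Load a F A E :=
  List.sum_nonneg fun x hx => by
    obtain ⟨k, _, rfl⟩ := List.mem_map.mp hx
    exact Lam_nonneg ha F E k

theorem Load_union_le {F : Q → Finset Q} (ha : ∀ q, QUnit (a q)) (A : List Q) {T R : Finset Q}
    (hd : Disjoint T R) : Load a F A (T ∪ R) ≤ Load a F A T + Load a F A R := by
  unfold Load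
  induction A with
  | nil => simp
  | cons i A ih =>
    simp only [List.map_cons, List.sum_cons]
    have := Lam0_union_le ha (F i) hd i
    unfold Lam
    unfold Lam at ih
    linarith

/-- The total load of a family of disjoint sets is at most twice the number of parties. -/
theorem budget_total {F : Q → Finset Q} (ha : ∀ q, QUnit (a q)) (A : List Q) (Es : List (Finset Q))
    (hEs : Es.Pairwise Disjoint) : (Es.map (Load a F A)).sum ≤ 2 * A.length := by
  induction A with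
  | nil =>
    simp only [List.length_nil, Nat.cast_zero, mul_zero]
    unfold Load
    simp
  | cons i A ih =>
    have e : (Es.map (Load a F (i :: A))).sum
        = (Es.map fun E => Lam0 a (F i) E i).sum + (Es.map (Load a F A)).sum := by
      clear ih
      induction Es with
      | nil => simp
      | cons E Es ih2 =>
        simp only [List.map_cons, List.sum_cons]
        rw [ih2 (List.pairwise_cons.mp hEs).2]
        unfold Load
        simp only [List.map_cons, List.sum_cons]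
        unfold Lam
        ring
    rw [e]
    have h1 := budget_Lam0 ha Es hEs (F i) i
    simp only [List.length_cons, Nat.cast_add, Nat.cast_one]
    linarith

end

/-! ### The averaged dead gate bound -/

section
variable {u : Q → Bool → QV} {F : Q → Finset Q} {c : Q → ℂ} {Z : Op Q} {A : List Q}
  {φ t : Q → QV} {l : List (GD Q)}

/-- The predicate of dead gates. -/
def DeadP (a : Q → QV) (F : Q → Finset Q) (A : List Q) (L : ℝ) (g : GD Q) : Prop :=
  L ≤ Load a F A g.R

theorem R_pairwise {l : List (GD Q)} (hl : GoodList l) : (l.map GD.R).Pairwise Disjoint := by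
  rw [List.pairwise_map]
  refine hl.2.imp fun {g h} hd => ?_
  exact Finset.disjoint_of_subset_left Finset.subset_union_right
    (Finset.disjoint_of_subset_right Finset.subset_union_right hd)

open Classical in
theorem dead_bound (S : PS u F c Z A) (hφ : ∀ q, QUnit (φ q)) (ht : ∀ q, QUnit (t q))
    (hl : GoodList l) {a : Q → QV} (ha : ∀ q, QUnit (a q)) {L : ℝ} (hL : 0 < L) :
    ‖sgnAvg u A (fX F c Z A (XX φ t l)) a
      - sgnAvg u A (fX F c Z A (XX φ t (l.map (dk (DeadP a F A L))))) a‖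
      ≤ 8 * A.length / L * Real.exp (-L / 8) := by
  refine (norm_sgnAvg_sub_le u A _ _ a).trans ?_
  have hC := closed_unit S.hu A
  set D := DeadP a F A L with hD
  have h1 : uAvg u A (fun a' => ‖fX F c Z A (XX φ t l) a' - fX F c Z A (XX φ t (l.map (dk D))) a'‖) a
      ≤ uAvg u A (fun a' => (l.map fun g => if D g then 4 * ‖bk g.R φ φ (Psi F c Z A a')‖ else 0).sum) a := by
    refine uAvg_mono u A hC (fun a' ha' => ?_) a ha
    have := XX_dk_error D hl hφ ht (Psi_norm S ha') 1 (one_mem_Loc _) (fun v => by simp)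
    simpa [fX] using this
  refine h1.trans ?_
  rw [uAvg_list_sum]
  have h2 : ∀ g ∈ l, uAvg u A (fun a' => if D g then 4 * ‖bk g.R φ φ (Psi F c Z A a')‖ else 0) a
      ≤ 4 * Real.exp (-L / 8) / L * Load a F A g.R := by
    intro g _
    have hnn : 0 ≤ 4 * Real.exp (-L / 8) / L := by positivity
    by_cases hDg : D g
    · simp only [if_pos hDg]
      rw [uAvg_mul_left]
      have h3 := deficit_exp_sqrt S hφ g.R ha
      have h4 : Real.exp (-Load a F A g.R / 8) ≤ Real.exp (-L / 8) := by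
        apply Real.exp_le_exp.mpr
        have : L ≤ Load a F A g.R := hDg
        linarith
      have h5 : (1 : ℝ) ≤ Load a F A g.R / L := by
        rw [le_div_iff₀ hL]
        have : L ≤ Load a F A g.R := hDg
        linarith
      calc 4 * uAvg u A (fun a' => ‖bk g.R φ φ (Psi F c Z A a')‖) a
          ≤ 4 * Real.exp (-L / 8) := by linarith
        _ = 4 * Real.exp (-L / 8) * 1 := by ring
        _ ≤ 4 * Real.exp (-L / 8) * (Load a F A g.R / L) :=
            mul_le_mul_of_nonneg_left h5 (by positivity)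
        _ = _ := by ring
    · simp only [if_neg hDg]
      rw [uAvg_const]
      exact mul_nonneg hnn (Load_nonneg ha A _)
  have h3 : (l.map fun g => uAvg u A (fun a' => if D g then 4 * ‖bk g.R φ φ (Psi F c Z A a')‖ else 0) a).sum
      ≤ (l.map fun g => 4 * Real.exp (-L / 8) / L * Load a F A g.R).sum :=
    List.sum_le_sum h2
  refine h3.trans ?_
  have h4 : (l.map fun g => 4 * Real.exp (-L / 8) / L * Load a F A g.R).sum
      = 4 * Real.exp (-L / 8) / L * ((l.map GD.R).map (Load a F A)).sum := by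
    rw [List.map_map]
    clear h2 h3 h1
    induction l with
    | nil => simp
    | cons g l ih =>
      simp only [List.map_cons, List.sum_cons, Function.comp]
      rw [ih hl.tail, mul_add]
  rw [h4]
  have h5 := budget_total (F := F) ha A (l.map GD.R) (R_pairwise hl)
  have hnn : 0 ≤ 4 * Real.exp (-L / 8) / L := by positivity
  calc _ ≤ 4 * Real.exp (-L / 8) / L * (2 * A.length) := mul_le_mul_of_nonneg_left h5 hnn
    _ = _ := by ring

end

end Vale.Agent.Lib.P368
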