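import Mathlib
import Vale.Agent.Lib.P368.Kill

/-!
# Selecting parties with small pairwise collisions
-/

set_option linter.unusedSectionVars false
set_option linter.unusedVariables false
set_option linter.unusedSimpArgs false
set_option linter.deprecated false
set_option linter.unusedTactic false
set_option linter.unreachableTactic false

namespace Vale.Agent.Lib.P368

open scoped BigOperators InnerProductSpace ComplexConjugate

/-- The greedy step. -/
theorem greedy {ι : Type*} [DecidableEq ι] (y : ι → ι → ℝ) (hy0 : ∀ i k, 0 ≤ y i k)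
    (hsym : ∀ i k, y i k = y k i) {ε M : ℝ} (hε : 0 < ε) (hM : 0 ≤ M) (P : Finset ι)
    (hP : ∀ i ∈ P, ∑ k ∈ P, y i k ≤ M * ε) (m : ℕ) :
    ∀ S : Finset ι, S ⊆ P → (m : ℝ) * (M + 1) ≤ S.card →
      ∃ B : Finset ι, B ⊆ S ∧ B.card = m ∧ ∀ i ∈ B, ∀ k ∈ B, i ≠ k → y i k ≤ ε := by
  induction m with
  | zero =>
    intro S _ _
    exact ⟨∅, by simp, by simp, by simp⟩
  | succ m ih =>
    intro S hS hcard
    have hpos : (0 : ℝ) < S.card := by
      have h1 : (0 : ℝ) < ((m + 1 : ℕ) : ℝ) * (M + 1) := by positivity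
      linarith
    have hne : S.Nonempty := by
      rw [← Finset.card_pos]
      exact_mod_cast hpos
    obtain ⟨i, hi⟩ := hne
    set Bad := S.filter fun k => ε < y i k with hBad
    have hBadc : (Bad.card : ℝ) ≤ M := by
      have h1 : (Bad.card : ℝ) * ε ≤ ∑ k ∈ Bad, y i k := by
        have := Finset.card_nsmul_le_sum Bad (fun k => y i k) ε (fun k hk => (Finset.mem_filter.mp hk).2.le)
        simpa [nsmul_eq_mul] using this
      have h2 : ∑ k ∈ Bad, y i k ≤ ∑ k ∈ P, y i k :=
        Finset.sum_le_sum_of_subset_of_nonneg ((Finset.filter_subset _ _).trans hS)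
          fun k _ _ => hy0 i k
      have h3 := hP i (hS hi)
      have h4 : (Bad.card : ℝ) * ε ≤ M * ε := by linarith
      exact le_of_mul_le_mul_right h4 hε
    set S' := S \ (insert i Bad) with hS'
    have hcard' : (m : ℝ) * (M + 1) ≤ S'.card := by
      have h1 : S.card ≤ S'.card + (insert i Bad).card := by
        have := Finset.card_le_card_sdiff_add_card (s := S) (t := insert i Bad)
        exact this
      have h2 : (insert i Bad).card ≤ Bad.card + 1 := Finset.card_insert_le _ _
      have h3 : (S.card : ℝ) ≤ S'.card + (Bad.card + 1) := by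
        have : S.card ≤ S'.card + (Bad.card + 1) := by omega
        exact_mod_cast this
      push_cast at hcard
      nlinarith
    obtain ⟨B, hB, hBc, hBp⟩ := ih S' (Finset.sdiff_subset.trans hS) hcard'
    have hiB : i ∉ B := fun h => by
      have := hB h
      rw [hS', Finset.mem_sdiff] at this
      exact this.2 (Finset.mem_insert_self _ _)
    refine ⟨insert i B, ?_, ?_, ?_⟩
    · intro q hq
      rcases Finset.mem_insert.mp hq with rfl | hq
      · exact hi
      · exact Finset.sdiff_subset (hB hq)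
    · rw [Finset.card_insert_of_notMem hiB, hBc]
    · have hgood : ∀ k ∈ B, y i k ≤ ε := by
        intro k hk
        have h1 := hB hk
        rw [hS', Finset.mem_sdiff, Finset.mem_insert, not_or] at h1
        by_contra h
        push Not at h
        exact h1.2.2 (Finset.mem_filter.mpr ⟨h1.1, h⟩)
      intro j hj k hk hjk
      rcases Finset.mem_insert.mp hj with rfl | hj'
      · rcases Finset.mem_insert.mp hk with rfl | hk'
        · exact absurd rfl hjk
        · exact hgood k hk'
      · rcases Finset.mem_insert.mp hk with rfl | hk'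
        · rw [hsym]; exact hgood j hj'
        · exact hBp j hj' k hk' hjk

/-- Selection from a total bound. -/
theorem select_pairs {ι : Type*} [DecidableEq ι] (y : ι → ι → ℝ) (hy0 : ∀ i k, 0 ≤ y i k)
    (hsym : ∀ i k, y i k = y k i) (P : Finset ι) {L ε : ℝ} (hL : 0 < L) (hε : 0 < ε)
    (htotal : ∑ i ∈ P, ∑ k ∈ P, y i k ≤ 4 * L * P.card) (m : ℕ)
    (hm : (m : ℝ) * (8 * L / ε + 1) ≤ (P.card : ℝ) / 2) :
    ∃ B : Finset ι, B ⊆ P ∧ B.card = m ∧ ∀ i ∈ B, ∀ k ∈ B, i ≠ k → y i k ≤ ε := by
  set Gd := P.filter fun i => ∑ k ∈ P, y i k ≤ 8 * L with hGd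
  set Bd := P.filter fun i => ¬ ∑ k ∈ P, y i k ≤ 8 * L with hBd
  have hsum : Gd.card + Bd.card = P.card := Finset.card_filter_add_card_filter_not _
  have hBdc : (Bd.card : ℝ) ≤ (P.card : ℝ) / 2 := by
    have h1 : (Bd.card : ℝ) * (8 * L) ≤ ∑ i ∈ Bd, ∑ k ∈ P, y i k := by
      have := Finset.card_nsmul_le_sum Bd (fun i => ∑ k ∈ P, y i k) (8 * L)
        (fun i hi => by
          have := (Finset.mem_filter.mp hi).2
          push Not at this
          exact this.le)
      simpa [nsmul_eq_mul] using this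
    have h2 : ∑ i ∈ Bd, ∑ k ∈ P, y i k ≤ ∑ i ∈ P, ∑ k ∈ P, y i k :=
      Finset.sum_le_sum_of_subset_of_nonneg (Finset.filter_subset _ _)
        fun i _ _ => Finset.sum_nonneg fun k _ => hy0 i k
    have h3 : (Bd.card : ℝ) * (8 * L) ≤ 4 * L * P.card := by linarith
    have h4 : (Bd.card : ℝ) * (8 * L) ≤ ((P.card : ℝ) / 2) * (8 * L) := by
      calc _ ≤ 4 * L * (P.card : ℝ) := h3
        _ = _ := by ring
    exact le_of_mul_le_mul_right h4 (by positivity)
  have hGdc : (P.card : ℝ) / 2 ≤ Gd.card := by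
    have : (P.card : ℝ) = Gd.card + Bd.card := by exact_mod_cast hsum.symm
    linarith
  have hM : 0 ≤ 8 * L / ε := by positivity
  have hP : ∀ i ∈ Gd, ∑ k ∈ Gd, y i k ≤ (8 * L / ε) * ε := by
    intro i hi
    rw [div_mul_cancel₀ _ hε.ne']
    refine le_trans ?_ (Finset.mem_filter.mp hi).2
    exact Finset.sum_le_sum_of_subset_of_nonneg (Finset.filter_subset _ _) fun k _ _ => hy0 i k
  obtain ⟨B, hB, hBc, hBp⟩ := greedy y hy0 hsym hε hM Gd hP m Gd subset_rfl (hm.trans hGdc)
  exact ⟨B, hB.trans (Finset.filter_subset _ _), hBc, hBp⟩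

end Vale.Agent.Lib.P368
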