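import Mathlib
import Vale.Agent.Lib.P368.Select

/-!
# Permutations, restriction and the partition of the gates
-/

set_option linter.unusedSectionVars false
set_option linter.unusedVariables false
set_option linter.unusedSimpArgs false
set_option linter.deprecated false
set_option linter.unusedTactic false
set_option linter.unreachableTactic false

namespace Vale.Agent.Lib.P368

open scoped BigOperators InnerProductSpace ComplexConjugate

variable {Q : Type} [Fintype Q] [DecidableEq Q]

theorem sgnAvg_perm (u : Q → Bool → QV) {l l' : List Q} (h : l.Perm l') (hnd : l.Nodup)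
    (f : (Q → QV) → ℂ) (a : Q → QV) : sgnAvg u l f a = sgnAvg u l' f a := by
  induction h generalizing a with
  | nil => rfl
  | cons x _ ih =>
    simp only [sgnAvg]
    have hnd' := (List.nodup_cons.mp hnd).2
    rw [ih hnd', ih hnd']
  | swap x y l =>
    have hxy : y ≠ x := by
      intro h
      subst h
      simp at hnd
    simp only [sgnAvg]
    rw [Function.update_comm hxy, Function.update_comm hxy, Function.update_comm hxy,
      Function.update_comm hxy]
    ring
  | trans h1 _ ih1 ih2 =>
    rw [ih1 hnd, ih2 (h1.nodup_iff.mp hnd)]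

theorem sgnAvg_restrict (u : Q → Bool → QV) (r B : List Q) {C : (Q → QV) → Prop} (hC : Closed u r C)
    (f : (Q → QV) → ℂ) {X : ℝ} (hX : ∀ a', C a' → ‖sgnAvg u B f a'‖ ≤ X) (a : Q → QV) (ha : C a) :
    ‖sgnAvg u (r ++ B) f a‖ ≤ X := by
  induction r generalizing a with
  | nil => exact hX a ha
  | cons q r ih =>
    exact sgnAvg_bound_cons u q (r ++ B) f a (ih hC.tail _ (hC a ha q (by simp) false))
      (ih hC.tail _ (hC a ha q (by simp) true))

/-! ### Products of party gates -/

theorem PG_append (F : Q → Finset Q) (c : Q → ℂ) (l1 l2 : List Q) :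
    PG F c (l1 ++ l2) = PG F c l1 * PG F c l2 := by
  unfold PG
  rw [List.map_append, List.prod_append]

theorem PG_perm {F : Q → Finset Q} {c : Q → ℂ} {l l' : List Q} (h : l.Perm l') (hnd : l.Nodup)
    (hqs : ∀ i ∈ l, ∀ k ∈ l, i ≠ k → Disjoint (qsOf F i) (qsOf F k)) : PG F c l = PG F c l' := by
  unfold PG
  refine (h.map _).prod_eq' ?_
  rw [List.pairwise_map]
  refine List.Pairwise.imp_of_mem (fun {i k} hi hk hne => ?_) hnd
  exact Loc_commute (hqs i hi k hk hne) (Gi_mem F c i) (Gi_mem F c k)

/-! ### Partition of the gates -/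

section
variable {φ t : Q → QV}

theorem XX_filter_partition {l : List (GD Q)} (hl : GoodList l) (p : GD Q → Bool) :
    XX φ t l = XX φ t (l.filter p) * XX φ t (l.filter fun g => !p g) := by
  induction l with
  | nil => simp [XX]
  | cons g l ih =>
    have hih := ih hl.tail
    have hd := hl.disj
    by_cases hp : p g = true
    · have e1 : (g :: l).filter p = g :: l.filter p := List.filter_cons_of_pos hp
      have e2 : (g :: l).filter (fun g => !p g) = l.filter fun g => !p g :=
        List.filter_cons_of_neg (by simp [hp])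
      rw [e1, e2]
      show g.K φ t * XX φ t l = g.K φ t * XX φ t (l.filter p) * _
      rw [hih, mul_assoc]
    · have e1 : (g :: l).filter p = l.filter p := List.filter_cons_of_neg hp
      have e2 : (g :: l).filter (fun g => !p g) = g :: l.filter fun g => !p g :=
        List.filter_cons_of_pos (by simpa using hp)
      rw [e1, e2]
      show g.K φ t * XX φ t l = _ * (g.K φ t * XX φ t (l.filter fun g => !p g))
      have hsub : sup2 (l.filter p) ⊆ sup2 l := by
        intro q hq
        obtain ⟨h, hh, hq'⟩ := sup2_mem.mp hq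
        exact sup2_mem.mpr ⟨h, (List.mem_filter.mp hh).1, hq'⟩
      have hc : Commute (g.K φ t) (XX φ t (l.filter p)) :=
        Loc_commute (Finset.disjoint_of_subset_right hsub hd) (K_mem_Loc φ t g) (XX_mem_Loc φ t _)
      rw [hih, ← mul_assoc, ← mul_assoc, hc.eq]

theorem GoodList.filter {l : List (GD Q)} (hl : GoodList l) (p : GD Q → Bool) : GoodList (l.filter p) :=
  ⟨fun g hg => hl.1 g (List.mem_filter.mp hg).1, hl.2.filter p⟩

/-- The gates containing qubit `i`. -/
def sel (i : Q) (l : List (GD Q)) : List (GD Q) := l.filter fun g => decide (i ∈ g.supp)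

/-- The gates containing no qubit of the list. -/
def restG (B : List Q) (l : List (GD Q)) : List (GD Q) := l.filter fun g => decide (∀ i ∈ B, i ∉ g.supp)

/-- The projector attached to a qubit. -/
noncomputable def KeOf (φ t : Q → QV) (l : List (GD Q)) (i : Q) : Op Q := XX φ t (sel i l)

/-- The qubits of the gates containing a qubit. -/
def SeOf (l : List (GD Q)) (i : Q) : Finset Q := sup2 (sel i l)

theorem XX_partition {l : List (GD Q)} (hl : GoodList l) (B : List Q) (hnd : B.Nodup)
    (hno : ∀ g ∈ l, ∀ i ∈ B, ∀ k ∈ B, i ≠ k → i ∈ g.supp → k ∉ g.supp) :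
    XX φ t l = PK (KeOf φ t l) B * XX φ t (restG B l) := by
  induction B generalizing l with
  | nil =>
    simp [PK, restG]
  | cons i B ih =>
    have hiB : i ∉ B := (List.nodup_cons.mp hnd).1
    have hnd' := (List.nodup_cons.mp hnd).2
    have h1 := XX_filter_partition (φ := φ) (t := t) hl (fun g => decide (i ∈ g.supp))
    set l' := l.filter (fun g => !decide (i ∈ g.supp)) with hl'
    have hgood' : GoodList l' := hl.filter _
    have hno' : ∀ g ∈ l', ∀ j ∈ B, ∀ k ∈ B, j ≠ k → j ∈ g.supp → k ∉ g.supp :=
      fun g hg j hj k hk => hno g (List.mem_filter.mp hg).1 j (by simp [hj]) k (by simp [hk])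
    have h2 := ih hgood' hnd' hno'
    have e1 : ∀ k ∈ B, KeOf φ t l' k = KeOf φ t l k := by
      intro k hk
      have hne : i ≠ k := fun h => hiB (h ▸ hk)
      unfold KeOf sel
      rw [hl', List.filter_filter]
      congr 1
      refine List.filter_congr fun g hg => ?_
      by_cases hkg : k ∈ g.supp
      · have hig : i ∉ g.supp := fun h => hno g hg i (by simp) k (by simp [hk]) hne h hkg
        simp [hkg, hig]
      · simp [hkg]
    have e2 : restG B l' = restG (i :: B) l := by
      unfold restG
      rw [hl', List.filter_filter]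
      refine List.filter_congr fun g _ => ?_
      by_cases hig : i ∈ g.supp <;> simp [hig]
    have e3 : PK (KeOf φ t l') B = PK (KeOf φ t l) B := by
      unfold PK
      congr 1
      exact List.map_congr_left e1
    rw [e3, e2] at h2
    rw [h1, h2]
    show XX φ t (l.filter fun g => decide (i ∈ g.supp)) * (PK (KeOf φ t l) B * XX φ t (restG (i :: B) l))
      = (KeOf φ t l i * PK (KeOf φ t l) B) * XX φ t (restG (i :: B) l)
    rw [mul_assoc]
    rfl

theorem good_unique {l : List (GD Q)} (hl : GoodList l) {g h : GD Q} (hg : g ∈ l) (hh : h ∈ l) {q : Q}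
    (hqg : q ∈ g.supp) (hqh : q ∈ h.supp) : g = h := by
  by_contra hne
  haveI : Std.Symm (fun g h : GD Q => Disjoint g.supp h.supp) := ⟨fun _ _ hd => hd.symm⟩
  have := hl.2.forall hg hh hne
  exact Finset.disjoint_left.mp this hqg hqh

theorem sup2_filter_mem {l : List (GD Q)} {p : GD Q → Bool} {q : Q} :
    q ∈ sup2 (l.filter p) ↔ ∃ g ∈ l, p g = true ∧ q ∈ g.supp := by
  rw [sup2_mem]
  constructor
  · rintro ⟨g, hg, hq⟩
    exact ⟨g, (List.mem_filter.mp hg).1, (List.mem_filter.mp hg).2, hq⟩
  · rintro ⟨g, hg, hp, hq⟩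
    exact ⟨g, List.mem_filter.mpr ⟨hg, hp⟩, hq⟩

end

end Vale.Agent.Lib.P368
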