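import Mathlib
import Vale.Agent.Lib.P368.Restrict

/-!
# Preprocessing the flags of the selected parties
-/

set_option linter.unusedSectionVars false
set_option linter.unusedVariables false
set_option linter.unusedSimpArgs false
set_option linter.deprecated false
set_option linter.unusedTactic false
set_option linter.unreachableTactic false

namespace Vale.Agent.Lib.P368

open scoped BigOperators InnerProductSpace ComplexConjugate

variable {Q : Type} [Fintype Q] [DecidableEq Q]

/-- The collision between two parties. -/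
noncomputable def yy (a : Q → QV) (F : Q → Finset Q) (l : List (GD Q)) (i k : Q) : ℝ :=
  (l.map fun g => Lam a F g.supp i * Lam a F g.supp k).sum

theorem yy_nonneg {a : Q → QV} (ha : ∀ q, QUnit (a q)) (F : Q → Finset Q) (l : List (GD Q)) (i k : Q) :
    0 ≤ yy a F l i k :=
  List.sum_nonneg fun x hx => by
    obtain ⟨g, _, rfl⟩ := List.mem_map.mp hx
    exact mul_nonneg (Lam_nonneg ha F _ _) (Lam_nonneg ha F _ _)

theorem yy_symm (a : Q → QV) (F : Q → Finset Q) (l : List (GD Q)) (i k : Q) :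
    yy a F l i k = yy a F l k i := by
  unfold yy
  congr 1
  exact List.map_congr_left fun g _ => mul_comm _ _

theorem Lam_ge_one {a : Q → QV} (ha : ∀ q, QUnit (a q)) (F : Q → Finset Q) {E : Finset Q} {i : Q}
    (hi : i ∈ E) : 1 ≤ Lam a F E i := by
  unfold Lam Lam0
  rw [if_pos hi]
  have := mul_nonneg (pr_nonneg a (F i)) (pr_sub_one_nonneg ha (F i ∩ E))
  linarith

theorem Lam_ge_flags {a : Q → QV} (F : Q → Finset Q) (E : Finset Q) (i : Q) :
    pr a (F i) * (1 - pr a (F i ∩ E)) ≤ Lam a F E i := by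
  unfold Lam Lam0
  split_ifs <;> linarith

theorem no_two {a : Q → QV} (ha : ∀ q, QUnit (a q)) {F : Q → Finset Q} {l : List (GD Q)} {ε : ℝ}
    (hε : ε < 1) {B : List Q} (hy : ∀ i ∈ B, ∀ k ∈ B, i ≠ k → yy a F l i k ≤ ε) :
    ∀ g ∈ l, ∀ i ∈ B, ∀ k ∈ B, i ≠ k → i ∈ g.supp → k ∉ g.supp := by
  intro g hg i hi k hk hne hig hkg
  have h1 := hy i hi k hk hne
  have h2 := list_term_le_sum l (fun g => Lam a F g.supp i * Lam a F g.supp k)
    (fun g => mul_nonneg (Lam_nonneg ha F _ _) (Lam_nonneg ha F _ _)) g hg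
  have h3 := Lam_ge_one ha F hig (i := i)
  have h4 := Lam_ge_one ha F hkg (i := k)
  have h5 : (1 : ℝ) ≤ Lam a F g.supp i * Lam a F g.supp k := by nlinarith
  unfold yy at h1
  linarith

/-! ### Monotonicity of probabilities -/

theorem pr_anti {a : Q → QV} (ha : ∀ q, QUnit (a q)) {S T : Finset Q} (h : S ⊆ T) : pr a T ≤ pr a S := by
  have e : S ∪ (T \ S) = T := Finset.union_sdiff_of_subset h
  have hd : Disjoint S (T \ S) := Finset.disjoint_sdiff
  rw [← e, pr_union hd]
  have h1 := pr_le_one ha (T \ S)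
  have h2 := pr_nonneg a S
  nlinarith

theorem pr_union_ge {a : Q → QV} (ha : ∀ q, QUnit (a q)) (X Y : Finset Q) :
    pr a X * pr a Y ≤ pr a (X ∪ Y) := by
  have e : X ∪ (Y \ X) = X ∪ Y := Finset.union_sdiff_self_eq_union
  have hd : Disjoint X (Y \ X) := Finset.disjoint_sdiff
  rw [← e, pr_union hd]
  exact mul_le_mul_of_nonneg_left (pr_anti ha Finset.sdiff_subset) (pr_nonneg a X)

theorem one_sub_pr_union_le {a : Q → QV} (ha : ∀ q, QUnit (a q)) (X Y : Finset Q) :
    1 - pr a (X ∪ Y) ≤ (1 - pr a X) + (1 - pr a Y) := by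
  have h1 := pr_union_ge ha X Y
  have h2 := pr_nonneg a X
  have h3 := pr_le_one ha X
  have h4 := pr_nonneg a Y
  have h5 := pr_le_one ha Y
  nlinarith [mul_nonneg (sub_nonneg.mpr h3) (sub_nonneg.mpr h5)]

/-- Subadditivity on a family of sets. -/
theorem flags_biUnion_le {a : Q → QV} (ha : ∀ q, QUnit (a q)) (F0 : Finset Q) (Ks : Finset Q)
    (Se : Q → Finset Q) :
    1 - pr a (F0 ∩ Ks.biUnion Se) ≤ ∑ k ∈ Ks, (1 - pr a (F0 ∩ Se k)) := by
  induction Ks using Finset.induction_on with
  | empty => simp [pr]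
  | insert k Ks hk ih =>
    rw [Finset.biUnion_insert, Finset.inter_union_distrib_left, Finset.sum_insert hk]
    have := one_sub_pr_union_le ha (F0 ∩ Se k) (F0 ∩ Ks.biUnion Se)
    linarith

theorem flags_sup2_le {a : Q → QV} (ha : ∀ q, QUnit (a q)) (F0 : Finset Q) (l : List (GD Q)) :
    1 - pr a (F0 ∩ sup2 l) ≤ (l.map fun g => 1 - pr a (F0 ∩ g.supp)).sum := by
  induction l with
  | nil => simp [pr, sup2]
  | cons g l ih =>
    simp only [List.map_cons, List.sum_cons, sup2]
    rw [Finset.inter_union_distrib_left]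
    have := one_sub_pr_union_le ha (F0 ∩ g.supp) (F0 ∩ sup2 l)
    linarith

theorem sum_filter_le_sum {α : Type*} (l : List α) (p : α → Bool) (h : α → ℝ) (h0 : ∀ g ∈ l, 0 ≤ h g) :
    ((l.filter p).map h).sum ≤ (l.map h).sum := by
  induction l with
  | nil => simp
  | cons x l ih =>
    have h1 := ih fun g hg => h0 g (by simp [hg])
    have h2 := h0 x (by simp)
    by_cases hp : p x = true
    · rw [List.filter_cons_of_pos hp]
      simp only [List.map_cons, List.sum_cons]
      linarith
    · rw [List.filter_cons_of_neg hp]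
      simp only [List.map_cons, List.sum_cons]
      linarith

/-- The flag load in the gates of another selected party is a collision. -/
theorem flag_load_le {a : Q → QV} (ha : ∀ q, QUnit (a q)) (F : Q → Finset Q) (l : List (GD Q)) (i k : Q) :
    pr a (F i) * (1 - pr a (F i ∩ SeOf l k)) ≤ yy a F l i k := by
  have h0 := pr_nonneg a (F i)
  have h1 := mul_le_mul_of_nonneg_left (flags_sup2_le ha (F i) (sel k l)) h0
  refine h1.trans ?_
  have h2 : pr a (F i) * ((sel k l).map fun g => 1 - pr a (F i ∩ g.supp)).sum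
      = ((sel k l).map fun g => pr a (F i) * (1 - pr a (F i ∩ g.supp))).sum := by
    clear h1
    induction sel k l with
    | nil => simp
    | cons g l' ih =>
      simp only [List.map_cons, List.sum_cons, mul_add, ih]
  rw [h2]
  have h3 : ((sel k l).map fun g => pr a (F i) * (1 - pr a (F i ∩ g.supp))).sum
      ≤ ((sel k l).map fun g => Lam a F g.supp i * Lam a F g.supp k).sum := by
    refine List.sum_le_sum fun g hg => ?_
    have hkg : k ∈ g.supp := by
      have := (List.mem_filter.mp hg).2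
      simpa using this
    have h4 := Lam_ge_one ha F hkg (i := k)
    have h5 := Lam_ge_flags (a := a) F g.supp i
    have h6 := Lam_nonneg ha F g.supp i
    have h7 := mul_nonneg h0 (pr_sub_one_nonneg ha (F i ∩ g.supp))
    nlinarith
  refine h3.trans ?_
  exact sum_filter_le_sum l _ _ fun g _ => mul_nonneg (Lam_nonneg ha F _ _) (Lam_nonneg ha F _ _)

/-! ### The preprocessed flags -/

/-- The flags of a party inside gates of the other selected parties. -/
def FeOf (F : Q → Finset Q) (l : List (GD Q)) (B : List Q) (i : Q) : Finset Q :=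
  F i ∩ (B.toFinset.erase i).biUnion (SeOf l)

/-- The new flags. -/
noncomputable def F'Of (a : Q → QV) (F : Q → Finset Q) (l : List (GD Q)) (B : List Q) (i : Q) : Finset Q :=
  if (1 / 2 : ℝ) ≤ pr a (FeOf F l B i) then F i \ FeOf F l B i else ∅

/-- The new gate switch. -/
noncomputable def c'Of (a : Q → QV) (F : Q → Finset Q) (l : List (GD Q)) (c : Q → ℂ) (B : List Q) (i : Q) : ℂ :=
  if (1 / 2 : ℝ) ≤ pr a (FeOf F l B i) then c i else 0

theorem FeOf_subset (F : Q → Finset Q) (l : List (GD Q)) (B : List Q) (i : Q) : FeOf F l B i ⊆ F i :=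
  Finset.inter_subset_left

theorem F'Of_subset (a : Q → QV) (F : Q → Finset Q) (l : List (GD Q)) (B : List Q) (i : Q) :
    F'Of a F l B i ⊆ F i := by
  unfold F'Of
  split_ifs
  · exact Finset.sdiff_subset
  · exact Finset.empty_subset _

theorem c'Of_values {a : Q → QV} {F : Q → Finset Q} {l : List (GD Q)} {c : Q → ℂ} (hc : ∀ i, c i = 0 ∨ c i = 1)
    (B : List Q) (i : Q) : c'Of a F l c B i = 0 ∨ c'Of a F l c B i = 1 := by
  unfold c'Of
  split_ifs
  · exact hc i
  · exact Or.inl rfl

/-- The load of a selected party on the gates of the others. -/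
theorem lam_e_le {a : Q → QV} (ha : ∀ q, QUnit (a q)) {F : Q → Finset Q} {l : List (GD Q)} {B : List Q}
    {ε : ℝ} (hε : 0 ≤ ε) (hy : ∀ i ∈ B, ∀ k ∈ B, i ≠ k → yy a F l i k ≤ ε) {i : Q} (hi : i ∈ B) :
    pr a (F i) * (1 - pr a (FeOf F l B i)) ≤ B.length * ε := by
  unfold FeOf
  have h0 := pr_nonneg a (F i)
  have h1 := mul_le_mul_of_nonneg_left (flags_biUnion_le ha (F i) (B.toFinset.erase i) (SeOf l)) h0
  refine h1.trans ?_
  rw [Finset.mul_sum]
  have h2 : ∀ k ∈ B.toFinset.erase i, pr a (F i) * (1 - pr a (F i ∩ SeOf l k)) ≤ ε := by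
    intro k hk
    have hk1 := Finset.mem_erase.mp hk
    refine (flag_load_le ha F l i k).trans (hy i hi k (List.mem_toFinset.mp hk1.2) hk1.1.symm)
  have h3 := Finset.sum_le_card_nsmul _ _ _ h2
  refine h3.trans ?_
  rw [nsmul_eq_mul]
  have h4 : ((B.toFinset.erase i).card : ℝ) ≤ B.length := by
    have h5 : (B.toFinset.erase i).card ≤ B.toFinset.card := Finset.card_le_card (Finset.erase_subset _ _)
    have h6 : B.toFinset.card ≤ B.length := List.toFinset_card_le B
    exact_mod_cast h5.trans h6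
  exact mul_le_mul_of_nonneg_right h4 hε

/-- The error made by changing the flags of a party, first case. -/
theorem flag_err_keep {i : Q} {F0 Fe : Finset Q} (hFe : Fe ⊆ F0) (hi : i ∉ F0) {c0 : ℂ}
    (hc : (c0 = 0 ∧ F0 = ∅) ∨ c0 = 1) {a : Q → QV} (ha : ∀ q, QUnit (a q)) (hp : 1 / 2 ≤ pr a Fe) :
    ‖(gz c0 (insert i F0) (fun _ => e1) - gz c0 (insert i (F0 \ Fe)) (fun _ => e1)) (pv a)‖ ^ 2
      ≤ 8 * (pr a F0 * (1 - pr a Fe)) := by
  have hnn : 0 ≤ pr a F0 * (1 - pr a Fe) := mul_nonneg (pr_nonneg _ _) (pr_sub_one_nonneg ha _)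
  rcases hc with ⟨rfl, rfl⟩ | rfl
  · simp only [gz, mul_zero, zero_smul, sub_zero, sub_self]
    simp only [ContinuousLinearMap.zero_apply, norm_zero]
    norm_num
    have := hnn
    simpa using this
  · set R := insert i (F0 \ Fe) with hR
    have hd : Disjoint Fe R := by
      rw [hR, Finset.disjoint_insert_right]
      exact ⟨fun h => hi (hFe h), Finset.disjoint_sdiff⟩
    have hU : insert i F0 = Fe ∪ R := by
      ext q
      simp only [hR, Finset.mem_insert, Finset.mem_union, Finset.mem_sdiff]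
      constructor
      · rintro (h | h)
        · exact Or.inr (Or.inl h)
        · by_cases h2 : q ∈ Fe
          · exact Or.inl h2
          · exact Or.inr (Or.inr ⟨h, h2⟩)
      · rintro (h | h | h)
        · exact Or.inr (hFe h)
        · exact Or.inl h
        · exact Or.inr h.1
    have hnnF : (bk (insert i F0) (fun _ => e1) (fun _ => e1) : Op Q) = nn Fe * nn R := by
      have : (bk (insert i F0) (fun _ => e1) (fun _ => e1) : Op Q) = nn (insert i F0) := rfl
      rw [this, hU, nn_union hd]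
    have hcomm : Commute (nn Fe : Op Q) (nn R) :=
      Loc_commute hd (nn_mem_Loc subset_rfl) (nn_mem_Loc subset_rfl)
    have hdiff : (gz 1 (insert i F0) (fun _ => e1) - gz 1 R (fun _ => e1) : Op Q) (pv a)
        = (2 : ℂ) • (nn R ((1 - nn Fe) (pv a))) := by
      have h1 : (gz 1 (insert i F0) (fun _ => e1) - gz 1 R (fun _ => e1) : Op Q)
          = (2 : ℂ) • (nn R * (1 - nn Fe)) := by
        unfold gz
        rw [hnnF, hcomm.eq]
        have : (bk R (fun _ => e1) (fun _ => e1) : Op Q) = nn R := rfl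
        rw [this, mul_sub, mul_one]
        simp only [mul_one, smul_sub]
        abel
      rw [h1]
      rfl
    rw [hdiff, norm_smul, mul_pow]
    have hB : (1 - nn Fe : Op Q) ∈ Loc Fe :=
      sub_mem (one_mem_Loc _) (nn_mem_Loc subset_rfl)
    rw [nn_split hd hB ha]
    have h1 : ‖(1 - nn Fe : Op Q) (pv a)‖ ^ 2 = 1 - pr a Fe := by
      have h3 := proj_norm_add (star_nn Fe) (x := (1 - nn Fe : Op Q) (pv a)) (y := nn Fe (pv a))
        (by
          have : (nn Fe : Op Q) ((1 - nn Fe : Op Q) (pv a)) = (nn Fe * (1 - nn Fe) : Op Q) (pv a) := rfl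
          rw [this, mul_sub, nn_idem, mul_one, sub_self]; rfl)
        (by
          have : (nn Fe : Op Q) (nn Fe (pv a)) = (nn Fe * nn Fe : Op Q) (pv a) := rfl
          rw [this, nn_idem])
      have e : (1 - nn Fe : Op Q) (pv a) + nn Fe (pv a) = pv a := by simp [sub_apply]
      rw [e, pv_norm ha, norm_nn_pv Fe ha] at h3
      linarith
    rw [h1]
    have h2 : ‖(2 : ℂ)‖ ^ 2 = 4 := by norm_num
    rw [h2]
    have h3 : pr a R ≤ pr a (F0 \ Fe) := pr_anti ha (Finset.subset_insert _ _)
    have h4 : pr a F0 = pr a Fe * pr a (F0 \ Fe) := by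
      rw [← pr_union Finset.disjoint_sdiff, Finset.union_sdiff_of_subset hFe]
    have h5 : pr a R ≤ 2 * pr a F0 := by
      have h6 := pr_nonneg a (F0 \ Fe)
      rw [h4]
      nlinarith
    have h6 := pr_sub_one_nonneg ha Fe
    have h7 : pr a R * (1 - pr a Fe) ≤ 2 * pr a F0 * (1 - pr a Fe) :=
      mul_le_mul_of_nonneg_right h5 h6
    linarith

/-- The error made by removing a gate, second case. -/
theorem flag_err_drop {i : Q} {F0 Fe : Finset Q} {c0 : ℂ} (hc : c0 = 0 ∨ c0 = 1) {a : Q → QV}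
    (ha : ∀ q, QUnit (a q)) (hp : ¬ 1 / 2 ≤ pr a Fe) :
    ‖(gz c0 (insert i F0) (fun _ => e1) - gz 0 (insert i (∅ : Finset Q)) (fun _ => e1)) (pv a)‖ ^ 2
      ≤ 8 * (pr a F0 * (1 - pr a Fe)) := by
  have hnn0 := pr_nonneg a F0
  push Not at hp
  have e : (gz c0 (insert i F0) (fun _ => e1) - gz 0 (insert i (∅ : Finset Q)) (fun _ => e1) : Op Q) (pv a)
      = -((2 * c0) • nn (insert i F0) (pv a)) := by
    unfold gz
    simp only [mul_zero, zero_smul, sub_zero]
    have : (bk (insert i F0) (fun _ => e1) (fun _ => e1) : Op Q) = nn (insert i F0) := rfl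
    rw [this]
    simp [sub_apply, smul_apply]
  rw [e, norm_neg, norm_smul, mul_pow, norm_nn_pv _ ha, norm_mul]
  have h1 : ‖c0‖ ≤ 1 := c_norm_le hc
  have h2 : ‖(2 : ℂ)‖ = 2 := by norm_num
  rw [h2]
  have h3 : pr a (insert i F0) ≤ pr a F0 := pr_anti ha (Finset.subset_insert _ _)
  have h4 : (2 * ‖c0‖) ^ 2 ≤ 4 := by
    have := norm_nonneg c0
    nlinarith
  have h5 := pr_nonneg a (insert i F0)
  have h6 : (2 * ‖c0‖) ^ 2 * pr a (insert i F0) ≤ 4 * pr a F0 :=
    mul_le_mul h4 h3 h5 (by norm_num)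
  nlinarith

end Vale.Agent.Lib.P368
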