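import Mathlib
import Vale.Agent.Lib.P368.Flags

/-!
# The selected parties satisfy the hypotheses of the key theorem
-/

set_option linter.unusedSectionVars false
set_option linter.unusedVariables false
set_option linter.unusedSimpArgs false
set_option linter.deprecated false
set_option linter.unusedTactic false
set_option linter.unreachableTactic false

namespace Vale.Agent.Lib.P368

open scoped BigOperators InnerProductSpace ComplexConjugate

variable {Q : Type} [Fintype Q] [DecidableEq Q]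

theorem PG_diff {F F' : Q → Finset Q} {c c' : Q → ℂ} (hc : ∀ i, c i = 0 ∨ c i = 1)
    (hc' : ∀ i, c' i = 0 ∨ c' i = 1) (B : List Q) (hnd : B.Nodup)
    (hqs : ∀ i ∈ B, ∀ k ∈ B, i ≠ k → Disjoint (qsOf F i) (qsOf F k))
    (hsub : ∀ i ∈ B, qsOf F' i ⊆ qsOf F i) {Z : Op Q} (hZ : star Z * Z = 1)
    (hZL : Z ∈ Loc (Erem F B)ᶜ) (a : Q → QV) :
    ‖(PG F c B * Z) (pv a) - (PG F' c' B * Z) (pv a)‖
      ≤ (B.map fun i => ‖(Gi F c i - Gi F' c' i) (pv a)‖).sum := by
  induction B with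
  | nil => simp [PG]
  | cons i B ih =>
    have hnd' := (List.nodup_cons.mp hnd).2
    have hiB := (List.nodup_cons.mp hnd).1
    have hqs' : ∀ j ∈ B, ∀ k ∈ B, j ≠ k → Disjoint (qsOf F j) (qsOf F k) :=
      fun j hj k hk => hqs j (by simp [hj]) k (by simp [hk])
    have hsub' : ∀ j ∈ B, qsOf F' j ⊆ qsOf F j := fun j hj => hsub j (by simp [hj])
    have hZ2 : Z ∈ Loc (Erem F B)ᶜ := Loc_compl_mono (Erem_subset (by simp +contextual)) hZL
    have hih := ih hnd' hqs' hsub' hZ2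
    have hd : Disjoint (qsOf F i) (Erem F B) :=
      disjoint_Erem fun k hk => hqs i (by simp) k (by simp [hk]) fun h => hiB (h ▸ hk)
    set D : Op Q := Gi F c i - Gi F' c' i with hD
    have hDL : D ∈ Loc (qsOf F i) := sub_mem (Gi_mem F c i)
      (Loc_mono (hsub i (by simp)) (Gi_mem F' c' i))
    have hcom1 : Commute D (PG F c B) := Loc_commute hd hDL (PG_mem_Loc F c B)
    have hcom2 : Commute D Z :=
      Loc_commute disjoint_compl_right hDL (Loc_compl_mono (qs_subset_Erem (by simp)) hZL)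
    set ξ := Z (pv a) with hξ
    set x := PG F c B ξ with hx
    set x' := PG F' c' B ξ with hx'
    have e1 : (PG F c (i :: B) * Z) (pv a) = Gi F c i x := rfl
    have e2 : (PG F' c' (i :: B) * Z) (pv a) = Gi F' c' i x' := rfl
    have e3 : Gi F c i x - Gi F' c' i x' = D x + Gi F' c' i (x - x') := by
      rw [hD, map_sub]
      simp only [sub_apply]
      abel
    have hDx : ‖D x‖ = ‖D (pv a)‖ := by
      have h1 : D x = PG F c B (Z (D (pv a))) := by
        have h2 := congrArg (fun T : Op Q => T (Z (pv a))) hcom1.eq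
        have h3 := congrArg (fun T : Op Q => T (pv a)) hcom2.eq
        simp only [ContinuousLinearMap.mul_apply] at h2 h3
        rw [hx, hξ, h2, h3]
      rw [h1, iso_norm (PG_iso hc B), iso_norm hZ]
    have hGx : ‖Gi F' c' i (x - x')‖ = ‖x - x'‖ := iso_norm (Gi_norm hc' i) _
    rw [e1, e2, e3]
    simp only [List.map_cons, List.sum_cons]
    refine (norm_add_le _ _).trans ?_
    rw [hDx, hGx]
    have : ‖x - x'‖ ≤ _ := hih
    linarith

theorem exp_diff {X : Op Q} (hX : ∀ v, ‖X v‖ ≤ ‖v‖) {v w : HS Q} (hv : ‖v‖ = 1) (hw : ‖w‖ = 1) :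
    ‖⟪v, X v⟫_ℂ - ⟪w, X w⟫_ℂ‖ ≤ 2 * ‖v - w‖ := by
  have e : ⟪v, X v⟫_ℂ - ⟪w, X w⟫_ℂ = ⟪v - w, X v⟫_ℂ + ⟪w, X (v - w)⟫_ℂ := by
    rw [map_sub, inner_sub_left, inner_sub_right]
    ring
  rw [e]
  refine (norm_add_le _ _).trans ?_
  have h1 : ‖⟪v - w, X v⟫_ℂ‖ ≤ ‖v - w‖ := by
    refine (norm_inner_le_norm _ _).trans ?_
    have := hX v
    rw [hv] at this
    calc _ ≤ ‖v - w‖ * 1 := mul_le_mul_of_nonneg_left this (norm_nonneg _)
      _ = _ := mul_one _
  have h2 : ‖⟪w, X (v - w)⟫_ℂ‖ ≤ ‖v - w‖ := by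
    refine (norm_inner_le_norm _ _).trans ?_
    rw [hw, one_mul]
    exact hX _
  linarith

section
variable {u : Q → Bool → QV} {F : Q → Finset Q} {c : Q → ℂ} {φ t : Q → QV} {l : List (GD Q)}
  {a : Q → QV} {B : List Q} {ε : ℝ}

/-- The load of a party after preprocessing. -/
theorem lamv_le (ha : ∀ q, QUnit (a q)) (i : Q) {g : GD Q} (hg : g ∈ restG B l) :
    lamv a (om (F'Of a F l B) (restG B l) a) (FNof (F'Of a F l B) (restG B l)) i g
      ≤ 2 * Lam a F g.supp i := by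
  set F' := F'Of a F l B with hF'
  set lN := restG B l with hlN
  have hLam := Lam_nonneg ha F g.supp i
  unfold lamv
  by_cases hp : (1 / 2 : ℝ) ≤ pr a (FeOf F l B i)
  · have hFi : F' i = F i \ FeOf F l B i := by
      rw [hF']; unfold F'Of; rw [if_pos hp]
    have hom : om F' lN a i ≤ 1 := pr_le_one ha _
    have hom0 : 0 ≤ om F' lN a i := pr_nonneg _ _
    have hFN0 : 0 ≤ pr a (FNof F' lN i) := pr_nonneg _ _
    have h1 : om F' lN a i ^ 2 * pr a (FNof F' lN i) ≤ pr a (F' i) := by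
      have e : pr a (F' i) = om F' lN a i * pr a (FNof F' lN i) := by
        unfold om
        rw [← pr_union (F0_disj_FN F' lN i), F0_union_FN]
      rw [e]
      have : om F' lN a i ^ 2 ≤ om F' lN a i := by nlinarith
      exact mul_le_mul_of_nonneg_right this hFN0
    have h2 : pr a (F' i) ≤ 2 * pr a (F i) := by
      have h4 : pr a (F i) = pr a (FeOf F l B i) * pr a (F i \ FeOf F l B i) := by
        rw [← pr_union Finset.disjoint_sdiff, Finset.union_sdiff_of_subset (FeOf_subset F l B i)]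
      rw [hFi, h4]
      have h6 := pr_nonneg a (F i \ FeOf F l B i)
      nlinarith
    have h3 : 1 - pr a (FNof F' lN i ∩ g.supp) ≤ 1 - pr a (F i ∩ g.supp) := by
      have : pr a (F i ∩ g.supp) ≤ pr a (FNof F' lN i ∩ g.supp) := by
        apply pr_anti ha
        intro q hq
        have hq' := Finset.mem_inter.mp hq
        have hq2 : q ∈ F' i := (Finset.mem_inter.mp hq'.1).1
        exact Finset.mem_inter.mpr ⟨F'Of_subset a F l B i hq2, hq'.2⟩
      linarith
    have h5 : 0 ≤ 1 - pr a (FNof F' lN i ∩ g.supp) := pr_sub_one_nonneg ha _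
    have h6 := Lam_ge_flags (a := a) F g.supp i
    have h7 := pr_nonneg a (F i)
    have h8 := pr_sub_one_nonneg ha (F i ∩ g.supp)
    calc om F' lN a i ^ 2 * pr a (FNof F' lN i) * (1 - pr a (FNof F' lN i ∩ g.supp))
        ≤ (2 * pr a (F i)) * (1 - pr a (F i ∩ g.supp)) :=
          mul_le_mul (h1.trans h2) h3 h5 (by positivity)
      _ = 2 * (pr a (F i) * (1 - pr a (F i ∩ g.supp))) := by ring
      _ ≤ _ := by linarith
  · have hFi : F' i = ∅ := by
      rw [hF']; unfold F'Of; rw [if_neg hp]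
    have h1 : FNof F' lN i = ∅ := by
      unfold FNof; rw [hFi]; simp
    rw [h1]
    simp [pr]
    linarith

/-- The collision quantity after preprocessing. -/
theorem Ycol_bound (ha : ∀ q, QUnit (a q)) (hε : 0 ≤ ε)
    (hy : ∀ i ∈ B, ∀ k ∈ B, i ≠ k → yy a F l i k ≤ ε) :
    Ycol (F'Of a F l B) (restG B l) a B.toFinset ≤ 4 * (B.length : ℝ) ^ 2 * ε := by
  set F' := F'Of a F l B with hF'
  set lN := restG B l with hlN
  unfold Ycol Yv
  have hlam0 : ∀ i g, 0 ≤ lamv a (om F' lN a) (FNof F' lN) i g := fun i g =>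
    mul_nonneg (mul_nonneg (sq_nonneg _) (pr_nonneg _ _)) (pr_sub_one_nonneg ha _)
  have h1 : (lN.map fun g => ∑ i ∈ B.toFinset, ∑ k ∈ B.toFinset,
        if i ≠ k then lamv a (om F' lN a) (FNof F' lN) i g * lamv a (om F' lN a) (FNof F' lN) k g else 0).sum
      ≤ (lN.map fun g => ∑ i ∈ B.toFinset, ∑ k ∈ B.toFinset,
        if i ≠ k then 4 * (Lam a F g.supp i * Lam a F g.supp k) else 0).sum := by
    refine List.sum_le_sum fun g hg => ?_
    refine Finset.sum_le_sum fun i _ => Finset.sum_le_sum fun k _ => ?_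
    split_ifs
    · have h2 := lamv_le (F := F) (B := B) (l := l) ha i hg
      have h3 := lamv_le (F := F) (B := B) (l := l) ha k hg
      have h4 := hlam0 i g
      have h5 := hlam0 k g
      calc _ ≤ (2 * Lam a F g.supp i) * (2 * Lam a F g.supp k) := mul_le_mul h2 h3 h5 (by linarith)
        _ = _ := by ring
    · exact le_rfl
  refine h1.trans ?_
  have h2 : (lN.map fun g => ∑ i ∈ B.toFinset, ∑ k ∈ B.toFinset,
        if i ≠ k then 4 * (Lam a F g.supp i * Lam a F g.supp k) else 0).sum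
      = ∑ i ∈ B.toFinset, ∑ k ∈ B.toFinset, (lN.map fun g =>
        if i ≠ k then 4 * (Lam a F g.supp i * Lam a F g.supp k) else 0).sum := by
    rw [← sum_list_map_comm]
    refine Finset.sum_congr rfl fun i _ => ?_
    rw [← sum_list_map_comm]
  rw [h2]
  have h3 : ∀ i ∈ B.toFinset, ∀ k ∈ B.toFinset, (lN.map fun g =>
      if i ≠ k then 4 * (Lam a F g.supp i * Lam a F g.supp k) else 0).sum ≤ 4 * ε := by
    intro i hi k hk
    by_cases hik : i ≠ k
    · simp only [hik, ne_eq, not_false_eq_true, if_true]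
      have h4 : (lN.map fun g => 4 * (Lam a F g.supp i * Lam a F g.supp k)).sum
          = 4 * (lN.map fun g => Lam a F g.supp i * Lam a F g.supp k).sum := by
        clear h1 h2
        induction lN with
        | nil => simp
        | cons g l' ih =>
          simp only [List.map_cons, List.sum_cons, mul_add, ih]
      rw [h4]
      have h5 : (lN.map fun g => Lam a F g.supp i * Lam a F g.supp k).sum ≤ yy a F l i k :=
        sum_filter_le_sum l _ _ fun g _ => mul_nonneg (Lam_nonneg ha F _ _) (Lam_nonneg ha F _ _)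
      have h6 := hy i (List.mem_toFinset.mp hi) k (List.mem_toFinset.mp hk) hik
      linarith
    · simp only [hik, ne_eq, not_true_eq_false, if_false]
      push Not at hik
      simp
      exact hε
  have hcard : (B.toFinset.card : ℝ) ≤ B.length := by exact_mod_cast List.toFinset_card_le B
  have hsum : ∑ i ∈ B.toFinset, ∑ k ∈ B.toFinset, (lN.map fun g =>
      if i ≠ k then 4 * (Lam a F g.supp i * Lam a F g.supp k) else 0).sum
      ≤ ∑ i ∈ B.toFinset, ∑ k ∈ B.toFinset, 4 * ε :=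
    Finset.sum_le_sum fun i hi => Finset.sum_le_sum fun k hk => h3 i hi k hk
  refine hsum.trans ?_
  simp only [Finset.sum_const, nsmul_eq_mul]
  have h0 : 0 ≤ (B.toFinset.card : ℝ) := by positivity
  have h4 : (B.toFinset.card : ℝ) * (B.toFinset.card * (4 * ε))
      ≤ (B.length : ℝ) * (B.length * (4 * ε)) := by
    have : (B.toFinset.card : ℝ) * (B.toFinset.card : ℝ) ≤ (B.length : ℝ) * (B.length : ℝ) :=
      mul_le_mul hcard hcard h0 (by positivity)
    nlinarith
  nlinarith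

/-- The error of the preprocessing for one party. -/
theorem one_flag_err {i : Q} (ha : ∀ q, QUnit (a q)) (hcF : (c i = 0 ∧ F i = ∅) ∨ c i = 1) (hiF : i ∉ F i)
    (hc : ∀ i, c i = 0 ∨ c i = 1) {a' : Q → QV} (ha' : ∀ q, QUnit (a' q)) (hag : ∀ q ∈ F i, a' q = a q) :
    ‖(Gi F c i - Gi (F'Of a F l B) (c'Of a F l c B) i) (pv a')‖ ^ 2
      ≤ 8 * (pr a (F i) * (1 - pr a (FeOf F l B i))) := by
  have hp1 : pr a' (F i) = pr a (F i) := pr_congr hag
  have hp2 : pr a' (FeOf F l B i) = pr a (FeOf F l B i) :=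
    pr_congr fun q hq => hag q (FeOf_subset F l B i hq)
  by_cases hp : (1 / 2 : ℝ) ≤ pr a (FeOf F l B i)
  · have h1 : F'Of a F l B i = F i \ FeOf F l B i := by unfold F'Of; rw [if_pos hp]
    have h2 : c'Of a F l c B i = c i := by unfold c'Of; rw [if_pos hp]
    unfold Gi qsOf
    rw [h1, h2]
    have := flag_err_keep (a := a') (FeOf_subset F l B i) hiF hcF ha' (by rw [hp2]; exact hp)
    rwa [hp1, hp2] at this
  · have h1 : F'Of a F l B i = ∅ := by unfold F'Of; rw [if_neg hp]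
    have h2 : c'Of a F l c B i = 0 := by unfold c'Of; rw [if_neg hp]
    unfold Gi qsOf
    rw [h1, h2]
    have := flag_err_drop (i := i) (F0 := F i) (a := a') (Fe := FeOf F l B i) (hc i) ha' (by rw [hp2]; exact hp)
    rwa [hp1, hp2] at this

end

/-- The hypotheses of the key theorem for the preprocessed flags. -/
theorem flags_KH {u : Q → Bool → QV} {F : Q → Finset Q} {c : Q → ℂ} {φ t : Q → QV} {l : List (GD Q)}
    {a : Q → QV} {B : List Q} {ε : ℝ} (hu : ∀ q b, QUnit (u q b)) (hφ : ∀ q, QUnit (φ q))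
    (ht : ∀ q, QUnit (t q)) (hl : GoodList l) (ha : ∀ q, QUnit (a q)) (hc : ∀ i, c i = 0 ∨ c i = 1)
    (hiF : ∀ i ∈ B, i ∉ F i) (hqs : ∀ i ∈ B, ∀ k ∈ B, i ≠ k → Disjoint (qsOf F i) (qsOf F k))
    (hε : ε < 1) (hy : ∀ i ∈ B, ∀ k ∈ B, i ≠ k → yy a F l i k ≤ ε) :
    KH u (F'Of a F l B) (c'Of a F l c B) (KeOf φ t l) (SeOf l) φ t (restG B l) B.toFinset a := by
  have hno := no_two ha hε hy
  have hsubq : ∀ i, qsOf (F'Of a F l B) i ⊆ qsOf F i := fun i =>
    Finset.insert_subset_insert _ (F'Of_subset a F l B i)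
  have hsel : ∀ i, GoodList (sel i l) := fun i => hl.filter _
  refine ⟨hu, hφ, ht, hl.filter _, ha, c'Of_values hc B, ?_, ?_, ?_, ?_, ?_, ?_, ?_, ?_, ?_⟩
  · intro i hi h
    exact hiF i (List.mem_toFinset.mp hi) (F'Of_subset a F l B i h)
  · intro i hi k hk hne
    exact Finset.disjoint_of_subset_left (hsubq i) (Finset.disjoint_of_subset_right (hsubq k)
      (hqs i (List.mem_toFinset.mp hi) k (List.mem_toFinset.mp hk) hne))
  · intro i hi h
    obtain ⟨g, hg, hp, hq⟩ := sup2_filter_mem.mp h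
    have := of_decide_eq_true hp
    exact this i (List.mem_toFinset.mp hi) hq
  · intro i _
    exact (XX_props (hsel i) hφ ht).1
  · intro i _
    exact (XX_props (hsel i) hφ ht).2
  · intro i _
    exact XX_mem_Loc φ t _
  · intro i hi
    rw [Finset.disjoint_left]
    intro q hq1 hq2
    obtain ⟨g, hg, hp, hqg⟩ := sup2_filter_mem.mp hq1
    obtain ⟨h, hh, hp2, hqh⟩ := sup2_filter_mem.mp hq2
    have e := good_unique hl hg hh hqg hqh
    subst e
    have h1 := of_decide_eq_true hp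
    have h2 := of_decide_eq_true hp2
    exact h2 i (List.mem_toFinset.mp hi) h1
  · intro i hi k hk hne
    rw [Finset.disjoint_left]
    intro q hq1 hq2
    obtain ⟨g, hg, hp, hqg⟩ := sup2_filter_mem.mp hq1
    have h1 := of_decide_eq_true hp
    have hi' := List.mem_toFinset.mp hi
    have hk' := List.mem_toFinset.mp hk
    rcases Finset.mem_insert.mp hq2 with rfl | hq3
    · exact hno g hg i hi' q hk' hne h1 hqg
    · -- a flag of `k` in a gate of `i`
      have hFe : q ∈ FeOf F l B k := by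
        have hqF : q ∈ F k := F'Of_subset a F l B k hq3
        refine Finset.mem_inter.mpr ⟨hqF, Finset.mem_biUnion.mpr ⟨i, ?_, hq1⟩⟩
        exact Finset.mem_erase.mpr ⟨hne, hi⟩
      unfold F'Of at hq3
      split_ifs at hq3
      · exact (Finset.mem_sdiff.mp hq3).2 hFe
      · simp at hq3
  · intro i hi k hk hne
    rw [Finset.disjoint_left]
    intro q hq1 hq2
    obtain ⟨g, hg, hp, hqg⟩ := sup2_filter_mem.mp hq1
    obtain ⟨h, hh, hp2, hqh⟩ := sup2_filter_mem.mp hq2
    have e := good_unique hl hg hh hqg hqh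
    subst e
    have h1 := of_decide_eq_true hp
    have h2 := of_decide_eq_true hp2
    exact hno g hg i (List.mem_toFinset.mp hi) k (List.mem_toFinset.mp hk) hne h1 h2

/-- The final bound for the selected parties. -/
theorem flags_step {u : Q → Bool → QV} {F : Q → Finset Q} {c : Q → ℂ} {φ t : Q → QV} {l : List (GD Q)}
    {a : Q → QV} {B : List Q} {ε : ℝ} (hu : ∀ q b, QUnit (u q b)) (hφ : ∀ q, QUnit (φ q))
    (ht : ∀ q, QUnit (t q)) (hl : GoodList l) (ha : ∀ q, QUnit (a q)) (hc : ∀ i, c i = 0 ∨ c i = 1)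
    (hnd : B.Nodup) (hiF : ∀ i ∈ B, i ∉ F i) (hcF : ∀ i ∈ B, (c i = 0 ∧ F i = ∅) ∨ c i = 1)
    (hqs : ∀ i ∈ B, ∀ k ∈ B, i ≠ k → Disjoint (qsOf F i) (qsOf F k))
    (hε0 : 0 ≤ ε) (hε : ε < 1) (hy : ∀ i ∈ B, ∀ k ∈ B, i ≠ k → yy a F l i k ≤ ε)
    {Z : Op Q} (hZ : star Z * Z = 1) (hZL : Z ∈ Loc (Erem F B)ᶜ) :
    ‖sgnAvg u B (fun a' => ⟪(PG F c B * Z) (pv a'), XX φ t l ((PG F c B * Z) (pv a'))⟫_ℂ) a‖
      ≤ 2 * ((B.length : ℝ) * Real.sqrt (8 * ((B.length : ℝ) * ε)))
        + (15 / 16 : ℝ) ^ B.length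
        + (3 / 2 : ℝ) ^ B.length * Real.sqrt (4 * (B.length : ℝ) ^ 2 * ε) := by
  set F' := F'Of a F l B with hF'
  set c' := c'Of a F l c B with hc'
  have hc'v : ∀ i, c' i = 0 ∨ c' i = 1 := c'Of_values hc B
  have hK := flags_KH (u := u) (φ := φ) (t := t) hu hφ ht hl ha hc hiF hqs hε hy
  have hno := no_two ha hε hy
  have hpart : XX φ t l = PK (KeOf φ t l) B * XX φ t (restG B l) := XX_partition hl B hnd hno
  have hsubq : ∀ i ∈ B, qsOf F' i ⊆ qsOf F i := fun i _ =>
    Finset.insert_subset_insert _ (F'Of_subset a F l B i)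
  have hZL' : Z ∈ Loc (B.toFinset.biUnion (qsOf F'))ᶜ := by
    refine Loc_compl_mono ?_ hZL
    intro q hq
    obtain ⟨i, hi, hq'⟩ := Finset.mem_biUnion.mp hq
    exact Finset.mem_biUnion.mpr ⟨i, hi, hsubq i (List.mem_toFinset.mp hi) hq'⟩
  have hkey := key_theorem hK B hnd rfl Z hZ hZL'
  rw [← hpart] at hkey
  have hY := Ycol_bound (F := F) (l := l) (B := B) ha hε0 hy
  have hsqrt : Real.sqrt (Ycol F' (restG B l) a B.toFinset) ≤ Real.sqrt (4 * (B.length : ℝ) ^ 2 * ε) :=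
    Real.sqrt_le_sqrt hY
  have hkey2 : ‖sgnAvg u B (fun a' => ⟪(PG F' c' B * Z) (pv a'), XX φ t l ((PG F' c' B * Z) (pv a'))⟫_ℂ) a‖
      ≤ (15 / 16 : ℝ) ^ B.length + (3 / 2 : ℝ) ^ B.length * Real.sqrt (4 * (B.length : ℝ) ^ 2 * ε) :=
    hkey.trans (add_le_add_right (mul_le_mul_of_nonneg_left hsqrt (by positivity)) _)
  -- the error
  set S := B.toFinset.biUnion F with hS
  have hBS : ∀ q ∈ B, q ∉ S := by
    intro q hq hqS
    obtain ⟨i, hi, hqi⟩ := Finset.mem_biUnion.mp hqS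
    have hi' := List.mem_toFinset.mp hi
    by_cases h : i = q
    · subst h; exact hiF i hq hqi
    · have := hqs i hi' q hq h
      exact Finset.disjoint_left.mp this (Finset.mem_insert_of_mem hqi) (Finset.mem_insert_self _ _)
  have hC := closed_agree hu B S hBS a
  have hXn : ∀ v, ‖XX φ t l v‖ ≤ ‖v‖ := XX_norm_le hl hφ ht
  have herr : ∀ a', (∀ q, QUnit (a' q)) ∧ (∀ q ∈ S, a' q = a q) →
      ‖⟪(PG F c B * Z) (pv a'), XX φ t l ((PG F c B * Z) (pv a'))⟫_ℂ
        - ⟪(PG F' c' B * Z) (pv a'), XX φ t l ((PG F' c' B * Z) (pv a'))⟫_ℂ‖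
        ≤ 2 * ((B.length : ℝ) * Real.sqrt (8 * ((B.length : ℝ) * ε))) := by
    rintro a' ⟨ha', hag⟩
    have hn1 : ‖(PG F c B * Z) (pv a')‖ = 1 := by
      rw [ContinuousLinearMap.mul_apply, iso_norm (PG_iso hc B), iso_norm hZ, pv_norm ha']
    have hn2 : ‖(PG F' c' B * Z) (pv a')‖ = 1 := by
      rw [ContinuousLinearMap.mul_apply, iso_norm (PG_iso hc'v B), iso_norm hZ, pv_norm ha']
    refine (exp_diff hXn hn1 hn2).trans ?_
    have h1 := PG_diff hc hc'v B hnd hqs hsubq hZ hZL a'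
    have h2 : (B.map fun i => ‖(Gi F c i - Gi F' c' i) (pv a')‖).sum
        ≤ (B.length : ℝ) * Real.sqrt (8 * ((B.length : ℝ) * ε)) := by
      have h3 : ∀ x ∈ B.map fun i => ‖(Gi F c i - Gi F' c' i) (pv a')‖,
          x ≤ Real.sqrt (8 * ((B.length : ℝ) * ε)) := by
        intro x hx
        obtain ⟨i, hi, rfl⟩ := List.mem_map.mp hx
        have h4 := one_flag_err (i := i) (F := F) (c := c) (l := l) (B := B) ha (hcF i hi) (hiF i hi) hc ha'
          (fun q hq => hag q (Finset.mem_biUnion.mpr ⟨i, List.mem_toFinset.mpr hi, hq⟩))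
        have h5 := lam_e_le ha hε0 hy hi
        apply Real.le_sqrt_of_sq_le
        linarith
      have h6 := List.sum_le_card_nsmul _ _ h3
      simpa [nsmul_eq_mul] using h6
    linarith
  have hsub := norm_sgnAvg_sub_le u B
    (fun a' => ⟪(PG F c B * Z) (pv a'), XX φ t l ((PG F c B * Z) (pv a'))⟫_ℂ)
    (fun a' => ⟪(PG F' c' B * Z) (pv a'), XX φ t l ((PG F' c' B * Z) (pv a'))⟫_ℂ) a
  have hsub2 := hsub.trans (uAvg_le_const u B hC herr a ⟨ha, fun _ _ => rfl⟩)
  have htri := norm_sub_norm_le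
    (sgnAvg u B (fun a' => ⟪(PG F c B * Z) (pv a'), XX φ t l ((PG F c B * Z) (pv a'))⟫_ℂ) a)
    (sgnAvg u B (fun a' => ⟪(PG F' c' B * Z) (pv a'), XX φ t l ((PG F' c' B * Z) (pv a'))⟫_ℂ) a)
  linarith

end Vale.Agent.Lib.P368
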