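import Mathlib
import Vale.Agent.Lib.P368.Flags2

/-!
# The bound for a first layer given by parties
-/

set_option linter.unusedSectionVars false
set_option linter.unusedVariables false
set_option linter.unusedSimpArgs false
set_option linter.deprecated false
set_option linter.unusedTactic false
set_option linter.unreachableTactic false

namespace Vale.Agent.Lib.P368

open scoped BigOperators InnerProductSpace ComplexConjugate

variable {Q : Type} [Fintype Q] [DecidableEq Q]

theorem Lam_congr {a a' : Q → QV} {F : Q → Finset Q} {i : Q} (h : ∀ q ∈ F i, a' q = a q) (E : Finset Q) :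
    Lam a' F E i = Lam a F E i := by
  unfold Lam Lam0
  rw [pr_congr h, pr_congr (E := F i ∩ E) fun q hq => h q (Finset.mem_inter.mp hq).1]

/-- The total collision is bounded through the loads. -/
theorem total_collision {a : Q → QV} (ha : ∀ q, QUnit (a q)) {F : Q → Finset Q} {l : List (GD Q)}
    (hl : GoodList l) {A : List Q} (hnd : A.Nodup) {L : ℝ} (hL0 : 0 ≤ L)
    (hload : ∀ g ∈ l, Load a F A g.supp ≤ 2 * L) :
    ∑ i ∈ A.toFinset, ∑ k ∈ A.toFinset, yy a F l i k ≤ 4 * L * A.toFinset.card := by
  have hLoad : ∀ E, Load a F A E = ∑ i ∈ A.toFinset, Lam a F E i := by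
    intro E
    unfold Load
    rw [List.sum_toFinset _ hnd]
  have h1 : ∑ i ∈ A.toFinset, ∑ k ∈ A.toFinset, yy a F l i k
      = (l.map fun g => Load a F A g.supp * Load a F A g.supp).sum := by
    unfold yy
    have h2 : ∀ i ∈ A.toFinset, ∑ k ∈ A.toFinset, (l.map fun g => Lam a F g.supp i * Lam a F g.supp k).sum
        = (l.map fun g => Lam a F g.supp i * Load a F A g.supp).sum := by
      intro i _
      rw [sum_list_map_comm]
      congr 1
      refine List.map_congr_left fun g _ => ?_
      rw [hLoad, Finset.mul_sum]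
    rw [Finset.sum_congr rfl h2, sum_list_map_comm]
    congr 1
    refine List.map_congr_left fun g _ => ?_
    rw [← Finset.sum_mul, ← hLoad]
  rw [h1]
  have h3 : (l.map fun g => Load a F A g.supp * Load a F A g.supp).sum
      ≤ (l.map fun g => 2 * L * Load a F A g.supp).sum := by
    refine List.sum_le_sum fun g hg => ?_
    exact mul_le_mul_of_nonneg_right (hload g hg) (Load_nonneg ha A _)
  refine h3.trans ?_
  have h4 : (l.map fun g => 2 * L * Load a F A g.supp).sum
      = 2 * L * ((l.map GD.supp).map (Load a F A)).sum := by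
    rw [List.map_map]
    clear h1 h3 hload
    induction l with
    | nil => simp
    | cons g l ih =>
      simp only [List.map_cons, List.sum_cons, Function.comp]
      rw [ih hl.tail, mul_add]
  rw [h4]
  have hpw : (l.map GD.supp).Pairwise Disjoint := by
    rw [List.pairwise_map]
    exact hl.2
  have h5 := budget_total (F := F) ha A (l.map GD.supp) hpw
  have h6 : (A.toFinset.card : ℝ) = A.length := by
    rw [List.toFinset_card_of_nodup hnd]
  rw [h6]
  have h7 : 2 * L * ((l.map GD.supp).map (Load a F A)).sum ≤ 2 * L * (2 * A.length) :=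
    mul_le_mul_of_nonneg_left h5 (by positivity)
  linarith

/-- The bound of the first level. -/
noncomputable def Bnd (L ε : ℝ) (m n' : ℕ) : ℝ :=
  10 * Real.exp (-L / 4) + 8 * n' / L * Real.exp (-L / 8)
    + 2 * ((m : ℝ) * Real.sqrt (8 * ((m : ℝ) * ε)))
    + (15 / 16 : ℝ) ^ m + (3 / 2 : ℝ) ^ m * Real.sqrt (4 * (m : ℝ) ^ 2 * ε)

theorem level1 {u : Q → Bool → QV} {F : Q → Finset Q} {c : Q → ℂ} {Z : Op Q} {A : List Q}
    {φ t : Q → QV} {l : List (GD Q)} (S : PS u F c Z A) (hφ : ∀ q, QUnit (φ q)) (ht : ∀ q, QUnit (t q))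
    (hl : GoodList l) {a : Q → QV} (ha : ∀ q, QUnit (a q)) {L ε : ℝ} (hL : 0 < L) (hε0 : 0 < ε)
    (hε1 : ε < 1) (m : ℕ) (hm : (m : ℝ) * (8 * L / ε + 1) ≤ (A.length : ℝ) / 2) :
    ‖sgnAvg u A (fX F c Z A (XX φ t l)) a‖ ≤ Bnd L ε m A.length := by
  have ht1 : 0 ≤ 10 * Real.exp (-L / 4) := by positivity
  have ht2 : 0 ≤ 8 * (A.length : ℝ) / L * Real.exp (-L / 8) := by positivity
  have ht3 : 0 ≤ 2 * ((m : ℝ) * Real.sqrt (8 * ((m : ℝ) * ε))) := by positivity
  have ht4 : 0 ≤ (15 / 16 : ℝ) ^ m := by positivity
  have ht5 : 0 ≤ (3 / 2 : ℝ) ^ m * Real.sqrt (4 * (m : ℝ) ^ 2 * ε) := by positivity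
  unfold Bnd
  by_cases hkill : ∃ g ∈ l, L ≤ Load a F A g.T
  · obtain ⟨g, hg, hLg⟩ := hkill
    have h1 := killed_bound S hφ ht hl hg ha
    have h2 : Real.exp (-Load a F A g.T / 4) ≤ Real.exp (-L / 4) := by
      apply Real.exp_le_exp.mpr
      linarith
    linarith
  · push Not at hkill
    set D := DeadP a F A L with hD
    set l' := l.map (dk D) with hl'
    have hl'g : GoodList l' := dk_good D hl
    have hdead := dead_bound S hφ ht hl ha hL
    have hload : ∀ g ∈ l', Load a F A g.supp ≤ 2 * L := by
      intro g' hg'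
      obtain ⟨g, hg, rfl⟩ := List.mem_map.mp hg'
      have hT := hkill g hg
      by_cases hDg : D g
      · have e : dk D g = deadGD g := by unfold dk; rw [if_pos hDg]
        rw [e]
        have e2 : (deadGD g).supp = g.T := by
          unfold deadGD GD.supp
          simp
        rw [e2]
        linarith
      · have e : dk D g = g := by unfold dk; rw [if_neg hDg]
        rw [e]
        have h1 : Load a F A g.R < L := by
          have : ¬ L ≤ Load a F A g.R := hDg
          linarith
        have h2 := Load_union_le (F := F) ha A (hl.1 g hg).1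
        unfold GD.supp
        linarith
    have hcol := total_collision ha hl'g S.hnd hL.le hload
    have hcard : (A.toFinset.card : ℝ) = A.length := by
      rw [List.toFinset_card_of_nodup S.hnd]
    obtain ⟨B0, hB0, hB0c, hB0p⟩ := select_pairs (yy a F l') (yy_nonneg ha F l') (yy_symm a F l')
      A.toFinset hL hε0 hcol m (by rw [hcard]; exact hm)
    set B := B0.toList with hB
    have hBnd : B.Nodup := Finset.nodup_toList B0
    have hBlen : B.length = m := by rw [hB, Finset.length_toList, hB0c]
    have hBA : ∀ i ∈ B, i ∈ A := by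
      intro i hi
      exact List.mem_toFinset.mp (hB0 (Finset.mem_toList.mp hi))
    set r := A.filter fun i => decide (i ∉ B) with hr
    have hperm : A.Perm (r ++ B) := by
      have h1 : List.Perm ((A.filter fun i => decide (i ∉ B)) ++ (A.filter fun i => !decide (i ∉ B))) A :=
        List.filter_append_perm _ _
      have h2 : List.Perm (A.filter fun i => !decide (i ∉ B)) B := by
        rw [List.perm_ext_iff_of_nodup (S.hnd.filter _) hBnd]
        intro q
        simp only [List.mem_filter, decide_not, Bool.not_not, decide_eq_true_eq]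
        constructor
        · exact fun h => h.2
        · exact fun h => ⟨hBA q h, h⟩
      exact (h1.symm).trans (h2.append_left _)
    have hqsA := S.hqs
    have hS0 : ∀ q ∈ r, q ∉ A.toFinset.biUnion F := by
      intro q hq hqS
      have hqA : q ∈ A := (List.mem_filter.mp hq).1
      obtain ⟨i, hi, hqi⟩ := Finset.mem_biUnion.mp hqS
      have hi' := List.mem_toFinset.mp hi
      by_cases h : i = q
      · subst h; exact S.hiF i hqA hqi
      · have := S.hqs i hi' q hqA h
        exact Finset.disjoint_left.mp this (Finset.mem_insert_of_mem hqi) (Finset.mem_insert_self _ _)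
    have hC := closed_agree S.hu r (A.toFinset.biUnion F) hS0 a
    set X0 : ℝ := 2 * ((m : ℝ) * Real.sqrt (8 * ((m : ℝ) * ε))) + (15 / 16 : ℝ) ^ m
        + (3 / 2 : ℝ) ^ m * Real.sqrt (4 * (m : ℝ) ^ 2 * ε) with hX0
    -- the product of gates
    set Z' : Op Q := PG F c r * Z with hZ'
    have hPsi : ∀ a' : Q → QV, Psi F c Z A a' = (PG F c B * Z') (pv a') := by
      intro a'
      unfold Psi
      have h1 : PG F c A = PG F c (r ++ B) := PG_perm hperm S.hnd S.hqs
      rw [h1, PG_append]
      have hd : Disjoint (Erem F r) (Erem F B) := by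
        rw [Finset.disjoint_left]
        intro q hq1 hq2
        obtain ⟨i, hi, hqi⟩ := Finset.mem_biUnion.mp hq1
        obtain ⟨k, hk, hqk⟩ := Finset.mem_biUnion.mp hq2
        have hi' := List.mem_toFinset.mp hi
        have hk' := List.mem_toFinset.mp hk
        have hir := List.mem_filter.mp hi'
        have hne : i ≠ k := by
          rintro rfl
          simp only [decide_eq_true_eq] at hir
          exact hir.2 hk'
        have := S.hqs i hir.1 k (hBA k hk') hne
        exact Finset.disjoint_left.mp this hqi hqk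
      have hcom : Commute (PG F c r) (PG F c B) :=
        Loc_commute hd (PG_mem_Loc F c r) (PG_mem_Loc F c B)
      rw [hcom.eq, hZ', mul_assoc]
    have hf : fX F c Z A (XX φ t l') = fun a' =>
        ⟪(PG F c B * Z') (pv a'), XX φ t l' ((PG F c B * Z') (pv a'))⟫_ℂ := by
      funext a'
      unfold fX
      rw [hPsi]
    have hZ'u : star Z' * Z' = 1 := by
      rw [hZ', star_mul]
      calc star Z * star (PG F c r) * (PG F c r * Z)
          = star Z * (star (PG F c r) * PG F c r) * Z := by simp only [mul_assoc]
        _ = 1 := by rw [PG_iso S.hc r, mul_one, S.hZ]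
    have hZ'L : Z' ∈ Loc (Erem F B)ᶜ := by
      have hd : Disjoint (Erem F r) (Erem F B) := by
        rw [Finset.disjoint_left]
        intro q hq1 hq2
        obtain ⟨i, hi, hqi⟩ := Finset.mem_biUnion.mp hq1
        obtain ⟨k, hk, hqk⟩ := Finset.mem_biUnion.mp hq2
        have hi' := List.mem_toFinset.mp hi
        have hk' := List.mem_toFinset.mp hk
        have hir := List.mem_filter.mp hi'
        have hne : i ≠ k := by
          rintro rfl
          simp only [decide_eq_true_eq] at hir
          exact hir.2 hk'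
        have := S.hqs i hir.1 k (hBA k hk') hne
        exact Finset.disjoint_left.mp this hqi hqk
      exact mul_mem_Loc (Loc_compl_of_disjoint hd (PG_mem_Loc F c r))
        (Loc_compl_mono (Erem_subset hBA) S.hZL)
    have hbound : ∀ a', ((∀ q, QUnit (a' q)) ∧ ∀ q ∈ A.toFinset.biUnion F, a' q = a q) →
        ‖sgnAvg u B (fX F c Z A (XX φ t l')) a'‖ ≤ X0 := by
      rintro a' ⟨ha', hag⟩
      rw [hf]
      have hy' : ∀ i ∈ B, ∀ k ∈ B, i ≠ k → yy a' F l' i k ≤ ε := by
        intro i hi k hk hne
        have h1 := hB0p i (Finset.mem_toList.mp hi) k (Finset.mem_toList.mp hk) hne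
        have hagi : ∀ j ∈ B, ∀ q ∈ F j, a' q = a q := fun j hj q hq =>
          hag q (Finset.mem_biUnion.mpr ⟨j, List.mem_toFinset.mpr (hBA j hj), hq⟩)
        have e : yy a' F l' i k = yy a F l' i k := by
          unfold yy
          congr 1
          refine List.map_congr_left fun g _ => ?_
          rw [Lam_congr (hagi i hi), Lam_congr (hagi k hk)]
        rw [e]
        exact h1
      have h2 := flags_step (u := u) (φ := φ) (t := t) S.hu hφ ht hl'g ha' S.hc hBnd
        (fun i hi => S.hiF i (hBA i hi)) (fun i hi => S.hcF i (hBA i hi))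
        (fun i hi k hk => S.hqs i (hBA i hi) k (hBA k hk)) hε0.le hε1 hy' hZ'u hZ'L
      rw [hBlen] at h2
      exact h2
    have hfinal : ‖sgnAvg u A (fX F c Z A (XX φ t l')) a‖ ≤ X0 := by
      rw [sgnAvg_perm u hperm S.hnd]
      exact sgnAvg_restrict u r B hC _ hbound a ⟨ha, fun _ _ => rfl⟩
    have htri := norm_sub_norm_le (sgnAvg u A (fX F c Z A (XX φ t l)) a)
      (sgnAvg u A (fX F c Z A (XX φ t l')) a)
    linarith

end Vale.Agent.Lib.P368
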