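import Mathlib
import Vale.Agent.Lib.P368.Level1

/-!
# Removing the gates of the first layer with many input qubits
-/

set_option linter.unusedSectionVars false
set_option linter.unusedVariables false
set_option linter.unusedSimpArgs false
set_option linter.deprecated false
set_option linter.unusedTactic false
set_option linter.unreachableTactic false

namespace Vale.Agent.Lib.P368

open scoped BigOperators InnerProductSpace ComplexConjugate

variable {Q : Type} [Fintype Q] [DecidableEq Q]

/-- The gate of the first layer with support `S`. -/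
noncomputable def G1 (S : Finset Q) : Op Q := gz 1 S (fun _ => e1)

/-- The first layer. -/
noncomputable def GProd (Hs : List (Finset Q)) : Op Q := (Hs.map G1).prod

theorem G1_star (S : Finset Q) : star (G1 S) = G1 S := star_gz (Or.inr rfl) _ _

theorem G1_sq (S : Finset Q) : G1 S * G1 S = 1 := gz_mul_self (Or.inr rfl) fun _ _ => qunit_e1

theorem G1_iso (S : Finset Q) : star (G1 S) * G1 S = 1 := by rw [G1_star, G1_sq]

theorem GProd_iso (Hs : List (Finset Q)) : star (GProd Hs) * GProd Hs = 1 := by
  induction Hs with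
  | nil => simp [GProd]
  | cons S Hs ih =>
    have e : GProd (S :: Hs) = G1 S * GProd Hs := rfl
    rw [e, star_mul]
    calc star (GProd Hs) * star (G1 S) * (G1 S * GProd Hs)
        = star (GProd Hs) * (star (G1 S) * G1 S) * GProd Hs := by simp only [mul_assoc]
      _ = 1 := by rw [G1_iso, mul_one, ih]

theorem GProd_mem_Loc {E : Finset Q} (Hs : List (Finset Q)) (h : ∀ S ∈ Hs, S ⊆ E) : GProd Hs ∈ Loc E := by
  unfold GProd
  exact list_prod_mem_Loc Hs _ fun S hS => gz_mem_Loc (h S hS) _ _

theorem G1_comm_GProd {S : Finset Q} {Hs : List (Finset Q)} (h : ∀ T ∈ Hs, Disjoint S T) :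
    Commute (G1 S) (GProd Hs) := by
  induction Hs with
  | nil => simp [GProd]
  | cons T Hs ih =>
    have e : GProd (T :: Hs) = G1 T * GProd Hs := rfl
    rw [e]
    exact Commute.mul_right
      (Loc_commute (h T (by simp)) (gz_mem_Loc subset_rfl _ _) (gz_mem_Loc subset_rfl _ _))
      (ih fun T' hT' => h T' (by simp [hT']))

/-- The first layer with the gates satisfying a predicate removed. -/
theorem GProd_filter_err (p : Finset Q → Bool) (Hs : List (Finset Q)) (hHs : Hs.Pairwise Disjoint)
    (v : HS Q) :
    ‖GProd Hs v - GProd (Hs.filter p) v‖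
      ≤ (Hs.map fun S => if p S = true then 0 else 2 * ‖nn S v‖).sum := by
  induction Hs with
  | nil => simp
  | cons S Hs ih =>
    have hdisj := (List.pairwise_cons.mp hHs).1
    have hih := ih (List.pairwise_cons.mp hHs).2
    have e : GProd (S :: Hs) = G1 S * GProd Hs := rfl
    simp only [List.map_cons, List.sum_cons]
    by_cases hp : p S = true
    · rw [List.filter_cons_of_pos hp, if_pos hp]
      have e2 : GProd (S :: Hs.filter p) = G1 S * GProd (Hs.filter p) := rfl
      rw [e, e2]
      have e3 : (G1 S * GProd Hs) v - (G1 S * GProd (Hs.filter p)) v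
          = G1 S (GProd Hs v - GProd (Hs.filter p) v) := by
        simp only [ContinuousLinearMap.mul_apply, map_sub]
      rw [e3, iso_norm (G1_iso S)]
      linarith
    · rw [List.filter_cons_of_neg hp, if_neg hp]
      rw [e]
      have hcomm : Commute (G1 S) (GProd Hs) := G1_comm_GProd hdisj
      have e3 : (G1 S * GProd Hs) v - GProd (Hs.filter p) v
          = (GProd Hs v - GProd (Hs.filter p) v) + (G1 S - 1) (GProd Hs v) := by
        simp only [ContinuousLinearMap.mul_apply, sub_apply, ContinuousLinearMap.one_apply]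
        abel
      rw [e3]
      refine (norm_add_le _ _).trans ?_
      have h1 : ‖(G1 S - 1) (GProd Hs v)‖ = 2 * ‖nn S v‖ := by
        have h2 : (G1 S - 1 : Op Q) = -((2 : ℂ) • nn S) := by
          unfold G1 gz
          simp only [mul_one]
          have : (bk S (fun _ => e1) (fun _ => e1) : Op Q) = nn S := rfl
          rw [this]
          abel
        have hc2 : Commute (G1 S - 1) (GProd Hs) := by
          exact (hcomm.sub_left (Commute.one_left _))
        have h3 := congrArg (fun T : Op Q => T v) hc2.eq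
        simp only [ContinuousLinearMap.mul_apply] at h3
        rw [h3, iso_norm (GProd_iso Hs), h2]
        simp only [neg_apply, smul_apply, norm_neg, norm_smul]
        norm_num
      rw [h1]
      linarith

/-- The probability of all ones on `S`, averaged over the inputs. -/
theorem uAvg_pr_le {u : Q → Bool → QV} (hu : ∀ q b, QUnit (u q b)) (hr : ∀ q, Rows (u q false) (u q true))
    (Inp : List Q) (hnd : Inp.Nodup) (S : Finset Q) (a : Q → QV) (ha : ∀ q, QUnit (a q)) :
    uAvg u Inp (fun a' => pr a' S) a ≤ (1 / 2 : ℝ) ^ (S ∩ Inp.toFinset).card := by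
  induction Inp generalizing S a with
  | nil => simpa [uAvg] using pr_le_one ha S
  | cons q Inp ih =>
    have hq : q ∉ Inp := (List.nodup_cons.mp hnd).1
    have hnd' := (List.nodup_cons.mp hnd).2
    simp only [uAvg]
    by_cases hqS : q ∈ S
    · -- the qubit `q` is in `S`
      have hE : S ∩ (q :: Inp).toFinset = insert q ((S.erase q) ∩ Inp.toFinset) := by
        ext x
        simp only [Finset.mem_inter, List.mem_toFinset, List.mem_cons, Finset.mem_insert, Finset.mem_erase]
        constructor
        · rintro ⟨h1, rfl | h2⟩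
          · exact Or.inl rfl
          · by_cases hx : x = q
            · exact Or.inl hx
            · exact Or.inr ⟨⟨hx, h1⟩, h2⟩
        · rintro (rfl | ⟨⟨_, h1⟩, h2⟩)
          · exact ⟨hqS, Or.inl rfl⟩
          · exact ⟨h1, Or.inr h2⟩
      have hcard : (S ∩ (q :: Inp).toFinset).card = ((S.erase q) ∩ Inp.toFinset).card + 1 := by
        rw [hE, Finset.card_insert_of_notMem]
        simp
      have hbranch : ∀ b : Bool, uAvg u Inp (fun a' => pr a' S) (Function.update a q (u q b))
          ≤ ‖u q b true‖ ^ 2 * (1 / 2 : ℝ) ^ ((S.erase q) ∩ Inp.toFinset).card := by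
        intro b
        set ab := Function.update a q (u q b) with hab
        have hab1 : ∀ x, QUnit (ab x) := update_unit ha (hu q b)
        have hC := closed_agree hu Inp {q} (fun x hx h => hq ((Finset.mem_singleton.mp h) ▸ hx)) ab
        have e1 : uAvg u Inp (fun a' => pr a' S) ab
            = ‖u q b true‖ ^ 2 * uAvg u Inp (fun a' => pr a' (S.erase q)) ab := by
          rw [← uAvg_mul_left]
          refine uAvg_congr u Inp hC (fun a' ha' => ?_) ab ⟨hab1, fun _ _ => rfl⟩
          have h1 : a' q = u q b := by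
            rw [ha'.2 q (by simp)]
            simp [hab]
          unfold pr
          rw [← Finset.mul_prod_erase S _ hqS, h1]
        rw [e1]
        exact mul_le_mul_of_nonneg_left (ih hnd' (S.erase q) ab hab1) (by positivity)
      have h0 := hbranch false
      have h1 := hbranch true
      have h2 := (hr q).h1
      rw [hcard, pow_succ]
      have h3 : (0 : ℝ) ≤ (1 / 2 : ℝ) ^ ((S.erase q) ∩ Inp.toFinset).card := by positivity
      calc (1 / 2 : ℝ) * (uAvg u Inp (fun a' => pr a' S) (Function.update a q (u q false))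
            + uAvg u Inp (fun a' => pr a' S) (Function.update a q (u q true)))
          ≤ (1 / 2 : ℝ) * ((‖u q false true‖ ^ 2 + ‖u q true true‖ ^ 2)
            * (1 / 2 : ℝ) ^ ((S.erase q) ∩ Inp.toFinset).card) := by linarith
        _ = _ := by rw [h2]; ring
    · have hE : S ∩ (q :: Inp).toFinset = S ∩ Inp.toFinset := by
        ext x
        simp only [Finset.mem_inter, List.mem_toFinset, List.mem_cons]
        constructor
        · rintro ⟨h1, rfl | h2⟩
          · exact absurd h1 hqS
          · exact ⟨h1, h2⟩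
        · rintro ⟨h1, h2⟩
          exact ⟨h1, Or.inr h2⟩
      rw [hE]
      have h0 := ih hnd' S (Function.update a q (u q false)) (update_unit ha (hu q false))
      have h1 := ih hnd' S (Function.update a q (u q true)) (update_unit ha (hu q true))
      linarith

/-- The first moment of a wide gate. -/
theorem uAvg_nn_le {u : Q → Bool → QV} (hu : ∀ q b, QUnit (u q b)) (hr : ∀ q, Rows (u q false) (u q true))
    (Inp : List Q) (hnd : Inp.Nodup) (S : Finset Q) (a : Q → QV) (ha : ∀ q, QUnit (a q)) :
    uAvg u Inp (fun a' => ‖nn S (pv a')‖) a ≤ Real.sqrt ((1 / 2 : ℝ) ^ (S ∩ Inp.toFinset).card) := by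
  have hC := closed_unit hu Inp
  have h1 : uAvg u Inp (fun a' => ‖nn S (pv a')‖) a = uAvg u Inp (fun a' => Real.sqrt (pr a' S)) a := by
    refine uAvg_congr u Inp hC (fun a' ha' => ?_) a ha
    rw [← norm_nn_pv S ha', Real.sqrt_sq (norm_nonneg _)]
  rw [h1]
  refine (uAvg_sqrt_le u Inp hC (fun a' _ => pr_nonneg a' S) a ha).trans ?_
  exact Real.sqrt_le_sqrt (uAvg_pr_le hu hr Inp hnd S a ha)

theorem sum_card_inter_le (Hs : List (Finset Q)) (hHs : Hs.Pairwise Disjoint) (I : Finset Q) :
    (Hs.map fun S => (S ∩ I).card).sum ≤ I.card := by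
  induction Hs generalizing I with
  | nil => simp
  | cons S Hs ih =>
    have hdisj := (List.pairwise_cons.mp hHs).1
    simp only [List.map_cons, List.sum_cons]
    have h1 := ih (List.pairwise_cons.mp hHs).2 (I \ S)
    have h2 : (Hs.map fun T => (T ∩ (I \ S)).card) = Hs.map fun T => (T ∩ I).card := by
      refine List.map_congr_left fun T hT => ?_
      congr 1
      ext x
      simp only [Finset.mem_inter, Finset.mem_sdiff]
      constructor
      · rintro ⟨h3, h4, _⟩; exact ⟨h3, h4⟩
      · rintro ⟨h3, h4⟩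
        exact ⟨h3, h4, fun h5 => Finset.disjoint_left.mp (hdisj T hT) h5 h3⟩
    rw [h2] at h1
    have h3 : (S ∩ I).card + (I \ S).card = I.card := by
      rw [Finset.inter_comm]
      exact Finset.card_inter_add_card_sdiff I S
    omega

/-- The averaged error of removing the wide gates. -/
theorem wide_error {u : Q → Bool → QV} (hu : ∀ q b, QUnit (u q b)) (hr : ∀ q, Rows (u q false) (u q true))
    (Inp : List Q) (hnd : Inp.Nodup) (Hs : List (Finset Q)) (hHs : Hs.Pairwise Disjoint) (D : ℕ) (hD1 : 1 ≤ D)
    {X : Op Q} (hX : ∀ v, ‖X v‖ ≤ ‖v‖) (a : Q → QV) (ha : ∀ q, QUnit (a q)) :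
    ‖sgnAvg u Inp (fun a' => ⟪GProd Hs (pv a'), X (GProd Hs (pv a'))⟫_ℂ) a
      - sgnAvg u Inp (fun a' => ⟪GProd (Hs.filter fun S => decide ((S ∩ Inp.toFinset).card < D)) (pv a'),
          X (GProd (Hs.filter fun S => decide ((S ∩ Inp.toFinset).card < D)) (pv a'))⟫_ℂ) a‖
      ≤ 4 * (Inp.length : ℝ) * Real.sqrt ((1 / 2 : ℝ) ^ D) := by
  set p : Finset Q → Bool := fun S => decide ((S ∩ Inp.toFinset).card < D) with hp
  refine (norm_sgnAvg_sub_le u Inp _ _ a).trans ?_
  have hC := closed_unit hu Inp
  have h1 : uAvg u Inp (fun a' => ‖⟪GProd Hs (pv a'), X (GProd Hs (pv a'))⟫_ℂ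
        - ⟪GProd (Hs.filter p) (pv a'), X (GProd (Hs.filter p) (pv a'))⟫_ℂ‖) a
      ≤ uAvg u Inp (fun a' => 2 * (Hs.map fun S => if p S = true then 0 else 2 * ‖nn S (pv a')‖).sum) a := by
    refine uAvg_mono u Inp hC (fun a' ha' => ?_) a ha
    have hn1 : ‖GProd Hs (pv a')‖ = 1 := by rw [iso_norm (GProd_iso Hs), pv_norm ha']
    have hn2 : ‖GProd (Hs.filter p) (pv a')‖ = 1 := by rw [iso_norm (GProd_iso _), pv_norm ha']
    refine (exp_diff hX hn1 hn2).trans ?_
    exact mul_le_mul_of_nonneg_left (GProd_filter_err p Hs hHs _) (by norm_num)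
  refine h1.trans ?_
  rw [uAvg_mul_left, uAvg_list_sum]
  set Y := Real.sqrt ((1 / 2 : ℝ) ^ D) with hY
  have hY0 : 0 ≤ Y := Real.sqrt_nonneg _
  have h2 : ∀ S ∈ Hs, uAvg u Inp (fun a' => if p S = true then 0 else 2 * ‖nn S (pv a')‖) a
      ≤ 2 * Y * ((S ∩ Inp.toFinset).card : ℝ) := by
    intro S _
    by_cases hpS : p S = true
    · have e : (fun a' : Q → QV => if p S = true then (0 : ℝ) else 2 * ‖nn S (pv a')‖)
          = fun _ => 0 := by
        funext a'
        rw [if_pos hpS]
      rw [e, uAvg_const]
      positivity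
    · have e : (fun a' : Q → QV => if p S = true then (0 : ℝ) else 2 * ‖nn S (pv a')‖)
          = fun a' => 2 * ‖nn S (pv a')‖ := by
        funext a'
        rw [if_neg hpS]
      rw [e, uAvg_mul_left]
      have hD : D ≤ (S ∩ Inp.toFinset).card := by
        simp only [hp, decide_eq_true_eq] at hpS
        omega
      have h3 := uAvg_nn_le hu hr Inp hnd S a ha
      have h4 : Real.sqrt ((1 / 2 : ℝ) ^ (S ∩ Inp.toFinset).card) ≤ Y :=
        Real.sqrt_le_sqrt (pow_le_pow_of_le_one (by norm_num) (by norm_num) hD)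
      have h5 : (1 : ℝ) ≤ ((S ∩ Inp.toFinset).card : ℝ) := by
        have : 1 ≤ (S ∩ Inp.toFinset).card := hD1.trans hD
        exact_mod_cast this
      nlinarith
  have h3 : (Hs.map fun S => uAvg u Inp (fun a' => if p S = true then 0 else 2 * ‖nn S (pv a')‖) a).sum
      ≤ (Hs.map fun S => 2 * Y * ((S ∩ Inp.toFinset).card : ℝ)).sum := List.sum_le_sum h2
  have h4 : (Hs.map fun S => 2 * Y * ((S ∩ Inp.toFinset).card : ℝ)).sum
      = 2 * Y * ((Hs.map fun S => (S ∩ Inp.toFinset).card).sum : ℕ) := by
    clear h2 h3 h1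
    induction Hs with
    | nil => simp
    | cons S Hs ih =>
      simp only [List.map_cons, List.sum_cons, Nat.cast_add, mul_add]
      rw [ih (List.pairwise_cons.mp hHs).2]
  have h5 : (((Hs.map fun S => (S ∩ Inp.toFinset).card).sum : ℕ) : ℝ) ≤ Inp.length := by
    have h6 := sum_card_inter_le Hs hHs Inp.toFinset
    have h7 := List.toFinset_card_le Inp
    exact_mod_cast h6.trans h7
  rw [h4] at h3
  have h6 : 2 * Y * (((Hs.map fun S => (S ∩ Inp.toFinset).card).sum : ℕ) : ℝ) ≤ 2 * Y * Inp.length :=
    mul_le_mul_of_nonneg_left h5 (by positivity)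
  linarith

end Vale.Agent.Lib.P368
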