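import Mathlib
import Vale.Agent.Lib.P368.Wide

/-!
# Representatives of the gates of the first layer
-/

set_option linter.unusedSectionVars false
set_option linter.unusedVariables false
set_option linter.unusedSimpArgs false
set_option linter.deprecated false
set_option linter.unusedTactic false
set_option linter.unreachableTactic false

namespace Vale.Agent.Lib.P368

open scoped BigOperators InnerProductSpace ComplexConjugate

variable {Q : Type} [Fintype Q] [DecidableEq Q]

/-- The gate containing a qubit. -/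
def gateOf : List (Finset Q) → Q → Finset Q
  | [], _ => ∅
  | S :: T, i => if i ∈ S then S else gateOf T i

/-- Flags of a qubit. -/
def FOf (Hs : List (Finset Q)) (i : Q) : Finset Q := (gateOf Hs i).erase i

/-- Gate switch of a qubit. -/
noncomputable def cOf (Hs : List (Finset Q)) (i : Q) : ℂ := if i ∈ gateOf Hs i then 1 else 0

theorem disj_of_mem {Hs : List (Finset Q)} (hHs : Hs.Pairwise Disjoint) {S T : Finset Q} (hS : S ∈ Hs)
    (hT : T ∈ Hs) {q : Q} (h1 : q ∈ S) (h2 : q ∈ T) : S = T := by
  by_contra hne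
  have : Std.Symm (Disjoint : Finset Q → Finset Q → Prop) := ⟨fun _ _ hd => hd.symm⟩
  have hd := hHs.forall hS hT hne
  exact Finset.disjoint_left.mp hd h1 h2

theorem gateOf_spec {Hs : List (Finset Q)} (hHs : Hs.Pairwise Disjoint) {S : Finset Q} (hS : S ∈ Hs)
    {i : Q} (hi : i ∈ S) : gateOf Hs i = S := by
  induction Hs with
  | nil => simp at hS
  | cons T Hs ih =>
    simp only [gateOf]
    rcases List.mem_cons.mp hS with rfl | hS'
    · simp [hi]
    · have hd := (List.pairwise_cons.mp hHs).1 S hS'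
      have hiT : i ∉ T := fun h => Finset.disjoint_left.mp hd h hi
      rw [if_neg hiT]
      exact ih (List.pairwise_cons.mp hHs).2 hS'

theorem gateOf_bare {Hs : List (Finset Q)} {i : Q} (h : ∀ S ∈ Hs, i ∉ S) : gateOf Hs i = ∅ := by
  induction Hs with
  | nil => rfl
  | cons T Hs ih =>
    simp only [gateOf]
    rw [if_neg (h T (by simp))]
    exact ih fun S hS => h S (by simp [hS])

theorem qsOf_FOf (Hs : List (Finset Q)) (i : Q) : qsOf (FOf Hs) i = insert i (gateOf Hs i) := by
  unfold qsOf FOf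
  ext x
  simp only [Finset.mem_insert, Finset.mem_erase]
  tauto

theorem Gi_FOf (Hs : List (Finset Q)) (i : Q) :
    Gi (FOf Hs) (cOf Hs) i = if i ∈ gateOf Hs i then G1 (gateOf Hs i) else 1 := by
  unfold Gi cOf G1
  rw [qsOf_FOf]
  by_cases h : i ∈ gateOf Hs i
  · simp only [h, if_true]
    rw [Finset.insert_eq_of_mem h]
  · simp only [h, if_false]
    unfold gz
    simp

theorem GProd_sel {Hs : List (Finset Q)} (hHs : Hs.Pairwise Disjoint) (i : Q) :
    GProd (Hs.filter fun S => decide (i ∈ S)) = if i ∈ gateOf Hs i then G1 (gateOf Hs i) else 1 := by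
  induction Hs with
  | nil =>
    simp [GProd, gateOf]
  | cons T Hs ih =>
    have hih := ih (List.pairwise_cons.mp hHs).2
    by_cases hiT : i ∈ T
    · rw [List.filter_cons_of_pos (by simpa using hiT)]
      have hz : Hs.filter (fun S => decide (i ∈ S)) = [] := by
        rw [List.filter_eq_nil_iff]
        intro S hS
        have hd := (List.pairwise_cons.mp hHs).1 S hS
        simp only [decide_eq_true_eq]
        exact fun h => Finset.disjoint_left.mp hd hiT h
      rw [hz]
      simp [gateOf, hiT, GProd]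
    · rw [List.filter_cons_of_neg (by simpa using hiT)]
      simp only [gateOf, hiT, if_false]
      exact hih

theorem GProd_filter_partition {Hs : List (Finset Q)} (hHs : Hs.Pairwise Disjoint) (p : Finset Q → Bool) :
    GProd Hs = GProd (Hs.filter p) * GProd (Hs.filter fun g => !p g) := by
  induction Hs with
  | nil => simp [GProd]
  | cons S Hs ih =>
    have hih := ih (List.pairwise_cons.mp hHs).2
    have hdisj := (List.pairwise_cons.mp hHs).1
    by_cases hp : p S = true
    · have e1 : (S :: Hs).filter p = S :: Hs.filter p := List.filter_cons_of_pos hp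
      have e2 : (S :: Hs).filter (fun g => !p g) = Hs.filter fun g => !p g :=
        List.filter_cons_of_neg (by simp [hp])
      rw [e1, e2]
      show G1 S * GProd Hs = G1 S * GProd (Hs.filter p) * _
      rw [hih, mul_assoc]
    · have e1 : (S :: Hs).filter p = Hs.filter p := List.filter_cons_of_neg hp
      have e2 : (S :: Hs).filter (fun g => !p g) = S :: Hs.filter fun g => !p g :=
        List.filter_cons_of_pos (by simpa using hp)
      rw [e1, e2]
      show G1 S * GProd Hs = _ * (G1 S * GProd (Hs.filter fun g => !p g))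
      have hc : Commute (G1 S) (GProd (Hs.filter p)) :=
        G1_comm_GProd fun T hT => hdisj T (List.mem_filter.mp hT).1
      rw [hih, ← mul_assoc, ← mul_assoc, hc.eq]

/-- The gates containing no qubit of the list. -/
def restH (A : List Q) (Hs : List (Finset Q)) : List (Finset Q) :=
  Hs.filter fun S => decide (∀ i ∈ A, i ∉ S)

theorem GProd_partition {Hs : List (Finset Q)} (hHs : Hs.Pairwise Disjoint) (A : List Q)
    (hnd : A.Nodup) (hno : ∀ S ∈ Hs, ∀ i ∈ A, ∀ k ∈ A, i ≠ k → i ∈ S → k ∉ S) :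
    GProd Hs = (A.map fun i => GProd (Hs.filter fun S => decide (i ∈ S))).prod * GProd (restH A Hs) := by
  induction A generalizing Hs with
  | nil => simp [restH]
  | cons i A ih =>
    have hiA : i ∉ A := (List.nodup_cons.mp hnd).1
    have hnd' := (List.nodup_cons.mp hnd).2
    have h1 := GProd_filter_partition hHs (fun S => decide (i ∈ S))
    set Hs' := Hs.filter (fun S => !decide (i ∈ S)) with hHs'
    have hgood' : Hs'.Pairwise Disjoint := hHs.filter _
    have hno' : ∀ S ∈ Hs', ∀ j ∈ A, ∀ k ∈ A, j ≠ k → j ∈ S → k ∉ S :=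
      fun S hS j hj k hk => hno S (List.mem_filter.mp hS).1 j (by simp [hj]) k (by simp [hk])
    have h2 := ih hgood' hnd' hno'
    have e1 : ∀ k ∈ A, GProd (Hs'.filter fun S => decide (k ∈ S)) = GProd (Hs.filter fun S => decide (k ∈ S)) := by
      intro k hk
      have hne : i ≠ k := fun h => hiA (h ▸ hk)
      rw [hHs', List.filter_filter]
      congr 1
      refine List.filter_congr fun S hS => ?_
      by_cases hkS : k ∈ S
      · have hiS : i ∉ S := fun h => hno S hS i (by simp) k (by simp [hk]) hne h hkS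
        simp [hkS, hiS]
      · simp [hkS]
    have e2 : restH A Hs' = restH (i :: A) Hs := by
      unfold restH
      rw [hHs', List.filter_filter]
      refine List.filter_congr fun S _ => ?_
      by_cases hiS : i ∈ S <;> simp [hiS]
    have e3 : (A.map fun k => GProd (Hs'.filter fun S => decide (k ∈ S))).prod
        = (A.map fun k => GProd (Hs.filter fun S => decide (k ∈ S))).prod := by
      congr 1
      exact List.map_congr_left e1
    rw [e3, e2] at h2
    rw [h1, h2]
    simp only [List.map_cons, List.prod_cons]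
    rw [mul_assoc]

/-! ### The choice of representatives -/

/-- A representative of the inputs in `T`. -/
noncomputable def rpT (I T : Finset Q) (q : Q) : Q :=
  if h : (T ∩ I).Nonempty then h.choose else q

/-- The representative of a qubit. -/
noncomputable def rp (Hs : List (Finset Q)) (I : Finset Q) (q : Q) : Q := rpT I (gateOf Hs q) q

/-- The set of representatives. -/
noncomputable def PartSet (Hs : List (Finset Q)) (I : Finset Q) : Finset Q := I.image (rp Hs I)

section
variable {Hs : List (Finset Q)} {I : Finset Q}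

theorem rp_mem_I {q : Q} (hq : q ∈ I) : rp Hs I q ∈ I := by
  unfold rp rpT
  split_ifs with h
  · exact (Finset.mem_inter.mp h.choose_spec).2
  · exact hq

theorem rp_gate (hHs : Hs.Pairwise Disjoint) {q : Q} (hq : q ∈ I) {S : Finset Q} (hS : S ∈ Hs) (hqS : q ∈ S) :
    rp Hs I q ∈ S := by
  unfold rp
  rw [gateOf_spec hHs hS hqS]
  have h : (S ∩ I).Nonempty := ⟨q, Finset.mem_inter.mpr ⟨hqS, hq⟩⟩
  unfold rpT
  rw [dif_pos h]
  exact (Finset.mem_inter.mp h.choose_spec).1

theorem rp_bare {q : Q} (h : ∀ S ∈ Hs, q ∉ S) : rp Hs I q = q := by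
  unfold rp
  rw [gateOf_bare h]
  unfold rpT
  simp

theorem part_unique (hHs : Hs.Pairwise Disjoint) {i k : Q} (hi : i ∈ PartSet Hs I) (hk : k ∈ PartSet Hs I)
    {S : Finset Q} (hS : S ∈ Hs) (hiS : i ∈ S) (hkS : k ∈ S) : i = k := by
  have key : ∀ j ∈ PartSet Hs I, j ∈ S → ∃ h : (S ∩ I).Nonempty, j = h.choose := by
    intro j hj hjS
    obtain ⟨q, hq, rfl⟩ := Finset.mem_image.mp hj
    by_cases hgate : ∃ T ∈ Hs, q ∈ T
    · obtain ⟨T, hT, hqT⟩ := hgate
      have h1 := rp_gate hHs hq hT hqT
      have h2 : T = S := disj_of_mem hHs hT hS h1 hjS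
      subst h2
      have h : (T ∩ I).Nonempty := ⟨q, Finset.mem_inter.mpr ⟨hqT, hq⟩⟩
      refine ⟨h, ?_⟩
      unfold rp
      rw [gateOf_spec hHs hT hqT]
      unfold rpT
      rw [dif_pos h]
    · push Not at hgate
      rw [rp_bare hgate] at hjS
      exact absurd hjS (hgate S hS)
  obtain ⟨h1, e1⟩ := key i hi hiS
  obtain ⟨h2, e2⟩ := key k hk hkS
  rw [e1, e2]

theorem part_card (hHs : Hs.Pairwise Disjoint) {D : ℕ} (hD1 : 1 ≤ D) (hD : ∀ S ∈ Hs, (S ∩ I).card < D) :
    I.card ≤ D * (PartSet Hs I).card := by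
  refine Finset.card_le_mul_card_image I D ?_
  intro i hi
  by_cases hgate : ∃ S ∈ Hs, i ∈ S
  · obtain ⟨S, hS, hiS⟩ := hgate
    have hsub : (I.filter fun x => rp Hs I x = i) ⊆ S ∩ I := by
      intro x hx
      obtain ⟨hxI, hxi⟩ := Finset.mem_filter.mp hx
      refine Finset.mem_inter.mpr ⟨?_, hxI⟩
      by_cases hxg : ∃ T ∈ Hs, x ∈ T
      · obtain ⟨T, hT, hxT⟩ := hxg
        have h1 := rp_gate hHs hxI hT hxT
        rw [hxi] at h1
        have h2 : T = S := disj_of_mem hHs hT hS h1 hiS
        exact h2 ▸ hxT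
      · push Not at hxg
        rw [rp_bare hxg] at hxi
        exact hxi ▸ hiS
    exact (Finset.card_le_card hsub).trans (hD S hS).le
  · push Not at hgate
    have hsub : (I.filter fun x => rp Hs I x = i) ⊆ {i} := by
      intro x hx
      obtain ⟨hxI, hxi⟩ := Finset.mem_filter.mp hx
      rw [Finset.mem_singleton]
      by_cases hxg : ∃ T ∈ Hs, x ∈ T
      · obtain ⟨T, hT, hxT⟩ := hxg
        have h1 := rp_gate hHs hxI hT hxT
        rw [hxi] at h1
        exact absurd h1 (hgate T hT)
      · push Not at hxg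
        rw [rp_bare hxg] at hxi
        exact hxi
    have := Finset.card_le_card hsub
    simp only [Finset.card_singleton] at this
    exact this.trans hD1

end

/-- The party setting coming from a list of gates. -/
theorem PS_of_gates {u : Q → Bool → QV} (hu : ∀ q b, QUnit (u q b)) (hr : ∀ q, Rows (u q false) (u q true))
    {Hs : List (Finset Q)} (hHs : Hs.Pairwise Disjoint) (A : List Q) (hnd : A.Nodup)
    (hno : ∀ S ∈ Hs, ∀ i ∈ A, ∀ k ∈ A, i ≠ k → i ∈ S → k ∉ S) :
    PS u (FOf Hs) (cOf Hs) (GProd (restH A Hs)) A := by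
  have hgate : ∀ i, (i ∈ gateOf Hs i ∧ gateOf Hs i ∈ Hs) ∨ gateOf Hs i = ∅ := by
    intro i
    by_cases h : ∃ S ∈ Hs, i ∈ S
    · obtain ⟨S, hS, hiS⟩ := h
      rw [gateOf_spec hHs hS hiS]
      exact Or.inl ⟨hiS, hS⟩
    · push Not at h
      exact Or.inr (gateOf_bare h)
  refine ⟨hu, hr, ?_, hnd, ?_, ?_, ?_, GProd_iso _, ?_⟩
  · intro i
    unfold cOf
    split_ifs
    · exact Or.inr rfl
    · exact Or.inl rfl
  · intro i _
    unfold FOf
    simp
  · intro i _
    unfold cOf FOf
    by_cases h : i ∈ gateOf Hs i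
    · right; rw [if_pos h]
    · left
      rw [if_neg h]
      rcases hgate i with h2 | h2
      · exact absurd h2.1 h
      · rw [h2]; simp
  · intro i hi k hk hne
    rw [qsOf_FOf, qsOf_FOf, Finset.disjoint_left]
    intro q hq1 hq2
    rcases hgate i with ⟨hi1, hi2⟩ | hi0
    · rw [Finset.insert_eq_of_mem hi1] at hq1
      rcases hgate k with ⟨hk1, hk2⟩ | hk0
      · rw [Finset.insert_eq_of_mem hk1] at hq2
        have e := disj_of_mem hHs hi2 hk2 hq1 hq2
        exact hno _ hi2 i hi k hk hne hi1 (e ▸ hk1)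
      · rw [hk0] at hq2
        simp only [insert_empty_eq, Finset.mem_singleton] at hq2
        subst hq2
        have := gateOf_spec hHs hi2 hq1
        rw [this] at hk0
        rw [hk0] at hi1 hq1
        simp at hq1
    · rw [hi0] at hq1
      simp only [insert_empty_eq, Finset.mem_singleton] at hq1
      subst hq1
      rcases Finset.mem_insert.mp hq2 with rfl | hq3
      · exact hne rfl
      · rcases hgate k with ⟨hk1, hk2⟩ | hk0
        · have := gateOf_spec hHs hk2 hq3
          rw [this] at hi0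
          rw [hi0] at hq3
          simp at hq3
        · rw [hk0] at hq3
          simp at hq3
  · refine GProd_mem_Loc _ fun S hS => ?_
    intro q hq
    rw [Finset.mem_compl]
    intro hqE
    obtain ⟨i, hi, hqi⟩ := Finset.mem_biUnion.mp hqE
    have hi' := List.mem_toFinset.mp hi
    have hSp := List.mem_filter.mp hS
    have hnoA := of_decide_eq_true hSp.2
    rw [qsOf_FOf] at hqi
    rcases Finset.mem_insert.mp hqi with rfl | hq3
    · exact hnoA q hi' hq
    · rcases hgate i with ⟨hi1, hi2⟩ | hi0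
      · have e := disj_of_mem hHs hSp.1 hi2 hq hq3
        exact hnoA i hi' (e ▸ hi1)
      · rw [hi0] at hq3
        simp at hq3

/-- The first layer in terms of parties. -/
theorem GProd_eq_PG {Hs : List (Finset Q)} (hHs : Hs.Pairwise Disjoint) (A : List Q) (hnd : A.Nodup)
    (hno : ∀ S ∈ Hs, ∀ i ∈ A, ∀ k ∈ A, i ≠ k → i ∈ S → k ∉ S) :
    GProd Hs = PG (FOf Hs) (cOf Hs) A * GProd (restH A Hs) := by
  rw [GProd_partition hHs A hnd hno]
  congr 1
  unfold PG
  congr 1
  refine List.map_congr_left fun i _ => ?_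
  rw [GProd_sel hHs, Gi_FOf]

theorem Bnd_mono {L ε : ℝ} (hL : 0 < L) (m : ℕ) {n1 n2 : ℕ} (h : n1 ≤ n2) : Bnd L ε m n1 ≤ Bnd L ε m n2 := by
  unfold Bnd
  have h1 : (n1 : ℝ) ≤ n2 := by exact_mod_cast h
  have h2 : 8 * (n1 : ℝ) / L * Real.exp (-L / 8) ≤ 8 * (n2 : ℝ) / L * Real.exp (-L / 8) := by
    apply mul_le_mul_of_nonneg_right _ (Real.exp_pos _).le
    apply div_le_div_of_nonneg_right _ hL.le
    linarith
  linarith

/-- The bound for a first layer given by a list of gates. -/
theorem level2 {u : Q → Bool → QV} (hu : ∀ q b, QUnit (u q b)) (hr : ∀ q, Rows (u q false) (u q true))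
    {φ t : Q → QV} (hφ : ∀ q, QUnit (φ q)) (ht : ∀ q, QUnit (t q)) {l : List (GD Q)} (hl : GoodList l)
    (Inp : List Q) (hInp : Inp.Nodup) {Hs : List (Finset Q)} (hHs : Hs.Pairwise Disjoint)
    {a : Q → QV} (ha : ∀ q, QUnit (a q)) {D : ℕ} (hD1 : 1 ≤ D) {L ε : ℝ} (hL : 0 < L) (hε0 : 0 < ε)
    (hε1 : ε < 1) (m : ℕ) (hm : (m : ℝ) * (8 * L / ε + 1) ≤ ((Inp.length : ℝ) / D) / 2) :
    ‖sgnAvg u Inp (fun a' => ⟪GProd Hs (pv a'), XX φ t l (GProd Hs (pv a'))⟫_ℂ) a‖
      ≤ 4 * (Inp.length : ℝ) * Real.sqrt ((1 / 2 : ℝ) ^ D) + Bnd L ε m Inp.length := by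
  set I := Inp.toFinset with hI
  have hwide := wide_error hu hr Inp hInp Hs hHs D hD1 (XX_norm_le hl hφ ht) a ha
  set Hs' := Hs.filter (fun S => decide ((S ∩ Inp.toFinset).card < D)) with hHs'
  have hHs'd : Hs'.Pairwise Disjoint := hHs.filter _
  have hD : ∀ S ∈ Hs', (S ∩ I).card < D := by
    intro S hS
    have := (List.mem_filter.mp hS).2
    simpa using this
  set A := (PartSet Hs' I).toList with hA
  have hAnd : A.Nodup := Finset.nodup_toList _
  have hAlen : A.length = (PartSet Hs' I).card := Finset.length_toList _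
  have hAmem : ∀ i, i ∈ A ↔ i ∈ PartSet Hs' I := fun i => Finset.mem_toList
  have hno : ∀ S ∈ Hs', ∀ i ∈ A, ∀ k ∈ A, i ≠ k → i ∈ S → k ∉ S := by
    intro S hS i hi k hk hne hiS hkS
    exact hne (part_unique hHs'd ((hAmem i).mp hi) ((hAmem k).mp hk) hS hiS hkS)
  have hAI : ∀ i ∈ A, i ∈ Inp := by
    intro i hi
    obtain ⟨q, hq, rfl⟩ := Finset.mem_image.mp ((hAmem i).mp hi)
    exact List.mem_toFinset.mp (rp_mem_I hq)
  have hS := PS_of_gates hu hr hHs'd A hAnd hno
  have hcard : (Inp.length : ℝ) ≤ D * A.length := by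
    have h1 := part_card hHs'd hD1 hD
    have h2 : I.card = Inp.length := List.toFinset_card_of_nodup hInp
    rw [hAlen]
    rw [h2] at h1
    exact_mod_cast h1
  have hD0 : (0 : ℝ) < D := by exact_mod_cast hD1
  have hm' : (m : ℝ) * (8 * L / ε + 1) ≤ (A.length : ℝ) / 2 := by
    refine hm.trans ?_
    have : (Inp.length : ℝ) / D ≤ A.length := by
      rw [div_le_iff₀ hD0]
      linarith
    linarith
  have hlevel1 := fun (a' : Q → QV) (ha' : ∀ q, QUnit (a' q)) =>
    level1 hS hφ ht hl ha' hL hε0 hε1 m hm'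
  have hAlen2 : A.length ≤ Inp.length := by
    rw [hAlen]
    have h1 : (PartSet Hs' I).card ≤ I.card := Finset.card_image_le
    have h2 : I.card = Inp.length := List.toFinset_card_of_nodup hInp
    omega
  set r := Inp.filter fun i => decide (i ∉ A) with hr'
  have hperm : Inp.Perm (r ++ A) := by
    have h1 : List.Perm ((Inp.filter fun i => decide (i ∉ A)) ++ (Inp.filter fun i => !decide (i ∉ A))) Inp :=
      List.filter_append_perm _ _
    have h2 : List.Perm (Inp.filter fun i => !decide (i ∉ A)) A := by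
      rw [List.perm_ext_iff_of_nodup (hInp.filter _) hAnd]
      intro q
      simp only [List.mem_filter, decide_not, Bool.not_not, decide_eq_true_eq]
      constructor
      · exact fun h => h.2
      · exact fun h => ⟨hAI q h, h⟩
    exact (h1.symm).trans (h2.append_left _)
  have hfun : (fun a' : Q → QV => ⟪GProd Hs' (pv a'), XX φ t l (GProd Hs' (pv a'))⟫_ℂ)
      = fX (FOf Hs') (cOf Hs') (GProd (restH A Hs')) A (XX φ t l) := by
    funext a'
    unfold fX Psi
    rw [GProd_eq_PG hHs'd A hAnd hno]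
  have hrestr : ‖sgnAvg u Inp (fun a' => ⟪GProd Hs' (pv a'), XX φ t l (GProd Hs' (pv a'))⟫_ℂ) a‖
      ≤ Bnd L ε m Inp.length := by
    rw [hfun, sgnAvg_perm u hperm hInp]
    refine sgnAvg_restrict u r A (closed_unit hu r) _ (fun a' ha' => ?_) a ha
    exact (hlevel1 a' ha').trans (Bnd_mono hL m hAlen2)
  have htri := norm_sub_norm_le (sgnAvg u Inp (fun a' => ⟪GProd Hs (pv a'), XX φ t l (GProd Hs (pv a'))⟫_ℂ) a)
    (sgnAvg u Inp (fun a' => ⟪GProd Hs' (pv a'), XX φ t l (GProd Hs' (pv a'))⟫_ℂ) a)
  linarith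

end Vale.Agent.Lib.P368
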