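import Mathlib
import Vale.Agent.Lib.P368.Defs
import Vale.Agent.Lib.P368.Reps

/-!
# From matrices of gates to operators on the register
-/

set_option linter.unusedSectionVars false
set_option linter.unusedVariables false
set_option linter.unusedSimpArgs false
set_option linter.deprecated false
set_option linter.unusedTactic false
set_option linter.unreachableTactic false

namespace Vale.Agent.Lib.P368

open scoped BigOperators InnerProductSpace ComplexConjugate

variable {N : ℕ}

/-- The operator of a matrix. -/
noncomputable def toOp (M : Matrix (Cfg N) (Cfg N) ℂ) : Op (Fin N) :=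
  Matrix.toEuclideanCLM (n := Cfg N) (𝕜 := ℂ) M

theorem toOp_mul (A B : Matrix (Cfg N) (Cfg N) ℂ) : toOp (A * B) = toOp A * toOp B := by
  unfold toOp
  exact map_mul (Matrix.toEuclideanCLM (n := Cfg N) (𝕜 := ℂ)) A B

theorem toOp_one : toOp (1 : Matrix (Cfg N) (Cfg N) ℂ) = 1 := by
  unfold toOp
  exact map_one (Matrix.toEuclideanCLM (n := Cfg N) (𝕜 := ℂ))

theorem toOp_sub (A B : Matrix (Cfg N) (Cfg N) ℂ) : toOp (A - B) = toOp A - toOp B := by
  unfold toOp
  exact map_sub (Matrix.toEuclideanCLM (n := Cfg N) (𝕜 := ℂ)) A B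

theorem toOp_smul (c : ℂ) (A : Matrix (Cfg N) (Cfg N) ℂ) : toOp (c • A) = c • toOp A := by
  unfold toOp
  exact map_smul (Matrix.toEuclideanCLM (n := Cfg N) (𝕜 := ℂ)) c A

theorem toOp_poM (a : Fin N → QM) : toOp (poM a) = po a := rfl

/-- The single-qubit gate as a tensor product. -/
theorem singleMatrix_eq (q : Fin N) (U : Matrix Bool Bool ℂ) :
    singleMatrix q U = poM (fun p => if p = q then U else 1) := by
  ext x y
  simp only [singleMatrix, poM_apply, Matrix.of_apply]
  rw [← Finset.mul_prod_erase _ _ (Finset.mem_univ q)]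
  simp only [if_true]
  have h : ∀ p ∈ Finset.univ.erase q, (if p = q then U else (1 : QM)) (x p) (y p)
      = if x p = y p then 1 else 0 := by
    intro p hp
    rw [if_neg (Finset.ne_of_mem_erase hp), Matrix.one_apply]
  rw [Finset.prod_congr rfl h, Finset.prod_boole]
  by_cases hxy : ∀ p, p ≠ q → x p = y p
  · have : ∀ p ∈ Finset.univ.erase q, x p = y p := fun p hp => hxy p (Finset.ne_of_mem_erase hp)
    rw [if_pos hxy, if_pos this, mul_one]
  · have : ¬ ∀ p ∈ Finset.univ.erase q, x p = y p := by
      intro h2
      apply hxy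
      intro p hp
      exact h2 p (Finset.mem_erase.mpr ⟨hp, Finset.mem_univ p⟩)
    rw [if_neg hxy, if_neg this, mul_zero]

/-- The `minus` vector of the target of a Toffoli gate. -/
noncomputable def mn : QV := fun b => if b then -(((Real.sqrt 2)⁻¹ : ℝ) : ℂ) else (((Real.sqrt 2)⁻¹ : ℝ) : ℂ)

theorem mn_sq : (((Real.sqrt 2)⁻¹ : ℝ) : ℂ) * (((Real.sqrt 2)⁻¹ : ℝ) : ℂ) = 1 / 2 := by
  have h : (Real.sqrt 2)⁻¹ * (Real.sqrt 2)⁻¹ = (1 / 2 : ℝ) := by
    rw [← mul_inv, Real.mul_self_sqrt (by norm_num)]
    norm_num
  have h2 : (((Real.sqrt 2)⁻¹ * (Real.sqrt 2)⁻¹ : ℝ) : ℂ) = ((1 / 2 : ℝ) : ℂ) := by rw [h]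
  push_cast at h2 ⊢
  exact h2

theorem qunit_mn : QUnit mn := by
  rw [qunit_iff]
  simp only [mn, if_true, if_false, Bool.false_eq_true, norm_neg]
  have h : ‖(((Real.sqrt 2)⁻¹ : ℝ) : ℂ)‖ ^ 2 = 1 / 2 := by
    rw [Complex.norm_real, Real.norm_eq_abs, sq_abs, inv_pow, Real.sq_sqrt (by norm_num)]
    norm_num
  rw [h]
  norm_num

/-- The frame of a Toffoli gate. -/
noncomputable def fT (b : Fin N) (q : Fin N) : QV := if q = b then mn else e1

theorem qunit_fT (b q : Fin N) : QUnit (fT b q) := by
  unfold fT
  split_ifs
  · exact qunit_mn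
  · exact qunit_e1

theorem ket_mn_eq (i j : Bool) : ket mn mn i j = if i = j then (1 / 2 : ℂ) else -(1 / 2 : ℂ) := by
  simp only [ket, Matrix.of_apply, mn]
  have h := mn_sq
  cases i <;> cases j <;> simp [h, ← h, Complex.conj_ofReal]

theorem toffoli_entry (S : Finset (Fin N)) (b : Fin N) (hb : b ∉ S) (x y : Cfg N) :
    ∏ q, (if q ∈ insert b S then ket (fT b q) (fT b q) else (1 : QM)) (x q) (y q)
      = if (∀ q, q ≠ b → if q ∈ S then (x q = true ∧ y q = true) else x q = y q) then ket mn mn (x b) (y b) else 0 := by
  rw [← Finset.mul_prod_erase _ _ (Finset.mem_univ b)]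
  have h0 : (if b ∈ insert b S then ket (fT b b) (fT b b) else (1 : QM)) (x b) (y b) = ket mn mn (x b) (y b) := by
    simp [fT]
  rw [h0]
  have h : ∀ p ∈ Finset.univ.erase b, (if p ∈ insert b S then ket (fT b p) (fT b p) else (1 : QM)) (x p) (y p)
      = if (if p ∈ S then (x p = true ∧ y p = true) else x p = y p) then 1 else 0 := by
    intro p hp
    have hpb := Finset.ne_of_mem_erase hp
    by_cases hpS : p ∈ S
    · have h1 : p ∈ insert b S := Finset.mem_insert_of_mem hpS
      simp only [h1, hpS, if_true, fT, hpb, if_false, ket, e1, Matrix.of_apply]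
      cases x p <;> cases y p <;> simp
    · have h1 : p ∉ insert b S := by simp [hpb, hpS]
      simp only [h1, hpS, if_false, Matrix.one_apply]
  rw [Finset.prod_congr rfl h, Finset.prod_boole]
  by_cases hc : ∀ q, q ≠ b → if q ∈ S then (x q = true ∧ y q = true) else x q = y q
  · have h2 : ∀ p ∈ Finset.univ.erase b, (if p ∈ S then (x p = true ∧ y p = true) else x p = y p) :=
      fun p hp => hc p (Finset.ne_of_mem_erase hp)
    rw [if_pos hc, if_pos h2, mul_one]
  · have h2 : ¬ ∀ p ∈ Finset.univ.erase b, (if p ∈ S then (x p = true ∧ y p = true) else x p = y p) := by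
      intro h3
      apply hc
      intro p hp
      exact h3 p (Finset.mem_erase.mpr ⟨hp, Finset.mem_univ p⟩)
    rw [if_neg hc, if_neg h2, mul_zero]

/-- The Toffoli gate as a reflection. -/
theorem toffoli_eq (S : Finset (Fin N)) (b : Fin N) (hb : b ∉ S) :
    toffoliMatrix S b = 1 - (2 : ℂ) • poM (fun q => if q ∈ insert b S then ket (fT b q) (fT b q) else (1 : QM)) := by
  ext x y
  simp only [toffoliMatrix, Matrix.of_apply, Matrix.sub_apply, Matrix.smul_apply, smul_eq_mul, poM_apply,
    Matrix.one_apply]
  rw [toffoli_entry S b hb x y, ket_mn_eq]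
  unfold toffoliFlip
  by_cases hA : ∀ s ∈ S, y s = true
  · rw [if_pos hA]
    by_cases hoff : ∀ q, q ≠ b → x q = y q
    · have hc : ∀ q, q ≠ b → if q ∈ S then (x q = true ∧ y q = true) else x q = y q := by
        intro q hq
        by_cases hqS : q ∈ S
        · rw [if_pos hqS]
          have := hA q hqS
          exact ⟨by rw [hoff q hq]; exact this, this⟩
        · rw [if_neg hqS]
          exact hoff q hq
      rw [if_pos hc]
      by_cases hxb : x b = y b
      · have hxy : x = y := by
          funext q
          by_cases hq : q = b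
          · rw [hq]; exact hxb
          · exact hoff q hq
        subst hxy
        have h1 : x ≠ Function.update x b (!x b) := by
          intro h
          have := congrFun h b
          simp at this
        simp [h1]
      · have hxy : x ≠ y := fun h => hxb (by rw [h])
        have h1 : x = Function.update y b (!y b) := by
          funext q
          by_cases hq : q = b
          · subst hq
            simp only [Function.update_self]
            cases hx : x q <;> cases hy : y q <;> simp_all
          · rw [Function.update_of_ne hq]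
            exact hoff q hq
        rw [if_pos h1, if_neg hxy, if_neg hxb]
        norm_num
    · have hc : ¬ ∀ q, q ≠ b → if q ∈ S then (x q = true ∧ y q = true) else x q = y q := by
        intro h2
        apply hoff
        intro q hq
        have := h2 q hq
        by_cases hqS : q ∈ S
        · rw [if_pos hqS] at this
          rw [this.1, this.2]
        · rwa [if_neg hqS] at this
      rw [if_neg hc]
      have h1 : x ≠ Function.update y b (!y b) := by
        intro h
        apply hoff
        intro q hq
        rw [h, Function.update_of_ne hq]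
      have h2 : x ≠ y := by
        intro h
        apply hoff
        intro q _
        rw [h]
      rw [if_neg h1, if_neg h2]
      simp
  · rw [if_neg hA]
    have hc : ¬ ∀ q, q ≠ b → if q ∈ S then (x q = true ∧ y q = true) else x q = y q := by
      intro h2
      apply hA
      intro s hs
      have hsb : s ≠ b := fun h => hb (h ▸ hs)
      have := h2 s hsb
      rw [if_pos hs] at this
      exact this.2
    rw [if_neg hc]
    simp

theorem toOp_toffoli (S : Finset (Fin N)) (b : Fin N) (hb : b ∉ S) :
    toOp (toffoliMatrix S b) = gz 1 (insert b S) (fT b) := by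
  rw [toffoli_eq S b hb, toOp_sub, toOp_one, toOp_smul, toOp_poM]
  unfold gz bk
  rw [mul_one]

theorem toOp_single (q : Fin N) (U : Matrix Bool Bool ℂ) :
    toOp (singleMatrix q U) = po (fun p => if p = q then U else 1) := by
  rw [singleMatrix_eq, toOp_poM]

end Vale.Agent.Lib.P368
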