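import Mathlib
import Vale.Agent.Lib.P368.Conv

/-!
# The normal form of a circuit
-/

set_option linter.unusedSectionVars false
set_option linter.unusedVariables false
set_option linter.unusedSimpArgs false
set_option linter.deprecated false
set_option linter.unusedTactic false
set_option linter.unreachableTactic false

namespace Vale.Agent.Lib.P368

open scoped BigOperators InnerProductSpace ComplexConjugate

variable {Q : Type} [Fintype Q] [DecidableEq Q]

/-- A layer of framed reflections. -/
noncomputable def GPf (f : Q → QV) (Es : List (Finset Q)) : Op Q := (Es.map fun E => gz 1 E f).prod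

/-- One-qubit unitaries on all qubits. -/
def QU (A : Q → QM) : Prop := ∀ q, A q ∈ Matrix.unitaryGroup Bool ℂ

theorem QU.star_mul {A : Q → QM} (h : QU A) (q : Q) : (A q).conjTranspose * A q = 1 :=
  Matrix.mem_unitaryGroup_iff'.mp (h q)

theorem QU.mul_star {A : Q → QM} (h : QU A) (q : Q) : A q * (A q).conjTranspose = 1 :=
  Matrix.mem_unitaryGroup_iff.mp (h q)

theorem QU.one : QU (fun _ : Q => (1 : QM)) := fun _ => one_mem _

theorem QU.mul {A B : Q → QM} (hA : QU A) (hB : QU B) : QU (fun q => A q * B q) :=
  fun q => mul_mem (hA q) (hB q)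

theorem po_star_mul {A : Q → QM} (h : QU A) : star (po A) * po A = 1 := by
  rw [star_po, po_mul]
  have : (fun q => (A q).conjTranspose * A q) = fun _ => (1 : QM) := by
    funext q; exact h.star_mul q
  rw [this, po_one]

theorem po_mul_star {A : Q → QM} (h : QU A) : po A * star (po A) = 1 := by
  rw [star_po, po_mul]
  have : (fun q => A q * (A q).conjTranspose) = fun _ => (1 : QM) := by
    funext q; exact h.mul_star q
  rw [this, po_one]

theorem ket_conj (A : QM) (u v : QV) : A * ket u v * A.conjTranspose = ket (qapp A u) (qapp A v) := by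
  ext i j
  simp only [Matrix.mul_apply, ket, Matrix.of_apply, Matrix.conjTranspose_apply, qapp, RCLike.star_def,
    map_sum, map_mul]
  simp only [Fintype.sum_bool]
  ring

/-- Unitaries preserve unit vectors. -/
theorem qunit_qapp {A : QM} (h : A ∈ Matrix.unitaryGroup Bool ℂ) {v : QV} (hv : QUnit v) :
    QUnit (qapp A v) := by
  have h1 : A.conjTranspose * A = 1 := Matrix.mem_unitaryGroup_iff'.mp h
  have h2 : qdot (qapp A v) (qapp A v) = qdot v (qapp (A.conjTranspose * A) v) := by
    simp only [qdot, qapp, Matrix.mul_apply, Matrix.conjTranspose_apply, RCLike.star_def,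
      Fintype.sum_bool, map_add, map_mul]
    ring
  unfold QUnit at hv ⊢
  rw [h2, h1, qapp_one, hv]

/-- Conjugation of a reflection by a tensor product of unitaries. -/
theorem bk_conj {A : Q → QM} (h : QU A) (E : Finset Q) (f : Q → QV) :
    po A * bk E f f * star (po A) = bk E (fun q => qapp (A q) (f q)) (fun q => qapp (A q) (f q)) := by
  unfold bk
  rw [star_po, po_mul, po_mul]
  congr 1
  funext q
  by_cases hq : q ∈ E
  · simp only [hq, if_true]
    exact ket_conj _ _ _
  · simp only [hq, if_false, mul_one]
    exact h.mul_star q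

theorem gz_conj {A : Q → QM} (h : QU A) (c : ℂ) (E : Finset Q) (f : Q → QV) :
    po A * gz c E f * star (po A) = gz c E (fun q => qapp (A q) (f q)) := by
  unfold gz
  rw [mul_sub, sub_mul, mul_one, po_mul_star h, mul_smul_comm, smul_mul_assoc, bk_conj h]

theorem gz_push {A : Q → QM} (h : QU A) (c : ℂ) (E : Finset Q) (f : Q → QV) :
    po A * gz c E f = gz c E (fun q => qapp (A q) (f q)) * po A := by
  rw [← gz_conj h, mul_assoc (po A * gz c E f), po_star_mul h, mul_one]

theorem GPf_push {A : Q → QM} (h : QU A) (f : Q → QV) (Es : List (Finset Q)) :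
    po A * GPf f Es = GPf (fun q => qapp (A q) (f q)) Es * po A := by
  induction Es with
  | nil => simp [GPf]
  | cons E Es ih =>
    have e1 : GPf f (E :: Es) = gz 1 E f * GPf f Es := rfl
    have e2 : GPf (fun q => qapp (A q) (f q)) (E :: Es)
        = gz 1 E (fun q => qapp (A q) (f q)) * GPf (fun q => qapp (A q) (f q)) Es := rfl
    rw [e1, e2, ← mul_assoc, gz_push h, mul_assoc, ih, mul_assoc]

theorem GPf_nil (f : Q → QV) : GPf f [] = 1 := rfl

theorem GPf_congr {f f' : Q → QV} {Es : List (Finset Q)} (h : ∀ E ∈ Es, ∀ q ∈ E, f q = f' q) :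
    GPf f Es = GPf f' Es := by
  unfold GPf
  congr 1
  refine List.map_congr_left fun E hE => ?_
  unfold gz
  rw [bk_congr (h E hE) (h E hE)]

theorem GPf_e1 (Es : List (Finset Q)) : GPf (fun _ => e1) Es = GProd Es := rfl

section
variable {N : ℕ}

/-- Support of a list of gates. -/
def suppL : List (Gate N) → Finset (Fin N)
  | [] => ∅
  | g :: gs => g.support ∪ suppL gs

theorem disjoint_suppL {g : Gate N} {gs : List (Gate N)} (h : ∀ h' ∈ gs, Disjoint g.support h'.support) :
    Disjoint g.support (suppL gs) := by
  induction gs with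
  | nil => simp [suppL]
  | cons h' gs ih =>
    simp only [suppL]
    rw [Finset.disjoint_union_right]
    exact ⟨h h' (by simp), ih fun x hx => h x (by simp [hx])⟩

/-- The normal form of a list of gates with disjoint supports. -/
theorem layer_nf (gs : List (Gate N)) (hgs : gs.Pairwise fun g h => Disjoint g.support h.support) :
    ∃ (A : Fin N → QM) (Es : List (Finset (Fin N))) (f : Fin N → QV),
      QU A ∧ (∀ q, QUnit (f q)) ∧ Es.Pairwise Disjoint ∧ (∀ q, q ∉ suppL gs → A q = 1) ∧
      (∀ E ∈ Es, E ⊆ suppL gs) ∧ (gs.any Gate.isEntangling = false → Es = []) ∧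
      toOp (gs.map Gate.matrix).prod = po A * GPf f Es := by
  induction gs with
  | nil =>
    refine ⟨fun _ => 1, [], fun _ => e1, QU.one, fun _ => qunit_e1, List.Pairwise.nil, fun _ _ => rfl,
      by simp, fun _ => rfl, ?_⟩
    simp only [List.map_nil, List.prod_nil, toOp_one, po_one, GPf_nil, mul_one]
  | cons g gs ih =>
    have hd := disjoint_suppL (List.pairwise_cons.mp hgs).1
    obtain ⟨A, Es, f, hA, hf, hEs, hA1, hEsub, hany, hop⟩ := ih (List.pairwise_cons.mp hgs).2
    have hprod : toOp ((g :: gs).map Gate.matrix).prod = toOp g.matrix * (po A * GPf f Es) := by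
      simp only [List.map_cons, List.prod_cons]
      rw [toOp_mul, hop]
    cases g with
    | single q U hU =>
      have hqS : q ∉ suppL gs := by
        have : q ∈ (Gate.single q U hU).support := by simp [Gate.support]
        exact Finset.disjoint_left.mp hd this
      refine ⟨fun p => (if p = q then U else 1) * A p, Es, f, ?_, hf, hEs, ?_, ?_, ?_, ?_⟩
      · intro p
        refine mul_mem ?_ (hA p)
        split_ifs
        · exact hU
        · exact one_mem _
      · intro p hp
        simp only [suppL, Finset.mem_union, not_or, Gate.support, Finset.mem_singleton] at hp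
        show (if p = q then U else 1) * A p = 1
        rw [if_neg hp.1, one_mul]
        exact hA1 p hp.2
      · intro E hE
        exact (hEsub E hE).trans Finset.subset_union_right
      · intro h
        apply hany
        simpa [Gate.isEntangling] using h
      · rw [hprod]
        have : (Gate.single q U hU).matrix = singleMatrix q U := rfl
        rw [this, toOp_single, ← mul_assoc, po_mul]
    | toffoli S b hS hb =>
      set E0 : Finset (Fin N) := insert b S with hE0
      have hsupp : (Gate.toffoli S b hS hb).support = E0 := rfl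
      rw [hsupp] at hd
      have hmat : toOp (Gate.toffoli S b hS hb).matrix = gz 1 E0 (fT b) := toOp_toffoli S b hb
      set f' : Fin N → QV := fun q => if q ∈ E0 then fT b q else f q with hf'
      have hcomm : Commute (gz 1 E0 (fT b)) (po A) := by
        refine Loc_commute hd (gz_mem_Loc subset_rfl _ _) (po_mem_Loc ?_)
        intro q hq
        exact hA1 q hq
      refine ⟨A, E0 :: Es, f', hA, ?_, ?_, ?_, ?_, ?_, ?_⟩
      · intro q
        rw [hf']
        dsimp only
        split_ifs
        · exact qunit_fT b q
        · exact hf q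
      · refine List.Pairwise.cons ?_ hEs
        intro E hE
        exact Finset.disjoint_of_subset_right (hEsub E hE) hd
      · intro q hq
        simp only [suppL, Finset.mem_union, not_or] at hq
        exact hA1 q hq.2
      · intro E hE
        rcases List.mem_cons.mp hE with rfl | hE'
        · exact Finset.subset_union_left
        · exact (hEsub E hE').trans Finset.subset_union_right
      · intro h
        simp [Gate.isEntangling] at h
      · have e1 : GPf f' (E0 :: Es) = gz 1 E0 f' * GPf f' Es := rfl
        have e2 : gz 1 E0 f' = gz 1 E0 (fT b) := by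
          unfold gz
          rw [bk_congr (f' := fT b) (g' := fT b) (fun q hq => by simp [hf', hq]) (fun q hq => by simp [hf', hq])]
        have e3 : GPf f' Es = GPf f Es := by
          refine GPf_congr fun E hE q hq => ?_
          have : q ∉ E0 := fun h =>
            Finset.disjoint_left.mp hd h (hEsub E hE hq)
          simp [hf', this]
        rw [hprod, hmat, e1, e2, e3, ← mul_assoc, hcomm.eq, mul_assoc]

/-- The normal form of a circuit. -/
theorem circuit_nf (c : Circuit N) :
    ∃ (V W : Fin N → QM) (ls : List (List (Finset (Fin N)) × (Fin N → QV))),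
      QU V ∧ QU W ∧ (∀ p ∈ ls, p.1.Pairwise Disjoint ∧ ∀ q, QUnit (p.2 q)) ∧
      ls.length = c.entanglingDepth ∧
      toOp c.matrix = po V * (ls.map fun p => GPf p.2 p.1).prod * po W := by
  induction c with
  | nil =>
    refine ⟨fun _ => 1, fun _ => 1, [], QU.one, QU.one, by simp, rfl, ?_⟩
    simp [Circuit.matrix, toOp_one, po_one]
  | cons L c' ih =>
    obtain ⟨V, W, ls, hV, hW, hls, hlen, hop⟩ := ih
    obtain ⟨A, Es, f, hA, hf, hEs, _, _, hany, hL⟩ := layer_nf L.gates L.disjoint
    have hmat : toOp (Circuit.matrix (L :: c')) = toOp (Circuit.matrix c') * toOp L.matrix := by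
      unfold Circuit.matrix
      simp only [List.map_cons, List.reverse_cons, List.prod_append, List.prod_cons, List.prod_nil, mul_one]
      rw [toOp_mul]
    have hLm : toOp L.matrix = po A * GPf f Es := hL
    set B : Fin N → QM := fun q => W q * A q with hB
    have hBU : QU B := hW.mul hA
    have hpo : po W * po A = po B := po_mul W A
    have hpush := GPf_push hBU f Es
    by_cases hent : L.gates.any Gate.isEntangling = true
    · refine ⟨V, B, ls ++ [(Es, fun q => qapp (B q) (f q))], hV, hBU, ?_, ?_, ?_⟩
      · intro p hp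
        rcases List.mem_append.mp hp with h | h
        · exact hls p h
        · rcases List.mem_singleton.mp h with rfl
          exact ⟨hEs, fun q => qunit_qapp (hBU q) (hf q)⟩
      · simp only [List.length_append, List.length_singleton, hlen]
        unfold Circuit.entanglingDepth
        rw [List.filter_cons_of_pos (p := fun L : Layer N => L.gates.any Gate.isEntangling) hent]
        simp
      · rw [hmat, hop, hLm]
        simp only [List.map_append, List.prod_append, List.map_cons, List.map_nil, List.prod_cons, List.prod_nil,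
          mul_one]
        calc po V * (ls.map fun p => GPf p.2 p.1).prod * po W * (po A * GPf f Es)
            = po V * (ls.map fun p => GPf p.2 p.1).prod * ((po W * po A) * GPf f Es) := by
              simp only [mul_assoc]
          _ = po V * (ls.map fun p => GPf p.2 p.1).prod * (GPf (fun q => qapp (B q) (f q)) Es * po B) := by
              rw [hpo, hpush]
          _ = _ := by simp only [mul_assoc]
    · have hent' : L.gates.any Gate.isEntangling = false := by simpa using hent
      have hEs0 := hany hent'
      refine ⟨V, B, ls, hV, hBU, hls, ?_, ?_⟩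
      · rw [hlen]
        unfold Circuit.entanglingDepth
        rw [List.filter_cons_of_neg (p := fun L : Layer N => L.gates.any Gate.isEntangling) hent]
      · rw [hmat, hop, hLm, hEs0, GPf_nil, mul_one]
        calc po V * (ls.map fun p => GPf p.2 p.1).prod * po W * po A
            = po V * (ls.map fun p => GPf p.2 p.1).prod * (po W * po A) := by simp only [mul_assoc]
          _ = _ := by rw [hpo]

/-- The normal form with exactly three layers. -/
theorem circuit_nf3 (c : Circuit N) (hc : c.entanglingDepth ≤ 3) :
    ∃ (V W : Fin N → QM) (E3 E2 E1 : List (Finset (Fin N))) (f3 f2 f1 : Fin N → QV),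
      QU V ∧ QU W ∧ E3.Pairwise Disjoint ∧ E2.Pairwise Disjoint ∧ E1.Pairwise Disjoint ∧
      (∀ q, QUnit (f3 q)) ∧ (∀ q, QUnit (f2 q)) ∧ (∀ q, QUnit (f1 q)) ∧
      toOp c.matrix = po V * (GPf f3 E3 * (GPf f2 E2 * (GPf f1 E1 * po W))) := by
  obtain ⟨V, W, ls, hV, hW, hls, hlen, hop⟩ := circuit_nf c
  rw [← hlen] at hc
  have he : ∀ q : Fin N, QUnit ((fun _ => e1 : Fin N → QV) q) := fun _ => qunit_e1
  match ls, hc, hls, hop with
  | [], _, _, hop =>
    refine ⟨V, W, [], [], [], fun _ => e1, fun _ => e1, fun _ => e1, hV, hW, List.Pairwise.nil, List.Pairwise.nil,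
      List.Pairwise.nil, he, he, he, ?_⟩
    rw [hop]
    simp [GPf_nil]
  | [p1], _, hls, hop =>
    have h1 := hls p1 (by simp)
    refine ⟨V, W, [], [], p1.1, fun _ => e1, fun _ => e1, p1.2, hV, hW, List.Pairwise.nil, List.Pairwise.nil,
      h1.1, he, he, h1.2, ?_⟩
    rw [hop]
    simp [GPf_nil, mul_assoc]
  | [p2, p1], _, hls, hop =>
    have h1 := hls p1 (by simp)
    have h2 := hls p2 (by simp)
    refine ⟨V, W, [], p2.1, p1.1, fun _ => e1, p2.2, p1.2, hV, hW, List.Pairwise.nil, h2.1, h1.1, he, h2.2, h1.2, ?_⟩
    rw [hop]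
    simp [GPf_nil, mul_assoc]
  | [p3, p2, p1], _, hls, hop =>
    have h1 := hls p1 (by simp)
    have h2 := hls p2 (by simp)
    have h3 := hls p3 (by simp)
    refine ⟨V, W, p3.1, p2.1, p1.1, p3.2, p2.2, p1.2, hV, hW, h3.1, h2.1, h1.1, h3.2, h2.2, h1.2, ?_⟩
    rw [hop]
    simp [mul_assoc]
  | _ :: _ :: _ :: _ :: _, hc, _, _ =>
    simp at hc
    omega

end

/-! ### The frame of the first layer -/

/-- The vector orthogonal to a given vector. -/
noncomputable def perpV (v : QV) : QV := fun b => if b then conj (v false) else -conj (v true)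

/-- A unitary that maps a given unit vector to `e1`. -/
noncomputable def Yf (v : QV) : QM := ket e1 v + ket e0 (perpV v)

theorem qdot_perp_self {v : QV} : qdot (perpV v) v = 0 := by
  simp only [qdot, perpV, Fintype.sum_bool, if_true, if_false, Bool.false_eq_true, map_neg, Complex.conj_conj]
  ring

theorem qdot_self_perp {v : QV} : qdot v (perpV v) = 0 := by
  simp only [qdot, perpV, Fintype.sum_bool, if_true, if_false, Bool.false_eq_true]
  ring

theorem qdot_perp_perp {v : QV} (hv : QUnit v) : qdot (perpV v) (perpV v) = 1 := by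
  have h : qdot v v = 1 := hv
  simp only [qdot, Fintype.sum_bool] at h
  simp only [qdot, perpV, Fintype.sum_bool, if_true, if_false, Bool.false_eq_true, map_neg, Complex.conj_conj]
  linear_combination h

theorem Yf_unitary {v : QV} (hv : QUnit v) : Yf v ∈ Matrix.unitaryGroup Bool ℂ := by
  rw [Matrix.mem_unitaryGroup_iff]
  have h1 : qdot v v = 1 := hv
  have h2 := qdot_perp_perp hv
  have h3 : qdot v (perpV v) = 0 := qdot_self_perp
  have h4 : qdot (perpV v) v = 0 := qdot_perp_self
  unfold Yf
  rw [Matrix.star_eq_conjTranspose, Matrix.conjTranspose_add, ket_conjTranspose, ket_conjTranspose]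
  simp only [add_mul, mul_add, ket_mul_ket, h1, h2, h3, h4, one_smul, zero_smul, add_zero, zero_add]
  ext i j
  cases i <;> cases j <;> simp [ket, e1, e0]

theorem Yf_apply {v : QV} (hv : QUnit v) : qapp (Yf v) v = e1 := by
  have h1 : qdot v v = 1 := hv
  have h4 : qdot (perpV v) v = 0 := qdot_perp_self
  funext b
  unfold qapp Yf
  have e : ∀ (u w : QV) (z : QV), ∑ j, ket u w b j * z j = qdot w z * u b := by
    intro u w z
    simp only [ket, Matrix.of_apply, qdot, Fintype.sum_bool]
    ring
  simp only [Matrix.add_apply, add_mul, Finset.sum_add_distrib, e, h1, h4]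
  simp

/-- The normal form with the first layer in the computational frame. -/
theorem circuit_nf3' {N : ℕ} (c : Circuit N) (hc : c.entanglingDepth ≤ 3) :
    ∃ (V W : Fin N → QM) (E3 E2 E1 : List (Finset (Fin N))) (f3 f2 : Fin N → QV),
      QU V ∧ QU W ∧ E3.Pairwise Disjoint ∧ E2.Pairwise Disjoint ∧ E1.Pairwise Disjoint ∧
      (∀ q, QUnit (f3 q)) ∧ (∀ q, QUnit (f2 q)) ∧
      toOp c.matrix = po V * (GPf f3 E3 * (GPf f2 E2 * (GProd E1 * po W))) := by
  obtain ⟨V, W, E3, E2, E1, f3, f2, f1, hV, hW, h3, h2, h1, hf3, hf2, hf1, hop⟩ := circuit_nf3 c hc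
  set Y : Fin N → QM := fun q => Yf (f1 q) with hY
  have hYU : QU Y := fun q => Yf_unitary (hf1 q)
  have hYs : QU (fun q => (Y q).conjTranspose) := by
    intro q
    rw [Matrix.mem_unitaryGroup_iff, Matrix.star_eq_conjTranspose, Matrix.conjTranspose_conjTranspose]
    exact hYU.star_mul q
  have hf1' : (fun q => qapp (Y q) (f1 q)) = fun _ => e1 := by
    funext q
    exact Yf_apply (hf1 q)
  refine ⟨fun q => V q * (Y q).conjTranspose, fun q => Y q * W q, E3, E2, E1,
    fun q => qapp (Y q) (f3 q), fun q => qapp (Y q) (f2 q), hV.mul hYs, hYU.mul hW, h3, h2, h1,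
    fun q => qunit_qapp (hYU q) (hf3 q), fun q => qunit_qapp (hYU q) (hf2 q), ?_⟩
  rw [hop]
  have e1' : po (fun q => V q * (Y q).conjTranspose) = po V * star (po Y) := by
    rw [star_po, po_mul]
  have e2' : po (fun q => Y q * W q) = po Y * po W := (po_mul Y W).symm
  rw [e1', e2', ← GPf_e1, ← hf1']
  have h3' := GPf_push hYU f3 E3
  have h2' := GPf_push hYU f2 E2
  have h1' := GPf_push hYU f1 E1
  have hiso : star (po Y) * po Y = 1 := po_star_mul hYU
  have key : GPf f3 E3 * (GPf f2 E2 * (GPf f1 E1 * po W))
      = star (po Y) * (GPf (fun q => qapp (Y q) (f3 q)) E3 * (GPf (fun q => qapp (Y q) (f2 q)) E2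
        * (GPf (fun q => qapp (Y q) (f1 q)) E1 * (po Y * po W)))) := by
    calc GPf f3 E3 * (GPf f2 E2 * (GPf f1 E1 * po W))
        = star (po Y) * (po Y * (GPf f3 E3 * (GPf f2 E2 * (GPf f1 E1 * po W)))) := by
          rw [← mul_assoc (star (po Y)) (po Y), hiso, one_mul]
      _ = star (po Y) * ((po Y * GPf f3 E3) * (GPf f2 E2 * (GPf f1 E1 * po W))) := by simp only [mul_assoc]
      _ = star (po Y) * (GPf (fun q => qapp (Y q) (f3 q)) E3 * (po Y * (GPf f2 E2 * (GPf f1 E1 * po W)))) := by
          rw [h3']; simp only [mul_assoc]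
      _ = star (po Y) * (GPf (fun q => qapp (Y q) (f3 q)) E3 * ((po Y * GPf f2 E2) * (GPf f1 E1 * po W))) := by
          simp only [mul_assoc]
      _ = star (po Y) * (GPf (fun q => qapp (Y q) (f3 q)) E3 * (GPf (fun q => qapp (Y q) (f2 q)) E2
            * (po Y * (GPf f1 E1 * po W)))) := by
          rw [h2']; simp only [mul_assoc]
      _ = star (po Y) * (GPf (fun q => qapp (Y q) (f3 q)) E3 * (GPf (fun q => qapp (Y q) (f2 q)) E2
            * ((po Y * GPf f1 E1) * po W))) := by
          simp only [mul_assoc]
      _ = _ := by rw [h1']; simp only [mul_assoc]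
  rw [key]
  simp only [mul_assoc]

end Vale.Agent.Lib.P368
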