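import Mathlib
import Vale.Agent.Lib.P368.Normal

/-!
# The signed average over all inputs
-/

set_option linter.unusedSectionVars false
set_option linter.unusedVariables false
set_option linter.unusedSimpArgs false
set_option linter.deprecated false
set_option linter.unusedTactic false
set_option linter.unreachableTactic false

namespace Vale.Agent.Lib.P368

open scoped BigOperators InnerProductSpace ComplexConjugate

section
variable {Q : Type} [Fintype Q] [DecidableEq Q]

theorem sgnAvg_powerset (u : Q → Bool → QV) (l : List Q) (hnd : l.Nodup) (g : (Q → QV) → ℂ) (a : Q → QV) :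
    sgnAvg u l g a = (1 / 2 : ℂ) ^ l.length * ∑ s ∈ l.toFinset.powerset, (-1 : ℂ) ^ s.card
      * g (fun q => if q ∈ l then u q (decide (q ∈ s)) else a q) := by
  induction l generalizing a with
  | nil => simp [sgnAvg]
  | cons q l ih =>
    have hq : q ∉ l := (List.nodup_cons.mp hnd).1
    have hq' : q ∉ l.toFinset := by simpa using hq
    have hnd' := (List.nodup_cons.mp hnd).2
    simp only [sgnAvg]
    rw [ih hnd', ih hnd']
    rw [List.toFinset_cons, Finset.sum_powerset_insert hq', List.length_cons, pow_succ]
    have hf : ∀ s ∈ l.toFinset.powerset, (fun p => if p ∈ l then u p (decide (p ∈ s))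
          else Function.update a q (u q false) p)
        = fun p => if p ∈ q :: l then u p (decide (p ∈ s)) else a p := by
      intro s hs
      funext p
      by_cases hp : p = q
      · subst hp
        have hps : p ∉ s := fun h => hq' (Finset.mem_powerset.mp hs h)
        simp [hq, hps]
      · by_cases hpl : p ∈ l
        · simp [hpl]
        · simp [hpl, hp]
    have ht : ∀ s ∈ l.toFinset.powerset, (fun p => if p ∈ l then u p (decide (p ∈ s))
          else Function.update a q (u q true) p)
        = fun p => if p ∈ q :: l then u p (decide (p ∈ insert q s)) else a p := by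
      intro s hs
      funext p
      by_cases hp : p = q
      · subst hp
        simp [hq]
      · by_cases hpl : p ∈ l
        · simp [hpl, hp]
        · simp [hpl, hp]
    have hc : ∀ s ∈ l.toFinset.powerset, (-1 : ℂ) ^ (insert q s).card = -(-1 : ℂ) ^ s.card := by
      intro s hs
      have hqs : q ∉ s := fun h => hq' (Finset.mem_powerset.mp hs h)
      rw [Finset.card_insert_of_notMem hqs, pow_succ]
      ring
    have S0 : ∑ s ∈ l.toFinset.powerset, (-1 : ℂ) ^ s.card * g (fun p => if p ∈ l then u p (decide (p ∈ s))
          else Function.update a q (u q false) p)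
        = ∑ s ∈ l.toFinset.powerset, (-1 : ℂ) ^ s.card
          * g (fun p => if p ∈ q :: l then u p (decide (p ∈ s)) else a p) :=
      Finset.sum_congr rfl fun s hs => by rw [hf s hs]
    have S1 : ∑ s ∈ l.toFinset.powerset, (-1 : ℂ) ^ s.card * g (fun p => if p ∈ l then u p (decide (p ∈ s))
          else Function.update a q (u q true) p)
        = ∑ s ∈ l.toFinset.powerset, (-1 : ℂ) ^ s.card
          * g (fun p => if p ∈ q :: l then u p (decide (p ∈ insert q s)) else a p) :=
      Finset.sum_congr rfl fun s hs => by rw [ht s hs]
    rw [S0, S1]
    have e2 : ∑ s ∈ l.toFinset.powerset, (-1 : ℂ) ^ (insert q s).card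
          * g (fun p => if p ∈ q :: l then u p (decide (p ∈ insert q s)) else a p)
        = - ∑ s ∈ l.toFinset.powerset, (-1 : ℂ) ^ s.card
          * g (fun p => if p ∈ q :: l then u p (decide (p ∈ insert q s)) else a p) := by
      rw [← Finset.sum_neg_distrib]
      refine Finset.sum_congr rfl fun s hs => ?_
      rw [hc s hs]
      ring
    rw [e2]
    ring

theorem sgnAvg_const_zero (u : Q → Bool → QV) {l : List Q} (hl : l ≠ []) (c : ℂ) (a : Q → QV) :
    sgnAvg u l (fun _ => c) a = 0 := by
  have key : ∀ (l : List Q) (a : Q → QV) (a' : Q → QV),
      sgnAvg u l (fun _ => c) a = sgnAvg u l (fun _ => c) a' := by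
    intro l
    induction l with
    | nil => intro _ _; rfl
    | cons r l ih =>
      intro a a'
      simp only [sgnAvg]
      rw [ih (Function.update a r (u r false)) (Function.update a r (u r true))]
      rw [ih (Function.update a' r (u r false)) (Function.update a' r (u r true))]
      simp
  cases l with
  | nil => exact absurd rfl hl
  | cons r l =>
    simp only [sgnAvg]
    rw [key l (Function.update a r (u r false)) (Function.update a r (u r true))]
    simp

end

section
variable {N n : ℕ}

/-- The list of input qubits. -/
def Inputs (hn : n ≤ N) : List (Fin N) := (List.finRange n).map (Fin.castLE hn)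

theorem Inputs_nodup (hn : n ≤ N) : (Inputs hn).Nodup :=
  (List.nodup_finRange n).map (Fin.castLE_injective hn)

theorem Inputs_length (hn : n ≤ N) : (Inputs hn).length = n := by
  simp [Inputs]

theorem mem_Inputs (hn : n ≤ N) (q : Fin N) : q ∈ Inputs hn ↔ q.val < n := by
  simp only [Inputs, List.mem_map, List.mem_finRange, true_and]
  constructor
  · rintro ⟨i, rfl⟩
    simp
  · intro h
    exact ⟨⟨q.val, h⟩, by ext; simp⟩

/-- The sign of an input. -/
def sgnOf (x : Fin n → Bool) : ℂ := if parityBit x then -1 else 1

theorem sgnOf_eq (x : Fin n → Bool) : sgnOf x = (-1 : ℂ) ^ (Finset.univ.filter fun i => x i = true).card := by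
  unfold sgnOf parityBit
  set k := (Finset.univ.filter fun i => x i = true).card
  by_cases h : k % 2 = 1
  · have h2 : (k % 2 == 1) = true := by simpa using h
    rw [if_pos h2]
    rw [Odd.neg_one_pow (Nat.odd_iff.mpr h)]
  · have h2 : (k % 2 == 1) = false := by simpa using h
    rw [h2]
    have : Even k := Nat.even_iff.mpr (by omega)
    rw [this.neg_one_pow]
    simp

/-- The signed average over all inputs. -/
theorem sgnAvg_inputs (hn : n ≤ N) (u : Fin N → Bool → QV) (g : (Fin N → QV) → ℂ) :
    sgnAvg u (Inputs hn) g (fun q => u q false)
      = (1 / 2 : ℂ) ^ n * ∑ x : Fin n → Bool, sgnOf x * g (fun q => u q (startCfg x q)) := by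
  rw [sgnAvg_powerset u _ (Inputs_nodup hn), Inputs_length]
  congr 1
  set ι := Fin.castLE hn with hι
  have hinj : Function.Injective ι := Fin.castLE_injective hn
  refine Finset.sum_bij' (fun s _ => fun i => decide (ι i ∈ s))
    (fun x _ => (Finset.univ.filter fun i => x i = true).image ι) (fun _ _ => Finset.mem_univ _) ?_ ?_ ?_ ?_
  · intro x _
    rw [Finset.mem_powerset]
    intro q hq
    obtain ⟨i, _, rfl⟩ := Finset.mem_image.mp hq
    rw [List.mem_toFinset, mem_Inputs]
    simp [hι]
  · intro s hs
    ext q
    simp only [Finset.mem_image, Finset.mem_filter, Finset.mem_univ, true_and, decide_eq_true_eq]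
    constructor
    · rintro ⟨i, hi, rfl⟩
      exact hi
    · intro hq
      have hq2 := Finset.mem_powerset.mp hs hq
      rw [List.mem_toFinset, mem_Inputs] at hq2
      exact ⟨⟨q.val, hq2⟩, by
        have : ι ⟨q.val, hq2⟩ = q := by ext; simp [hι]
        rwa [this], by ext; simp [hι]⟩
  · intro x _
    funext i
    have : (ι i ∈ (Finset.univ.filter fun i => x i = true).image ι) ↔ x i = true := by
      rw [hinj.mem_finset_image]
      simp
    simp only [this]
    cases x i <;> simp
  · intro s hs
    have hsub := Finset.mem_powerset.mp hs
    set x : Fin n → Bool := fun i => decide (ι i ∈ s) with hx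
    have hcard : (Finset.univ.filter fun i => x i = true).card = s.card := by
      have himg : (Finset.univ.filter fun i => x i = true).image ι = s := by
        ext q
        simp only [Finset.mem_image, Finset.mem_filter, Finset.mem_univ, true_and, hx, decide_eq_true_eq]
        constructor
        · rintro ⟨i, hi, rfl⟩
          exact hi
        · intro hq
          have hq2 := hsub hq
          rw [List.mem_toFinset, mem_Inputs] at hq2
          exact ⟨⟨q.val, hq2⟩, by
            have : ι ⟨q.val, hq2⟩ = q := by ext; simp [hι]
            rwa [this], by ext; simp [hι]⟩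
      rw [← himg, Finset.card_image_of_injective _ hinj]
    rw [sgnOf_eq, hcard]
    congr 2
    funext q
    by_cases hq : q.val < n
    · have hqI : q ∈ Inputs hn := (mem_Inputs hn q).mpr hq
      have e : startCfg x q = decide (q ∈ s) := by
        unfold startCfg
        rw [dif_pos hq]
        simp only [hx]
        have : ι ⟨q.val, hq⟩ = q := by ext; simp [hι]
        rw [this]
      rw [if_pos hqI, e]
    · have hqI : q ∉ Inputs hn := fun h => hq ((mem_Inputs hn q).mp h)
      have e : startCfg x q = false := by
        unfold startCfg
        rw [dif_neg hq]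
      rw [if_neg hqI, e]

end

end Vale.Agent.Lib.P368
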