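import Mathlib
import Vale.Agent.Lib.P368.Sign

/-!
# The observable in the Heisenberg picture
-/

set_option linter.unusedSectionVars false
set_option linter.unusedVariables false
set_option linter.unusedSimpArgs false
set_option linter.deprecated false
set_option linter.unusedTactic false
set_option linter.unreachableTactic false

namespace Vale.Agent.Lib.P368

open scoped BigOperators InnerProductSpace ComplexConjugate

variable {Q : Type} [Fintype Q] [DecidableEq Q]

theorem gz_mem_Loc' (c : ℂ) (E : Finset Q) (f : Q → QV) : gz c E f ∈ Loc E := gz_mem_Loc subset_rfl _ _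

theorem gz_iso {c : ℂ} (hc : c = 0 ∨ c = 1) {E : Finset Q} {f : Q → QV} (hf : ∀ q, QUnit (f q)) :
    gz c E f * gz c E f = 1 := gz_mul_self hc fun q _ => hf q

theorem gz_one_comm_GPf {f : Q → QV} {E : Finset Q} {Es : List (Finset Q)} (h : ∀ T ∈ Es, Disjoint E T) :
    Commute (gz 1 E f) (GPf f Es) := by
  induction Es with
  | nil => simp [GPf]
  | cons T Es ih =>
    have e : GPf f (T :: Es) = gz 1 T f * GPf f Es := rfl
    rw [e]
    exact Commute.mul_right
      (Loc_commute (h T (by simp)) (gz_mem_Loc subset_rfl _ _) (gz_mem_Loc subset_rfl _ _))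
      (ih fun T' hT' => h T' (by simp [hT']))

theorem comm_GPf {f : Q → QV} {X : Op Q} {S : Finset Q} (hX : X ∈ Loc S) {Es : List (Finset Q)}
    (h : ∀ T ∈ Es, Disjoint S T) : Commute X (GPf f Es) := by
  induction Es with
  | nil => simp [GPf]
  | cons T Es ih =>
    have e : GPf f (T :: Es) = gz 1 T f * GPf f Es := rfl
    rw [e]
    exact Commute.mul_right (Loc_commute (h T (by simp)) hX (gz_mem_Loc subset_rfl _ _))
      (ih fun T' hT' => h T' (by simp [hT']))

theorem GPf_star {f : Q → QV} {Es : List (Finset Q)} (hEs : Es.Pairwise Disjoint) :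
    star (GPf f Es) = GPf f Es := by
  induction Es with
  | nil => simp [GPf]
  | cons T Es ih =>
    have e : GPf f (T :: Es) = gz 1 T f * GPf f Es := rfl
    have hc := gz_one_comm_GPf (f := f) (List.pairwise_cons.mp hEs).1
    rw [e, star_mul, star_gz (Or.inr rfl), ih (List.pairwise_cons.mp hEs).2, hc.eq]

theorem GPf_sq {f : Q → QV} (hf : ∀ q, QUnit (f q)) {Es : List (Finset Q)} (hEs : Es.Pairwise Disjoint) :
    GPf f Es * GPf f Es = 1 := by
  induction Es with
  | nil => simp [GPf]
  | cons T Es ih =>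
    have e : GPf f (T :: Es) = gz 1 T f * GPf f Es := rfl
    have hc := gz_one_comm_GPf (f := f) (List.pairwise_cons.mp hEs).1
    rw [e]
    calc gz 1 T f * GPf f Es * (gz 1 T f * GPf f Es)
        = gz 1 T f * (GPf f Es * gz 1 T f) * GPf f Es := by simp only [mul_assoc]
      _ = gz 1 T f * (gz 1 T f * GPf f Es) * GPf f Es := by rw [hc.eq]
      _ = (gz 1 T f * gz 1 T f) * (GPf f Es * GPf f Es) := by simp only [mul_assoc]
      _ = 1 := by rw [gz_iso (Or.inr rfl) hf, ih (List.pairwise_cons.mp hEs).2, one_mul]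

theorem GPf_iso {f : Q → QV} (hf : ∀ q, QUnit (f q)) {Es : List (Finset Q)} (hEs : Es.Pairwise Disjoint) :
    star (GPf f Es) * GPf f Es = 1 := by
  rw [GPf_star hEs, GPf_sq hf hEs]

theorem GPf_mem_Loc {f : Q → QV} {E : Finset Q} {Es : List (Finset Q)} (h : ∀ T ∈ Es, T ⊆ E) :
    GPf f Es ∈ Loc E := by
  unfold GPf
  exact list_prod_mem_Loc Es _ fun T hT => gz_mem_Loc (h T hT) _ _

/-- Conjugation of a local operator by a layer reduces to the gate containing it. -/
theorem layer_conj {f : Q → QV} (hf : ∀ q, QUnit (f q)) {out : Q} {ρ : Op Q} (hρ : ρ ∈ Loc {out})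
    {Es : List (Finset Q)} (hEs : Es.Pairwise Disjoint) :
    ∃ (c : ℂ) (E0 : Finset Q), ((c = 0 ∧ E0 = ∅) ∨ (c = 1 ∧ out ∈ E0 ∧ E0 ∈ Es)) ∧
      GPf f Es * ρ * GPf f Es = gz c E0 f * ρ * gz c E0 f := by
  induction Es with
  | nil =>
    refine ⟨0, ∅, Or.inl ⟨rfl, rfl⟩, ?_⟩
    simp [GPf, gz]
  | cons T Es ih =>
    have hT := (List.pairwise_cons.mp hEs).1
    obtain ⟨c, E0, hcase, heq⟩ := ih (List.pairwise_cons.mp hEs).2
    have e : GPf f (T :: Es) = gz 1 T f * GPf f Es := rfl
    have hc := gz_one_comm_GPf (f := f) hT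
    have hstep : GPf f (T :: Es) * ρ * GPf f (T :: Es)
        = gz 1 T f * (GPf f Es * ρ * GPf f Es) * gz 1 T f := by
      rw [e]
      calc gz 1 T f * GPf f Es * ρ * (gz 1 T f * GPf f Es)
          = gz 1 T f * GPf f Es * ρ * (GPf f Es * gz 1 T f) := by rw [hc.eq]
        _ = _ := by simp only [mul_assoc]
    rw [hstep, heq]
    by_cases hout : out ∈ T
    · have hc0 : c = 0 ∧ E0 = ∅ := by
        rcases hcase with h | ⟨_, h1, h2⟩
        · exact h
        · exact absurd h1 (Finset.disjoint_left.mp (hT E0 h2) hout)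
      obtain ⟨rfl, rfl⟩ := hc0
      refine ⟨1, T, Or.inr ⟨rfl, hout, by simp⟩, ?_⟩
      simp [gz]
    · refine ⟨c, E0, ?_, ?_⟩
      · rcases hcase with h | ⟨h0, h1, h2⟩
        · exact Or.inl h
        · exact Or.inr ⟨h0, h1, by simp [h2]⟩
      · have hdT : Disjoint T E0 := by
          rcases hcase with ⟨_, rfl⟩ | ⟨_, _, h2⟩
          · exact Finset.disjoint_empty_right _
          · exact hT E0 h2
        have hdρ : Disjoint T {out} := Finset.disjoint_singleton_right.mpr hout
        have hin : gz c E0 f * ρ * gz c E0 f ∈ Loc (E0 ∪ {out}) :=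
          mul_mem_Loc (mul_mem_Loc (Loc_mono Finset.subset_union_left (gz_mem_Loc' c E0 f))
            (Loc_mono Finset.subset_union_right hρ)) (Loc_mono Finset.subset_union_left (gz_mem_Loc' c E0 f))
        have hcomm : Commute (gz 1 T f) (gz c E0 f * ρ * gz c E0 f) :=
          Loc_commute (Finset.disjoint_union_right.mpr ⟨hdT, hdρ⟩) (gz_mem_Loc' 1 T f) hin
        rw [hcomm.eq, mul_assoc, gz_iso (Or.inr rfl) hf, mul_one]

theorem bk_singleton (r : Q) (f g : Q → QV) : bk {r} f g = s1 r (ket (f r) (g r)) := by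
  unfold bk s1
  congr 1
  funext q
  by_cases hq : q = r
  · subst hq; simp
  · simp [hq]

/-- The one-qubit reflection. -/
noncomputable def RR (v : QV) : QM := 1 - (2 : ℂ) • ket v v

theorem RR_conj {v : QV} : (RR v).conjTranspose = RR v := by
  unfold RR
  rw [Matrix.conjTranspose_sub, Matrix.conjTranspose_one, Matrix.conjTranspose_smul, ket_conjTranspose]
  simp

theorem RR_sq {v : QV} (hv : QUnit v) : RR v * RR v = 1 := by
  have h : qdot v v = 1 := hv
  unfold RR
  simp only [mul_sub, sub_mul, mul_one, one_mul, smul_mul_assoc, mul_smul_comm, ket_mul_ket, h, one_smul, smul_smul]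
  simp only [two_smul]
  norm_num
  abel_nf

theorem RR_unitary {v : QV} (hv : QUnit v) : RR v ∈ Matrix.unitaryGroup Bool ℂ := by
  rw [Matrix.mem_unitaryGroup_iff, Matrix.star_eq_conjTranspose, RR_conj]
  exact RR_sq hv

theorem gz_singleton (r : Q) (f : Q → QV) : gz 1 {r} f = s1 r (RR (f r)) := by
  unfold gz RR
  have h : (1 : QM) - (2 : ℂ) • ket (f r) (f r) = 1 + (-2 : ℂ) • ket (f r) (f r) := by
    rw [neg_smul, sub_eq_add_neg]
  rw [bk_singleton, h, s1_add, s1_one, s1_smul, mul_one, neg_smul, sub_eq_add_neg]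

/-- The conjugated one-qubit projector. -/
theorem rho_conj (r : Q) (f τ : Q → QV) :
    gz 1 {r} f * bk {r} τ τ * gz 1 {r} f = bk {r} (fun _ => qapp (RR (f r)) (τ r)) (fun _ => qapp (RR (f r)) (τ r)) := by
  rw [gz_singleton, bk_singleton, bk_singleton, s1_mul, s1_mul]
  congr 1
  have := ket_conj (RR (f r)) (τ r) (τ r)
  rwa [RR_conj] at this

/-- The decomposition of the conjugated one-qubit projector. -/
theorem gate_rho {f : Q → QV} (hf : ∀ q, QUnit (f q)) {out : Q} {E0 : Finset Q} (hout : out ∈ E0) {τ : QV}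
    (hτ : QUnit τ) :
    ∃ (T2 T3 : Finset Q) (t2 t3 : Q → QV), (∀ q, QUnit (t2 q)) ∧ (∀ q, QUnit (t3 q)) ∧
      gz 1 E0 f * bk {out} (fun _ => τ) (fun _ => τ) * gz 1 E0 f
        = bk {out} (fun _ => τ) (fun _ => τ) + (bk T2 t2 t2 - bk T3 t3 t3) := by
  set T' := E0.erase out with hT'
  have hd : Disjoint ({out} : Finset Q) T' := by
    rw [Finset.disjoint_singleton_left]
    simp [hT']
  have hE : E0 = {out} ∪ T' := by
    ext q
    simp only [hT', Finset.mem_union, Finset.mem_singleton, Finset.mem_erase]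
    constructor
    · intro h
      by_cases hq : q = out
      · exact Or.inl hq
      · exact Or.inr ⟨hq, h⟩
    · rintro (rfl | h)
      · exact hout
      · exact h.2
  set π : Op Q := bk {out} f f with hπ
  set P : Op Q := bk T' f f with hP
  set ρ : Op Q := bk {out} (fun _ => τ) (fun _ => τ) with hρ
  have hπP : Commute π P := Loc_commute hd (bk_mem_Loc subset_rfl _ _) (bk_mem_Loc subset_rfl _ _)
  have hPρ : Commute P ρ := Loc_commute hd.symm (bk_mem_Loc subset_rfl _ _) (bk_mem_Loc subset_rfl _ _)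
  have hPP : P * P = P := bk_idem fun q _ => hf q
  have hG : gz 1 E0 f = 1 - (2 : ℂ) • (π * P) := by
    unfold gz
    rw [hE, bk_union hd, mul_one]
  have halg := gate_algebra π P ρ (2 : ℂ) hπP hPρ hPP
  have hrho' : (1 - (2 : ℂ) • π) * ρ * (1 - (2 : ℂ) • π)
      = bk {out} (fun _ => qapp (RR (f out)) τ) (fun _ => qapp (RR (f out)) τ) := by
    have h1 := rho_conj out f (fun _ => τ)
    have h2 : gz 1 {out} f = 1 - (2 : ℂ) • π := by
      unfold gz
      rw [mul_one]
    rw [h2] at h1
    exact h1
  set τ' := qapp (RR (f out)) τ with hτ'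
  have hτ'u : QUnit τ' := qunit_qapp (RR_unitary (hf out)) hτ
  set t2 : Q → QV := fun q => if q = out then τ' else f q with ht2
  set t3 : Q → QV := fun q => if q = out then τ else f q with ht3
  have ht2u : ∀ q, QUnit (t2 q) := by
    intro q
    rw [ht2]
    dsimp only
    split_ifs
    · exact hτ'u
    · exact hf q
  have ht3u : ∀ q, QUnit (t3 q) := by
    intro q
    rw [ht3]
    dsimp only
    split_ifs
    · exact hτ
    · exact hf q
  refine ⟨{out} ∪ T', {out} ∪ T', t2, t3, ht2u, ht3u, ?_⟩
  have h2 : bk ({out} ∪ T') t2 t2 = P * bk {out} (fun _ => τ') (fun _ => τ') := by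
    rw [bk_union hd]
    have hc : Commute (bk {out} t2 t2) (bk T' t2 t2) :=
      Loc_commute hd (bk_mem_Loc subset_rfl _ _) (bk_mem_Loc subset_rfl _ _)
    have hq1 : ∀ q ∈ T', t2 q = f q := by
      intro q hq
      have : q ≠ out := Finset.ne_of_mem_erase hq
      simp [ht2, this]
    have hq2 : ∀ q ∈ ({out} : Finset Q), t2 q = τ' := by
      intro q hq
      have : q = out := Finset.mem_singleton.mp hq
      simp [ht2, this]
    rw [hc.eq, bk_congr hq1 hq1, bk_congr hq2 hq2]
  have h3 : bk ({out} ∪ T') t3 t3 = P * ρ := by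
    rw [bk_union hd]
    have hc : Commute (bk {out} t3 t3) (bk T' t3 t3) :=
      Loc_commute hd (bk_mem_Loc subset_rfl _ _) (bk_mem_Loc subset_rfl _ _)
    have hq1 : ∀ q ∈ T', t3 q = f q := by
      intro q hq
      have : q ≠ out := Finset.ne_of_mem_erase hq
      simp [ht3, this]
    have hq2 : ∀ q ∈ ({out} : Finset Q), t3 q = τ := by
      intro q hq
      have : q = out := Finset.mem_singleton.mp hq
      simp [ht3, this]
    rw [hc.eq, bk_congr hq1 hq1, bk_congr hq2 hq2]
  rw [hG, halg, hrho', h2, h3, mul_sub]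

/-! ### The conjugated product projector -/

/-- The gates coming from a layer and a product projector. -/
def lOf : List (Finset Q) → Finset Q → List (GD Q)
  | [], T0 => [⟨T0, ∅, 0⟩]
  | E :: Es, T0 => ⟨E ∩ T0, E \ T0, 1⟩ :: lOf Es (T0 \ E)

theorem inter_union_sdiff' (E T : Finset Q) : (E ∩ T) ∪ (E \ T) = E := by
  rw [Finset.union_comm, Finset.sdiff_union_inter]

theorem sup2_lOf_subset (Es : List (Finset Q)) (T0 : Finset Q) {E : Finset Q} (hE : ∀ T ∈ Es, Disjoint E T)
    (hT0 : Disjoint E T0) : Disjoint E (sup2 (lOf Es T0)) := by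
  induction Es generalizing T0 with
  | nil =>
    simp only [lOf, sup2, GD.supp]
    simpa using hT0
  | cons T Es ih =>
    simp only [lOf, sup2, GD.supp]
    rw [Finset.disjoint_union_right]
    constructor
    · rw [inter_union_sdiff']
      exact hE T (by simp)
    · exact ih (T0 \ T) (fun T' hT' => hE T' (by simp [hT']))
        (Finset.disjoint_of_subset_right Finset.sdiff_subset hT0)

theorem lOf_good {Es : List (Finset Q)} (hEs : Es.Pairwise Disjoint) (T0 : Finset Q) : GoodList (lOf Es T0) := by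
  induction Es generalizing T0 with
  | nil =>
    simp only [lOf]
    refine ⟨?_, by simp⟩
    intro g hg
    rcases List.mem_singleton.mp hg with rfl
    exact ⟨Finset.disjoint_empty_right _, Or.inl rfl⟩
  | cons E Es ih =>
    simp only [lOf]
    have hih := ih (List.pairwise_cons.mp hEs).2 (T0 \ E)
    have hE := (List.pairwise_cons.mp hEs).1
    refine ⟨?_, ?_⟩
    · intro g hg
      rcases List.mem_cons.mp hg with rfl | hg'
      · refine ⟨?_, Or.inr rfl⟩
        exact Finset.disjoint_of_subset_left Finset.inter_subset_right Finset.disjoint_sdiff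
      · exact hih.1 g hg'
    · refine List.Pairwise.cons ?_ hih.2
      intro g hg
      have hd := sup2_lOf_subset Es (T0 \ E) hE Finset.disjoint_sdiff
      have h1 : (⟨E ∩ T0, E \ T0, 1⟩ : GD Q).supp = E := inter_union_sdiff' E T0
      show Disjoint (⟨E ∩ T0, E \ T0, 1⟩ : GD Q).supp g.supp
      rw [h1]
      refine Finset.disjoint_of_subset_right ?_ hd
      intro q hq
      exact sup2_mem.mpr ⟨g, hg, hq⟩

/-- The layer conjugating a product projector is a product of gates. -/
theorem layer_XX {f t : Q → QV} (hf : ∀ q, QUnit (f q)) {Es : List (Finset Q)} (hEs : Es.Pairwise Disjoint)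
    (T0 : Finset Q) : GPf f Es * bk T0 t t * GPf f Es = XX f t (lOf Es T0) := by
  induction Es generalizing T0 with
  | nil =>
    simp only [lOf, GPf_nil, XX, GD.K, gateK]
    simp [gz]
  | cons E Es ih =>
    have hE := (List.pairwise_cons.mp hEs).1
    have hih := ih (List.pairwise_cons.mp hEs).2 (T0 \ E)
    have e : GPf f (E :: Es) = gz 1 E f * GPf f Es := rfl
    simp only [lOf, XX]
    rw [← hih, e]
    set G := gz 1 E f with hG
    set D := GPf f Es with hD
    have hGD : Commute G D := gz_one_comm_GPf hE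
    have hsplit : bk T0 t t = bk (E ∩ T0) t t * bk (T0 \ E) t t := by
      have hd : Disjoint (E ∩ T0) (T0 \ E) :=
        Finset.disjoint_of_subset_left Finset.inter_subset_left Finset.disjoint_sdiff
      rw [← bk_union hd]
      congr 1
      ext q
      simp only [Finset.mem_union, Finset.mem_inter, Finset.mem_sdiff]
      tauto
    have hKdef : (⟨E ∩ T0, E \ T0, 1⟩ : GD Q).K f t = G * bk (E ∩ T0) t t * G := by
      show gateK (E ∩ T0) (E \ T0) 1 f t = _
      unfold gateK
      rw [inter_union_sdiff']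
    rw [hKdef, hsplit]
    set B1 := bk (E ∩ T0) t t with hB1
    set B2 := bk (T0 \ E) t t with hB2
    have hB1D : Commute B1 D :=
      comm_GPf (S := E ∩ T0) (bk_mem_Loc subset_rfl _ _) fun T hT =>
        Finset.disjoint_of_subset_left Finset.inter_subset_left (hE T hT)
    have hGB2 : Commute G B2 :=
      Loc_commute Finset.disjoint_sdiff (gz_mem_Loc' 1 E f) (bk_mem_Loc subset_rfl _ _)
    calc G * D * (B1 * B2) * (G * D)
        = G * (D * B1) * B2 * (G * D) := by simp only [mul_assoc]
      _ = G * (B1 * D) * B2 * (G * D) := by rw [hB1D.symm.eq]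
      _ = G * (B1 * D) * B2 * (D * G) := by rw [hGD.eq]
      _ = G * B1 * (D * B2 * D) * G := by simp only [mul_assoc]
      _ = G * B1 * G * (D * B2 * D) := by
          have hc : Commute G (D * B2 * D) := (hGD.mul_right hGB2).mul_right hGD
          rw [mul_assoc (G * B1), hc.symm.eq]
          simp only [mul_assoc]

end Vale.Agent.Lib.P368
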