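import Mathlib
import Vale.Agent.Lib.P368.Heis1

/-!
# From the outcome probabilities to the gates of the second layer
-/

set_option linter.unusedSectionVars false
set_option linter.unusedVariables false
set_option linter.unusedSimpArgs false
set_option linter.deprecated false
set_option linter.unusedTactic false
set_option linter.unreachableTactic false

namespace Vale.Agent.Lib.P368

open scoped BigOperators InnerProductSpace ComplexConjugate

variable {N n : ℕ}

/-- The computational basis vector of one qubit. -/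
def bas (b : Bool) : QV := if b then e1 else e0

theorem bas_apply (b i : Bool) : bas b i = if i = b then 1 else 0 := by
  cases b <;> cases i <;> simp [bas, e0, e1]

theorem qunit_bas (b : Bool) : QUnit (bas b) := by
  cases b
  · exact qunit_e0
  · exact qunit_e1

/-- A computational basis vector of the register. -/
noncomputable def ex (z : Cfg N) : HS (Fin N) := pv (fun q => bas (z q))

theorem ex_eq (z : Cfg N) : ex z = WithLp.toLp 2 (fun w : Cfg N => if w = z then (1 : ℂ) else 0) := by
  unfold ex pv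
  congr 1
  funext w
  simp only [bas_apply]
  rw [Finset.prod_boole]
  by_cases h : w = z
  · subst h
    simp
  · rw [if_neg h, if_neg]
    intro h2
    exact h (funext fun q => h2 q (Finset.mem_univ q))

theorem toOp_ex (M : Matrix (Cfg N) (Cfg N) ℂ) (z : Cfg N) :
    toOp M (ex z) = WithLp.toLp 2 (fun y => M y z) := by
  rw [ex_eq]
  show Matrix.toEuclideanCLM (n := Cfg N) (𝕜 := ℂ) M (WithLp.toLp 2 _) = _
  rw [Matrix.toEuclideanCLM_toLp]
  congr 1
  funext y
  simp [Matrix.mulVec, dotProduct]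

theorem Pi_apply (out : Fin N) (r : Bool) (v : Cfg N → ℂ) :
    (bk {out} (fun _ => bas r) (fun _ => bas r) : Op (Fin N)) (WithLp.toLp 2 v)
      = WithLp.toLp 2 (fun y => if y out = r then v y else 0) := by
  rw [bk_singleton]
  have h : s1 out (ket (bas r) (bas r)) = toOp (singleMatrix out (ket (bas r) (bas r))) := by
    rw [toOp_single]
    rfl
  rw [h]
  show Matrix.toEuclideanCLM (n := Cfg N) (𝕜 := ℂ) _ (WithLp.toLp 2 _) = _
  rw [Matrix.toEuclideanCLM_toLp]
  congr 1
  funext y
  simp only [Matrix.mulVec, dotProduct, singleMatrix, Matrix.of_apply]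
  rw [Finset.sum_eq_single y]
  · simp only [implies_true, if_true, ket, Matrix.of_apply, bas_apply]
    by_cases hy : y out = r <;> simp [hy]
  · intro w _ hw
    by_cases hoff : ∀ p, p ≠ out → y p = w p
    · rw [if_pos hoff]
      have hne : y out ≠ w out := by
        intro h2
        apply hw
        funext p
        by_cases hp : p = out
        · rw [hp]; exact h2.symm
        · exact (hoff p hp).symm
      simp only [ket, Matrix.of_apply, bas_apply]
      by_cases h1 : y out = r
      · have h3 : w out ≠ r := fun h4 => hne (h1.trans h4.symm)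
        simp [h3]
      · simp [h1]
    · rw [if_neg hoff, zero_mul]
  · intro h
    exact absurd (Finset.mem_univ y) h

theorem norm_sq_toLp (v : Cfg N → ℂ) :
    ‖(WithLp.toLp 2 v : HS (Fin N))‖ ^ 2 = ∑ y, ‖v y‖ ^ 2 := by
  show ‖(WithLp.toLp 2 v : EuclideanSpace ℂ (Cfg N))‖ ^ 2 = _
  rw [EuclideanSpace.norm_sq_eq]

theorem outcomeProb_eq (c : Circuit N) (out : Fin N) (x : Fin n → Bool) (r : Bool) :
    outcomeProb c out x r
      = ‖(bk {out} (fun _ => bas r) (fun _ => bas r) : Op (Fin N)) (toOp c.matrix (ex (startCfg x)))‖ ^ 2 := by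
  have h := norm_sq_toLp (fun y => if y out = r then c.matrix y (startCfg x) else 0)
  rw [toOp_ex, Pi_apply]
  refine Eq.trans ?_ h.symm
  unfold outcomeProb
  refine Finset.sum_congr rfl fun y _ => ?_
  split_ifs <;> simp

theorem outcomeProb_sum (c : Circuit N) (out : Fin N) (x : Fin n → Bool) :
    outcomeProb c out x false + outcomeProb c out x true = ‖toOp c.matrix (ex (startCfg x))‖ ^ 2 := by
  have h := norm_sq_toLp (fun y => c.matrix y (startCfg x))
  rw [toOp_ex]
  refine Eq.trans ?_ h.symm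
  unfold outcomeProb
  rw [← Finset.sum_add_distrib]
  refine Finset.sum_congr rfl fun y _ => ?_
  cases y out <;> simp

theorem qu_rows {W : Fin N → QM} (hW : QU W) (q : Fin N) :
    Rows (qapp (W q) (bas false)) (qapp (W q) (bas true)) := by
  have hcol : ∀ b i, qapp (W q) (bas b) i = W q i b := by
    intro b i
    simp only [qapp, bas_apply, Fintype.sum_bool]
    cases b <;> simp
  have hm := hW.mul_star q
  have hent : ∀ i j, W q i false * conj (W q j false) + W q i true * conj (W q j true)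
      = if i = j then 1 else 0 := by
    intro i j
    have := congrFun (congrFun hm i) j
    simp only [Matrix.mul_apply, Matrix.conjTranspose_apply, Fintype.sum_bool, Matrix.one_apply,
      RCLike.star_def] at this
    rw [← this]
    ring
  have hnorm : ∀ i, ‖W q i false‖ ^ 2 + ‖W q i true‖ ^ 2 = 1 := by
    intro i
    have h := hent i i
    rw [if_pos rfl, Complex.mul_conj', Complex.mul_conj'] at h
    exact_mod_cast h
  constructor
  · rw [hcol, hcol]; exact hnorm false
  · rw [hcol, hcol]; exact hnorm true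
  · rw [hcol, hcol, hcol, hcol]
    have h := hent true false
    simp only [Bool.true_eq_false, if_false] at h
    rw [← h]
    ring

/-- The main reduction to a single gate list. -/
theorem corr_le_six (hn : n ≤ N) (hn1 : 1 ≤ n) (c : Circuit N) (hc : c.entanglingDepth ≤ 3) (out : Fin N)
    {B : ℝ}
    (hB : ∀ (u : Fin N → Bool → QV) (φ t : Fin N → QV) (l : List (GD (Fin N))) (Hs : List (Finset (Fin N)))
      (a : Fin N → QV), (∀ q b, QUnit (u q b)) → (∀ q, Rows (u q false) (u q true)) → (∀ q, QUnit (φ q)) →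
      (∀ q, QUnit (t q)) → GoodList l → Hs.Pairwise Disjoint → (∀ q, QUnit (a q)) →
      ‖sgnAvg u (Inputs hn) (fun a' => ⟪GProd Hs (pv a'), XX φ t l (GProd Hs (pv a'))⟫_ℂ) a‖ ≤ B) :
    |parityCorrelation n c out| ≤ 6 * B ∧ ∀ x : Fin n → Bool,
      outcomeProb c out x false + outcomeProb c out x true = 1 := by
  obtain ⟨V, W, E3, E2, E1, f3, f2, hV, hW, hE3, hE2, hE1, hf3, hf2, hop⟩ := circuit_nf3' c hc
  set D3 := GPf f3 E3 with hD3
  set D2 := GPf f2 E2 with hD2
  set D1 := GProd E1 with hD1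
  have hD3s : star D3 = D3 := GPf_star hE3
  have hD2s : star D2 = D2 := GPf_star hE2
  -- input vectors
  set u : Fin N → Bool → QV := fun q b => qapp (W q) (bas b) with hu
  have huU : ∀ q b, QUnit (u q b) := fun q b => qunit_qapp (hW q) (qunit_bas b)
  have huR : ∀ q, Rows (u q false) (u q true) := qu_rows hW
  have hpoW : ∀ x : Fin n → Bool, po W (ex (startCfg x)) = pv (fun q => u q (startCfg x q)) := by
    intro x
    unfold ex
    rw [po_apply_pv]
  set ax : (Fin n → Bool) → Fin N → QV := fun x q => u q (startCfg x q) with hax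
  have haxU : ∀ x q, QUnit (ax x q) := fun x q => huU q _
  -- isometry of the circuit
  have hUiso : ∀ x : Fin n → Bool, ‖toOp c.matrix (ex (startCfg x))‖ = 1 := by
    intro x
    rw [hop]
    simp only [ContinuousLinearMap.mul_apply]
    rw [iso_norm (po_star_mul hV), iso_norm (GPf_iso hf3 hE3), iso_norm (GPf_iso hf2 hE2),
      iso_norm (GProd_iso E1), hpoW, pv_norm (haxU x)]
  have hsum : ∀ x : Fin n → Bool, outcomeProb c out x false + outcomeProb c out x true = 1 := by
    intro x
    rw [outcomeProb_sum, hUiso, one_pow]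
  refine ⟨?_, hsum⟩
  -- the observable
  set Vs : Fin N → QM := fun q => (V q).conjTranspose with hVs
  have hVsU : QU Vs := by
    intro q
    rw [Matrix.mem_unitaryGroup_iff, Matrix.star_eq_conjTranspose, Matrix.conjTranspose_conjTranspose]
    exact hV.star_mul q
  set τ : QV := qapp (Vs out) (bas false) with hτ
  have hτU : QUnit τ := qunit_qapp (hVsU out) (qunit_bas false)
  set ρ : Op (Fin N) := bk {out} (fun _ => τ) (fun _ => τ) with hρ
  have hρL : ρ ∈ Loc ({out} : Finset (Fin N)) := bk_mem_Loc subset_rfl _ _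
  have hρconj : star (po V) * bk {out} (fun _ => bas false) (fun _ => bas false) * po V = ρ := by
    have h1 := bk_conj hVsU {out} (fun _ => bas false)
    have h2 : po Vs = star (po V) := by rw [star_po]
    have h3 : star (po Vs) = po V := by rw [h2, star_star]
    rw [h3, h2] at h1
    rw [h1, hρ]
    refine bk_congr ?_ ?_ <;>
    · intro q hq
      have : q = out := Finset.mem_singleton.mp hq
      rw [this]
  -- the third layer
  obtain ⟨c3, E0, hcase, hconj⟩ := layer_conj hf3 hρL hE3
  have hthird : ∃ (T2 T3 : Finset (Fin N)) (t2 t3 : Fin N → QV) (c2 : ℂ), (∀ q, QUnit (t2 q)) ∧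
      (∀ q, QUnit (t3 q)) ∧ ‖c2‖ ≤ 1 ∧ D3 * ρ * D3 = ρ + c2 • (bk T2 t2 t2 - bk T3 t3 t3) := by
    rcases hcase with ⟨rfl, rfl⟩ | ⟨rfl, h1, _⟩
    · refine ⟨∅, ∅, fun _ => e1, fun _ => e1, 0, fun _ => qunit_e1, fun _ => qunit_e1, by simp, ?_⟩
      rw [hD3, hconj]
      simp [gz]
    · obtain ⟨T2, T3, t2, t3, h2, h3, h4⟩ := gate_rho hf3 h1 hτU
      refine ⟨T2, T3, t2, t3, 1, h2, h3, by simp, ?_⟩
      rw [hD3, hconj, h4, one_smul]
  obtain ⟨T2, T3, t2, t3, c2, ht2, ht3, hc2, hD3ρ⟩ := hthird
  set t1 : Fin N → QV := fun _ => τ with ht1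
  have ht1U : ∀ q, QUnit (t1 q) := fun _ => hτU
  set X1 := XX f2 t1 (lOf E2 {out}) with hX1
  set X2 := XX f2 t2 (lOf E2 T2) with hX2
  set X3 := XX f2 t3 (lOf E2 T3) with hX3
  have hObs : D2 * (D3 * ρ * D3) * D2 = X1 + c2 • (X2 - X3) := by
    rw [hD3ρ, hX1, hX2, hX3, ← layer_XX hf2 hE2, ← layer_XX hf2 hE2, ← layer_XX hf2 hE2]
    simp only [mul_add, add_mul, mul_sub, sub_mul, smul_mul_assoc, mul_smul_comm]
    rfl
  -- the probability
  set Ψ : (Fin N → QV) → HS (Fin N) := fun a => D1 (pv a) with hΨ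
  have hprob : ∀ x : Fin n → Bool, ((outcomeProb c out x false : ℝ) : ℂ)
      = ⟪Ψ (ax x), X1 (Ψ (ax x))⟫_ℂ + c2 * (⟪Ψ (ax x), X2 (Ψ (ax x))⟫_ℂ - ⟪Ψ (ax x), X3 (Ψ (ax x))⟫_ℂ) := by
    intro x
    rw [outcomeProb_eq]
    set ψ := toOp c.matrix (ex (startCfg x)) with hψ
    have hPiE := proj_norm_sq (bk_idem (E := ({out} : Finset (Fin N))) (f := fun _ => bas false)
      fun _ _ => qunit_bas false) (bk_star_self _ _) ψ
    rw [← hPiE]
    have hψ2 : ψ = po V (D3 (D2 (Ψ (ax x)))) := by
      rw [hψ, hop]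
      simp only [ContinuousLinearMap.mul_apply]
      rw [hpoW]
    rw [hψ2]
    set v := D3 (D2 (Ψ (ax x))) with hv
    have h1 : ⟪po V v, bk {out} (fun _ => bas false) (fun _ => bas false) (po V v)⟫_ℂ = ⟪v, ρ v⟫_ℂ := by
      rw [← hρconj]
      simp only [ContinuousLinearMap.mul_apply]
      rw [inner_star_right']
    rw [h1, hv]
    have h2 : ⟪D3 (D2 (Ψ (ax x))), ρ (D3 (D2 (Ψ (ax x))))⟫_ℂ
        = ⟪Ψ (ax x), (D2 * (D3 * ρ * D3) * D2) (Ψ (ax x))⟫_ℂ := by
      have a1 : ∀ x y, ⟪D3 x, y⟫_ℂ = ⟪x, D3 y⟫_ℂ := fun x y => by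
        have := inner_star_left' D3 x y
        rwa [hD3s] at this
      have a2 : ∀ x y, ⟪D2 x, y⟫_ℂ = ⟪x, D2 y⟫_ℂ := fun x y => by
        have := inner_star_left' D2 x y
        rwa [hD2s] at this
      simp only [ContinuousLinearMap.mul_apply]
      rw [a1, a2]
    rw [h2, hObs]
    simp only [add_apply, smul_apply, sub_apply, inner_add_right, inner_smul_right, inner_sub_right]
  -- the signed average
  set F1 : (Fin N → QV) → ℂ := fun a => ⟪Ψ a, X1 (Ψ a)⟫_ℂ with hF1
  set F2 : (Fin N → QV) → ℂ := fun a => ⟪Ψ a, X2 (Ψ a)⟫_ℂ with hF2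
  set F3 : (Fin N → QV) → ℂ := fun a => ⟪Ψ a, X3 (Ψ a)⟫_ℂ with hF3
  set g : (Fin N → QV) → ℂ := fun a => 2 * (F1 a + c2 * (F2 a - F3 a)) - 1 with hg
  have hcorr : ((parityCorrelation n c out : ℝ) : ℂ) = sgnAvg u (Inputs hn) g (fun q => u q false) := by
    rw [sgnAvg_inputs hn u g]
    unfold parityCorrelation
    push_cast
    have e0 : ((2 : ℂ) ^ n)⁻¹ = (1 / 2 : ℂ) ^ n := by
      rw [one_div, inv_pow]
    rw [e0]
    congr 1
    refine Finset.sum_congr rfl fun x _ => ?_
    have h1 := hsum x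
    have h2 : g (fun q => u q (startCfg x q)) = 2 * ((outcomeProb c out x false : ℝ) : ℂ) - 1 := by
      rw [hprob x]
    rw [h2]
    unfold sgnOf
    cases hp : parityBit x
    · simp only [Bool.not_false, Bool.false_eq_true, if_false, one_mul]
      have h3 : ((outcomeProb c out x true : ℝ) : ℂ) = 1 - ((outcomeProb c out x false : ℝ) : ℂ) := by
        have h4 : outcomeProb c out x true = 1 - outcomeProb c out x false := by linarith
        rw [h4]
        push_cast
        ring
      rw [h3]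
      ring
    · simp only [Bool.not_true, if_true]
      have h3 : ((outcomeProb c out x true : ℝ) : ℂ) = 1 - ((outcomeProb c out x false : ℝ) : ℂ) := by
        have h4 : outcomeProb c out x true = 1 - outcomeProb c out x false := by linarith
        rw [h4]
        push_cast
        ring
      rw [h3]
      ring
  have hInp : Inputs hn ≠ [] := by
    intro h
    have := Inputs_length hn
    rw [h] at this
    simp at this
    omega
  have hlin : sgnAvg u (Inputs hn) g (fun q => u q false)
      = 2 * (sgnAvg u (Inputs hn) F1 (fun q => u q false) + c2 * (sgnAvg u (Inputs hn) F2 (fun q => u q false)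
        - sgnAvg u (Inputs hn) F3 (fun q => u q false))) := by
    have h1 : g = fun a => (fun a' => 2 * (fun a'' => F1 a'' + (fun b => c2 * (fun b' => F2 b' - F3 b') b) a'') a') a - (fun _ => (1 : ℂ)) a := rfl
    rw [h1, sgnAvg_sub, sgnAvg_smul, sgnAvg_add, sgnAvg_smul, sgnAvg_sub, sgnAvg_const_zero u hInp, sub_zero]
  have haU : ∀ q, QUnit (u q false) := fun q => huU q false
  have hT1 : ‖sgnAvg u (Inputs hn) F1 (fun q => u q false)‖ ≤ B :=
    hB u f2 t1 _ E1 _ huU huR hf2 ht1U (lOf_good hE2 _) hE1 haU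
  have hT2 : ‖sgnAvg u (Inputs hn) F2 (fun q => u q false)‖ ≤ B :=
    hB u f2 t2 _ E1 _ huU huR hf2 ht2 (lOf_good hE2 _) hE1 haU
  have hT3 : ‖sgnAvg u (Inputs hn) F3 (fun q => u q false)‖ ≤ B :=
    hB u f2 t3 _ E1 _ huU huR hf2 ht3 (lOf_good hE2 _) hE1 haU
  have hB0 : 0 ≤ B := (norm_nonneg _).trans hT1
  have habs : |parityCorrelation n c out| = ‖((parityCorrelation n c out : ℝ) : ℂ)‖ := by
    rw [Complex.norm_real, Real.norm_eq_abs]
  rw [habs, hcorr, hlin, norm_mul]
  have h2 : ‖(2 : ℂ)‖ = 2 := by norm_num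
  rw [h2]
  set A1 := sgnAvg u (Inputs hn) F1 (fun q => u q false)
  set A2 := sgnAvg u (Inputs hn) F2 (fun q => u q false)
  set A3 := sgnAvg u (Inputs hn) F3 (fun q => u q false)
  have h3 : ‖A1 + c2 * (A2 - A3)‖ ≤ 3 * B := by
    refine (norm_add_le _ _).trans ?_
    rw [norm_mul]
    have h4 : ‖A2 - A3‖ ≤ 2 * B := by
      refine (norm_sub_le _ _).trans ?_
      linarith
    have h5 : ‖c2‖ * ‖A2 - A3‖ ≤ 1 * (2 * B) :=
      mul_le_mul hc2 h4 (norm_nonneg _) zero_le_one
    linarith
  linarith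

end Vale.Agent.Lib.P368
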