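import Mathlib
import Vale.Agent.Lib.P368.Heis2

/-!
# The numerics and the final bound
-/

set_option linter.unusedSectionVars false
set_option linter.unusedVariables false
set_option linter.unusedSimpArgs false
set_option linter.deprecated false
set_option linter.unusedTactic false
set_option linter.unreachableTactic false

namespace Vale.Agent.Lib.P368

open scoped BigOperators InnerProductSpace ComplexConjugate

variable {N n : ℕ}

theorem num1 (m : ℕ) (hm : 6 ≤ m) : 32832 * m * (m + 1) ^ 2 ≤ 16 ^ m := by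
  induction m, hm using Nat.le_induction with
  | base => norm_num
  | succ m hm ih =>
    have h1 : 32832 * (m + 1) * (m + 1 + 1) ^ 2 ≤ 16 * (32832 * m * (m + 1) ^ 2) := by
      have : (m + 1) * (m + 1 + 1) ^ 2 ≤ 16 * (m * (m + 1) ^ 2) := by
        nlinarith [mul_le_mul hm hm (by omega) (by omega), sq_nonneg m, Nat.zero_le m]
      nlinarith
    calc 32832 * (m + 1) * (m + 1 + 1) ^ 2 ≤ 16 * (32832 * m * (m + 1) ^ 2) := h1
      _ ≤ 16 * 16 ^ m := Nat.mul_le_mul_left _ ih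
      _ = 16 ^ (m + 1) := by ring

theorem num2 (m : ℕ) (hm : 6 ≤ m) : 16 * m ^ 2 * 4 ^ m ≤ 15 ^ m := by
  induction m, hm using Nat.le_induction with
  | base => norm_num
  | succ m hm ih =>
    have h1 : (m + 1) ^ 2 * 4 ≤ 15 * m ^ 2 := by nlinarith
    calc 16 * (m + 1) ^ 2 * 4 ^ (m + 1) = 16 * ((m + 1) ^ 2 * 4) * 4 ^ m := by ring
      _ ≤ 16 * (15 * m ^ 2) * 4 ^ m := by gcongr
      _ = 15 * (16 * m ^ 2 * 4 ^ m) := by ring
      _ ≤ 15 * 15 ^ m := by gcongr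
      _ = 15 ^ (m + 1) := by ring

theorem num3 (m : ℕ) (hm : 1 ≤ m) : 2 * m * 2 ^ m ≤ 5 ^ m := by
  induction m, hm using Nat.le_induction with
  | base => norm_num
  | succ m hm ih =>
    calc 2 * (m + 1) * 2 ^ (m + 1) = 2 * (2 * (m + 1) * 2 ^ m) := by ring
      _ ≤ 2 * (2 * (2 * m) * 2 ^ m) := by
          have : m + 1 ≤ 2 * m := by omega
          gcongr
      _ = 4 * (2 * m * 2 ^ m) := by ring
      _ ≤ 4 * 5 ^ m := by gcongr
      _ ≤ 5 * 5 ^ m := by gcongr; norm_num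
      _ = 5 ^ (m + 1) := by ring

theorem exp_neg_nat_le (k : ℕ) : Real.exp (-(k : ℝ)) ≤ (15 / 32 : ℝ) ^ k := by
  have h : Real.exp (-1) ≤ 15 / 32 := by
    rw [Real.exp_neg, inv_le_comm₀ (Real.exp_pos _) (by norm_num)]
    have := Real.exp_one_gt_d9
    norm_num at this ⊢
    linarith
  have e : Real.exp (-(k : ℝ)) = Real.exp (-1) ^ k := by
    rw [← Real.exp_nat_mul]
    congr 1
    ring
  rw [e]
  exact pow_le_pow_left₀ (Real.exp_pos _).le h k

/-- The numerics of the bound for large `m`. -/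
theorem numerics (m n : ℕ) (hm : 6 ≤ m) (h1 : 2 ^ (8 * m) ≤ n) (h2 : n < 2 ^ (8 * m + 8)) :
    let D := 32 * (m + 1)
    let L : ℝ := 64 * ((m : ℝ) + 1)
    let ε : ℝ := (1 / 2 : ℝ) ^ (4 * m)
    (m : ℝ) * (8 * L / ε + 1) ≤ ((n : ℝ) / (D : ℕ)) / 2 ∧
    4 * (n : ℝ) * Real.sqrt ((1 / 2 : ℝ) ^ D) + Bnd L ε m n ≤ 18 * (15 / 16 : ℝ) ^ m := by
  intro D L ε
  have hM1 : (6 : ℝ) ≤ m := by exact_mod_cast hm
  have hM0 : (0 : ℝ) < m := by linarith
  have hL0 : 0 < L := by positivity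
  have hε0 : 0 < ε := by positivity
  have h16 : (2 : ℝ) ^ (4 * m) = 16 ^ m := by
    rw [pow_mul]
    norm_num
  have hεinv : 1 / ε = 16 ^ m := by
    simp only [ε]
    rw [one_div_pow, one_div_one_div, h16]
  have hnlo : (2 : ℝ) ^ (8 * m) ≤ n := by exact_mod_cast h1
  have hnhi : (n : ℝ) ≤ 2 ^ (8 * m + 8) := by exact_mod_cast h2.le
  have h256 : (2 : ℝ) ^ (8 * m) = 16 ^ m * 16 ^ m := by
    rw [show 8 * m = 4 * m + 4 * m by ring, pow_add, h16]
  have hq : (0 : ℝ) < 15 / 16 ^ 1 := by norm_num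
  have hqm : (0 : ℝ) < (15 / 16 : ℝ) ^ m := by positivity
  constructor
  · -- the selection condition
    have hD : ((D : ℕ) : ℝ) = 32 * ((m : ℝ) + 1) := by
      simp only [D]
      push_cast
      ring
    rw [hD]
    have hnum : (32832 : ℝ) * m * ((m : ℝ) + 1) ^ 2 ≤ 16 ^ m := by exact_mod_cast num1 m hm
    have h8 : 8 * L / ε = 512 * ((m : ℝ) + 1) * 16 ^ m := by
      rw [div_eq_mul_one_div, hεinv]
      simp only [L]
      ring
    rw [h8]
    have hpos : (0 : ℝ) < 32 * ((m : ℝ) + 1) := by positivity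
    rw [div_div, le_div_iff₀ (by positivity)]
    have h16p : (1 : ℝ) ≤ 16 ^ m := one_le_pow₀ (by norm_num)
    have hstep : (m : ℝ) * (512 * ((m : ℝ) + 1) * 16 ^ m + 1) ≤ (m : ℝ) * (513 * ((m : ℝ) + 1) * 16 ^ m) := by
      apply mul_le_mul_of_nonneg_left _ hM0.le
      nlinarith
    have hfin : (m : ℝ) * (513 * ((m : ℝ) + 1) * 16 ^ m) * (32 * ((m : ℝ) + 1) * 2)
        = (32832 * m * ((m : ℝ) + 1) ^ 2) * 16 ^ m := by ring
    calc (m : ℝ) * (512 * ((m : ℝ) + 1) * 16 ^ m + 1) * (32 * ((m : ℝ) + 1) * 2)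
        ≤ (m : ℝ) * (513 * ((m : ℝ) + 1) * 16 ^ m) * (32 * ((m : ℝ) + 1) * 2) :=
          mul_le_mul_of_nonneg_right hstep (by positivity)
      _ = (32832 * m * ((m : ℝ) + 1) ^ 2) * 16 ^ m := hfin
      _ ≤ 16 ^ m * 16 ^ m := mul_le_mul_of_nonneg_right hnum (by positivity)
      _ ≤ n := by rw [← h256]; exact hnlo
  · -- the value of the bound
    have hq1 : (15 / 16 : ℝ) ^ 1 ≤ 1 := by norm_num
    -- first term
    have hA : 4 * (n : ℝ) * Real.sqrt ((1 / 2 : ℝ) ^ D) ≤ 4 * (15 / 16 : ℝ) ^ m := by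
      have e1 : Real.sqrt ((1 / 2 : ℝ) ^ D) = (1 / 2 : ℝ) ^ (16 * (m + 1)) := by
        have : ((1 / 2 : ℝ) ^ D) = ((1 / 2 : ℝ) ^ (16 * (m + 1))) ^ 2 := by
          rw [← pow_mul]
          congr 1
          simp only [D]
          ring
        rw [this, Real.sqrt_sq (by positivity)]
      rw [e1]
      have e2 : (2 : ℝ) ^ (8 * m + 8) * (1 / 2 : ℝ) ^ (16 * (m + 1)) = (1 / 256 : ℝ) ^ (m + 1) := by
        have e3 : (2 : ℝ) ^ (8 * m + 8) = (256 : ℝ) ^ (m + 1) := by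
          rw [show 8 * m + 8 = 8 * (m + 1) by ring, pow_mul]
          norm_num
        have e4 : (1 / 2 : ℝ) ^ (16 * (m + 1)) = ((1 / 256 : ℝ) ^ (m + 1)) * ((1 / 256 : ℝ) ^ (m + 1)) := by
          rw [← mul_pow, pow_mul]
          norm_num
        rw [e3, e4, ← mul_assoc, ← mul_pow]
        norm_num
      have e5 : (1 / 256 : ℝ) ^ (m + 1) ≤ (15 / 16 : ℝ) ^ m := by
        calc (1 / 256 : ℝ) ^ (m + 1) ≤ (1 / 256 : ℝ) ^ m := pow_le_pow_of_le_one (by norm_num) (by norm_num) (by omega)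
          _ ≤ _ := pow_le_pow_left₀ (by norm_num) (by norm_num) m
      have e6 : (n : ℝ) * (1 / 2 : ℝ) ^ (16 * (m + 1)) ≤ (2 : ℝ) ^ (8 * m + 8) * (1 / 2 : ℝ) ^ (16 * (m + 1)) :=
        mul_le_mul_of_nonneg_right hnhi (by positivity)
      nlinarith
    -- the terms of the bound
    unfold Bnd
    have hL4 : -L / 4 = -((16 * (m + 1) : ℕ) : ℝ) := by
      simp only [L]
      push_cast
      ring
    have hL8 : -L / 8 = -((8 * (m + 1) : ℕ) : ℝ) := by
      simp only [L]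
      push_cast
      ring
    have hB : 10 * Real.exp (-L / 4) ≤ 10 * (15 / 16 : ℝ) ^ m := by
      rw [hL4]
      have h3 := exp_neg_nat_le (16 * (m + 1))
      have h4 : (15 / 32 : ℝ) ^ (16 * (m + 1)) ≤ (15 / 16 : ℝ) ^ m := by
        calc (15 / 32 : ℝ) ^ (16 * (m + 1)) ≤ (15 / 32 : ℝ) ^ m :=
              pow_le_pow_of_le_one (by norm_num) (by norm_num) (by omega)
          _ ≤ _ := pow_le_pow_left₀ (by norm_num) (by norm_num) m
      linarith
    have hC : 8 * (n : ℝ) / L * Real.exp (-L / 8) ≤ (1 / 8) * (15 / 16 : ℝ) ^ m := by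
      rw [hL8]
      have h3 := exp_neg_nat_le (8 * (m + 1))
      have h5 : 8 * (n : ℝ) / L ≤ (1 / 8) * (2 : ℝ) ^ (8 * (m + 1)) := by
        rw [div_le_iff₀ hL0]
        have h6 : (n : ℝ) ≤ (2 : ℝ) ^ (8 * (m + 1)) := by
          rw [show 8 * (m + 1) = 8 * m + 8 by ring]
          exact hnhi
        have h7 : (1 : ℝ) ≤ (m : ℝ) + 1 := by linarith
        have h8 : (0 : ℝ) ≤ (2 : ℝ) ^ (8 * (m + 1)) := by positivity
        simp only [L]
        nlinarith
      have h6 : (1 / 8) * (2 : ℝ) ^ (8 * (m + 1)) * (15 / 32 : ℝ) ^ (8 * (m + 1))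
          = (1 / 8) * (15 / 16 : ℝ) ^ (8 * (m + 1)) := by
        rw [mul_assoc, ← mul_pow]
        norm_num
      have h7 : (15 / 16 : ℝ) ^ (8 * (m + 1)) ≤ (15 / 16 : ℝ) ^ m :=
        pow_le_pow_of_le_one (by norm_num) (by norm_num) (by omega)
      calc 8 * (n : ℝ) / L * Real.exp (-((8 * (m + 1) : ℕ) : ℝ))
          ≤ (1 / 8) * (2 : ℝ) ^ (8 * (m + 1)) * (15 / 32 : ℝ) ^ (8 * (m + 1)) :=
            mul_le_mul h5 h3 (Real.exp_pos _).le (by positivity)
        _ = (1 / 8) * (15 / 16 : ℝ) ^ (8 * (m + 1)) := h6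
        _ ≤ _ := by linarith
    have hsq : ε = ((1 / 4 : ℝ) ^ m) ^ 2 := by
      simp only [ε]
      rw [← pow_mul, show m * 2 = 2 * m by ring, show 4 * m = 2 * (2 * m) by ring, pow_mul]
      norm_num
    have hD' : 2 * ((m : ℝ) * Real.sqrt (8 * ((m : ℝ) * ε))) ≤ (15 / 16 : ℝ) ^ m := by
      have e1 : Real.sqrt (8 * ((m : ℝ) * ε)) = Real.sqrt (8 * (m : ℝ)) * (1 / 4 : ℝ) ^ m := by
        rw [show 8 * ((m : ℝ) * ε) = (8 * (m : ℝ)) * ε by ring, hsq,
          Real.sqrt_mul (by positivity), Real.sqrt_sq (by positivity)]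
      have e2 : Real.sqrt (8 * (m : ℝ)) ≤ 8 * (m : ℝ) := by
        apply Real.sqrt_le_iff.mpr
        constructor
        · positivity
        · nlinarith
      have e3 : (16 : ℝ) * (m : ℝ) ^ 2 * 4 ^ m ≤ 15 ^ m := by exact_mod_cast num2 m hm
      have e4 : (16 : ℝ) * (m : ℝ) ^ 2 * (1 / 4 : ℝ) ^ m ≤ (15 / 16 : ℝ) ^ m := by
        have h4 : (4 : ℝ) ^ m * (1 / 4 : ℝ) ^ m = 1 := by
          rw [← mul_pow]; norm_num
        have h5 : (16 : ℝ) ^ m * (15 / 16 : ℝ) ^ m = 15 ^ m := by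
          rw [← mul_pow]; norm_num
        have h6 : (16 : ℝ) ^ m * (1 / 4 : ℝ) ^ m = 4 ^ m := by
          rw [← mul_pow]; norm_num
        have h7 : (0 : ℝ) < 16 ^ m := by positivity
        have h8 : (16 : ℝ) ^ m * ((16 : ℝ) * (m : ℝ) ^ 2 * (1 / 4 : ℝ) ^ m) ≤ (16 : ℝ) ^ m * (15 / 16 : ℝ) ^ m := by
          rw [h5]
          calc (16 : ℝ) ^ m * ((16 : ℝ) * (m : ℝ) ^ 2 * (1 / 4 : ℝ) ^ m)
              = (16 : ℝ) * (m : ℝ) ^ 2 * ((16 : ℝ) ^ m * (1 / 4 : ℝ) ^ m) := by ring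
            _ = (16 : ℝ) * (m : ℝ) ^ 2 * 4 ^ m := by rw [h6]
            _ ≤ _ := e3
        exact le_of_mul_le_mul_left h8 h7
      rw [e1]
      have e5 : 0 < (1 / 4 : ℝ) ^ m := by positivity
      calc 2 * ((m : ℝ) * (Real.sqrt (8 * (m : ℝ)) * (1 / 4 : ℝ) ^ m))
          ≤ 2 * ((m : ℝ) * ((8 * (m : ℝ)) * (1 / 4 : ℝ) ^ m)) := by
            have := mul_le_mul_of_nonneg_right e2 e5.le
            have h6 := mul_le_mul_of_nonneg_left this hM0.le
            linarith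
        _ = (16 : ℝ) * (m : ℝ) ^ 2 * (1 / 4 : ℝ) ^ m := by ring
        _ ≤ _ := e4
    have hF : (3 / 2 : ℝ) ^ m * Real.sqrt (4 * (m : ℝ) ^ 2 * ε) ≤ (15 / 16 : ℝ) ^ m := by
      have e1 : Real.sqrt (4 * (m : ℝ) ^ 2 * ε) = 2 * (m : ℝ) * (1 / 4 : ℝ) ^ m := by
        have : 4 * (m : ℝ) ^ 2 * ε = (2 * (m : ℝ) * (1 / 4 : ℝ) ^ m) ^ 2 := by
          rw [hsq]; ring
        rw [this, Real.sqrt_sq (by positivity)]
      rw [e1]
      have e3 : (2 : ℝ) * (m : ℝ) * 2 ^ m ≤ 5 ^ m := by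
        exact_mod_cast num3 m (by omega)
      have h5 : (5 : ℝ) ^ m * (3 / 8 : ℝ) ^ m = (15 / 8 : ℝ) ^ m := by
        rw [← mul_pow]; norm_num
      have h6 : (2 : ℝ) ^ m * (15 / 16 : ℝ) ^ m = (15 / 8 : ℝ) ^ m := by
        rw [← mul_pow]; norm_num
      have h7 : (3 / 2 : ℝ) ^ m * (1 / 4 : ℝ) ^ m = (3 / 8 : ℝ) ^ m := by
        rw [← mul_pow]; norm_num
      have h8 : (0 : ℝ) < 2 ^ m := by positivity
      have h9 : (2 : ℝ) ^ m * ((3 / 2 : ℝ) ^ m * (2 * (m : ℝ) * (1 / 4 : ℝ) ^ m)) ≤ (2 : ℝ) ^ m * (15 / 16 : ℝ) ^ m := by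
        rw [h6, ← h5]
        calc (2 : ℝ) ^ m * ((3 / 2 : ℝ) ^ m * (2 * (m : ℝ) * (1 / 4 : ℝ) ^ m))
            = (2 * (m : ℝ) * 2 ^ m) * ((3 / 2 : ℝ) ^ m * (1 / 4 : ℝ) ^ m) := by ring
          _ = (2 * (m : ℝ) * 2 ^ m) * (3 / 8 : ℝ) ^ m := by rw [h7]
          _ ≤ _ := mul_le_mul_of_nonneg_right e3 (by positivity)
      exact le_of_mul_le_mul_left h9 h8
    linarith

/-- The total probability of the two outcomes. -/
theorem outcome_total (c : Circuit N) (hc : c.entanglingDepth ≤ 3) (out : Fin N) (x : Fin n → Bool) :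
    outcomeProb c out x false + outcomeProb c out x true = 1 := by
  obtain ⟨V, W, E3, E2, E1, f3, f2, hV, hW, hE3, hE2, hE1, hf3, hf2, hop⟩ := circuit_nf3' c hc
  rw [outcomeProb_sum, hop]
  simp only [ContinuousLinearMap.mul_apply]
  rw [iso_norm (po_star_mul hV), iso_norm (GPf_iso hf3 hE3), iso_norm (GPf_iso hf2 hE2),
    iso_norm (GProd_iso E1), iso_norm (po_star_mul hW)]
  unfold ex
  rw [pv_norm fun q => qunit_bas _, one_pow]

theorem outcomeProb_nonneg (c : Circuit N) (out : Fin N) (x : Fin n → Bool) (r : Bool) :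
    0 ≤ outcomeProb c out x r := by
  unfold outcomeProb
  exact Finset.sum_nonneg fun y _ => by split_ifs <;> positivity

/-- The trivial bound for the correlation. -/
theorem corr_le_one (c : Circuit N) (hc : c.entanglingDepth ≤ 3) (out : Fin N) :
    |parityCorrelation n c out| ≤ 1 := by
  unfold parityCorrelation
  rw [abs_mul, abs_of_pos (by positivity : (0 : ℝ) < ((2 : ℝ) ^ n)⁻¹)]
  have h1 : |∑ x : Fin n → Bool, (outcomeProb c out x (parityBit x) - outcomeProb c out x (!parityBit x))|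
      ≤ ∑ x : Fin n → Bool, 1 := by
    refine (Finset.abs_sum_le_sum_abs _ _).trans (Finset.sum_le_sum fun x _ => ?_)
    have h2 := outcome_total c hc out x
    have h3 := outcomeProb_nonneg c out x false
    have h4 := outcomeProb_nonneg c out x true
    rw [abs_le]
    cases parityBit x <;> simp only [Bool.not_false, Bool.not_true] <;> constructor <;> linarith
  simp only [Finset.sum_const, Finset.card_univ, Fintype.card_fun, Fintype.card_bool, Fintype.card_fin,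
    nsmul_eq_mul, mul_one] at h1
  have h5 : ((2 : ℝ) ^ n)⁻¹ * ((2 : ℝ) ^ n) = 1 := by
    rw [inv_mul_cancel₀ (by positivity)]
  have h6 : (((2 ^ n : ℕ) : ℝ)) = (2 : ℝ) ^ n := by push_cast; rfl
  rw [h6] at h1
  calc _ ≤ ((2 : ℝ) ^ n)⁻¹ * ((2 : ℝ) ^ n) := mul_le_mul_of_nonneg_left h1 (by positivity)
    _ = 1 := h5

/-- The bound on the parity correlation at entangling depth three. -/
theorem corr_depth3 (hn : n ≤ N) (hn1 : 1 ≤ n) (c : Circuit N) (hc : c.entanglingDepth ≤ 3) (out : Fin N) :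
    |parityCorrelation n c out| ≤ 108 * (15 / 16 : ℝ) ^ (Nat.log 2 n / 8) := by
  set m := Nat.log 2 n / 8 with hm
  by_cases h6 : 6 ≤ m
  · have hlog1 : 8 * m ≤ Nat.log 2 n := Nat.mul_div_le _ _
    have hlog2 : Nat.log 2 n < 8 * m + 8 := by
      have := Nat.div_add_mod (Nat.log 2 n) 8
      have h2 := Nat.mod_lt (Nat.log 2 n) (by norm_num : 8 > 0)
      omega
    have hn0 : n ≠ 0 := by omega
    have h1 : 2 ^ (8 * m) ≤ n :=
      (Nat.pow_le_pow_right (by norm_num) hlog1).trans (Nat.pow_log_le_self 2 hn0)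
    have h2 : n < 2 ^ (8 * m + 8) :=
      (Nat.lt_pow_succ_log_self (by norm_num) n).trans_le (Nat.pow_le_pow_right (by norm_num) hlog2)
    obtain ⟨hsel, hval⟩ := numerics m n h6 h1 h2
    set D := 32 * (m + 1) with hD
    set L : ℝ := 64 * ((m : ℝ) + 1) with hL
    set ε : ℝ := (1 / 2 : ℝ) ^ (4 * m) with hε
    have hL0 : 0 < L := by positivity
    have hε0 : 0 < ε := by positivity
    have hε1 : ε < 1 := by
      apply pow_lt_one₀ (by norm_num) (by norm_num)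
      omega
    have hD1 : 1 ≤ D := by omega
    have hmain := corr_le_six hn hn1 c hc out (B := 4 * (n : ℝ) * Real.sqrt ((1 / 2 : ℝ) ^ D) + Bnd L ε m n)
      (by
        intro u φ t l Hs a hu hr hφ ht hl hHs ha
        have h3 := level2 hu hr hφ ht hl (Inputs hn) (Inputs_nodup hn) hHs ha hD1 hL0 hε0 hε1 m
          (by rw [Inputs_length]; exact hsel)
        rwa [Inputs_length] at h3)
    have h4 := hmain.1
    linarith
  · have h1 := corr_le_one (n := n) c hc out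
    have h7 : (15 / 16 : ℝ) ^ 6 ≤ (15 / 16 : ℝ) ^ m :=
      pow_le_pow_of_le_one (by norm_num) (by norm_num) (by omega)
    have h8 : (1 : ℝ) ≤ 108 * (15 / 16 : ℝ) ^ 6 := by norm_num
    linarith

/-- The power form of the bound. -/
theorem log_power_bound (hn1 : 1 ≤ n) :
    (15 / 16 : ℝ) ^ (Nat.log 2 n / 8) ≤ 2 * (n : ℝ) ^ (-(1 / 100 : ℝ)) := by
  set m := Nat.log 2 n / 8 with hm
  have hlog2 : Nat.log 2 n < 8 * m + 8 := by
    have := Nat.div_add_mod (Nat.log 2 n) 8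
    have h2 := Nat.mod_lt (Nat.log 2 n) (by norm_num : 8 > 0)
    omega
  have h2 : n < 2 ^ (8 * m + 8) :=
    (Nat.lt_pow_succ_log_self (by norm_num) n).trans_le (Nat.pow_le_pow_right (by norm_num) hlog2)
  have hn0 : (0 : ℝ) < n := by exact_mod_cast hn1
  set r : ℝ := (n : ℝ) ^ ((1 / 100 : ℝ)) with hr
  have hr0 : 0 < r := Real.rpow_pos_of_pos hn0 _
  have hrp : r ^ 100 = n := by
    rw [hr, ← Real.rpow_natCast, ← Real.rpow_mul hn0.le]
    norm_num
  have hneg : (n : ℝ) ^ (-(1 / 100 : ℝ)) = r⁻¹ := by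
    rw [Real.rpow_neg hn0.le]
  rw [hneg]
  set y : ℝ := (15 / 16 : ℝ) ^ m with hy
  have hy0 : 0 < y := by positivity
  have hkey : (y * r) ^ 100 ≤ 2 ^ 100 := by
    rw [mul_pow, hrp, hy, ← pow_mul]
    have h3 : (n : ℝ) ≤ 2 ^ (8 * m + 8) := by exact_mod_cast h2.le
    have h4 : (2 : ℝ) ^ (8 * m + 8) = 256 * (256 : ℝ) ^ m := by
      rw [pow_add, pow_mul]
      norm_num
      ring
    have h5 : (15 / 16 : ℝ) ^ (m * 100) * 256 ^ m = (((15 / 16 : ℝ) ^ 100) * 256) ^ m := by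
      rw [mul_pow, ← pow_mul, mul_comm 100 m]
    have h6 : (((15 / 16 : ℝ) ^ 100) * 256) ^ m ≤ 1 :=
      pow_le_one₀ (by positivity) (by norm_num)
    calc (15 / 16 : ℝ) ^ (m * 100) * n ≤ (15 / 16 : ℝ) ^ (m * 100) * (256 * (256 : ℝ) ^ m) := by
          rw [← h4]
          exact mul_le_mul_of_nonneg_left h3 (by positivity)
      _ = 256 * ((15 / 16 : ℝ) ^ (m * 100) * 256 ^ m) := by ring
      _ ≤ 256 * 1 := by
          rw [h5]
          exact mul_le_mul_of_nonneg_left h6 (by norm_num)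
      _ ≤ 2 ^ 100 := by norm_num
  have hle : y * r ≤ 2 := by
    have := (pow_le_pow_iff_left₀ (by positivity) (by norm_num) (by norm_num : (100 : ℕ) ≠ 0)).mp hkey
    exact this
  calc y = y * r * r⁻¹ := by field_simp
    _ ≤ 2 * r⁻¹ := mul_le_mul_of_nonneg_right hle (by positivity)

end Vale.Agent.Lib.P368
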